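import Crest.Agent.N207.J.Re5

/-! # N207/J/Re6 (helper72): linearity of the amplitudes -/

set_option autoImplicit false
set_option maxHeartbeats 400000
open Filter Topology Set

noncomputable section

namespace Crest.Agent.N207.J

variable {U U' W : E4 → ℂ} {t : ℝ}

theorem mdU_lin (a b : ℂ) (h : ∀ ω : S3, ContinuousAt U (Real.exp t • (ω : E4)))
    (h' : ∀ ω : S3, ContinuousAt U' (Real.exp t • (ω : E4)))
    (e : ∀ ω : S3, W (Real.exp t • (ω : E4)) =
      a * U (Real.exp t • (ω : E4)) + b * U' (Real.exp t • (ω : E4))) (k : ℕ) :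
    mdU W k t = a • mdU U k t + b • mdU U' k t := by
  have : rst W t = a • rst U t + b • rst U' t := by
    rw [rst_congr (U' := fun x => a * U x + b * U' x) e]
    ext ω
    rw [rst_apply' (U := fun x => a * U x + b * U' x)
      fun ω => ((h ω).const_mul a).add ((h' ω).const_mul b)]
    simp [rst_apply' h, rst_apply' h']
  simp only [mdU, this, map_add, map_smul]

theorem mdU_Eu_lin (a b : ℂ) {n : ℕ}
    (h : ∀ ω : S3, ContDiffAt ℝ (n + 1 : ℕ) U (Real.exp t • (ω : E4)))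
    (h' : ∀ ω : S3, ContDiffAt ℝ (n + 1 : ℕ) U' (Real.exp t • (ω : E4)))
    (e : ∀ ω : S3, W =ᶠ[𝓝 (Real.exp t • (ω : E4))] fun x => a * U x + b * U' x) (k : ℕ) :
    mdU (Eu W) k t = a • mdU (Eu U) k t + b • mdU (Eu U') k t := by
  refine mdU_lin a b (fun ω => (contDiffAt_Du _ (h ω)).continuousAt)
    (fun ω => (contDiffAt_Du _ (h' ω)).continuousAt) (fun ω => ?_) k
  have d := ((((h ω).differentiableAt (by simp)).hasFDerivAt.const_mul a).add
    (((h' ω).differentiableAt (by simp)).hasFDerivAt.const_mul b)).fderiv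
  simp only [Du]
  rw [(e ω).fderiv_eq, show fderiv ℝ (fun x => a * U x + b * U' x) _ = _ from d]
  simp only [add_apply, smul_apply, smul_eq_mul]

/-- linearity of the amplitudes -/
theorem pm_qm_lin (a b : ℂ) {n : ℕ}
    (h : ∀ ω : S3, ContDiffAt ℝ (n + 1 : ℕ) U (Real.exp t • (ω : E4)))
    (h' : ∀ ω : S3, ContDiffAt ℝ (n + 1 : ℕ) U' (Real.exp t • (ω : E4)))
    (e : ∀ ω : S3, W =ᶠ[𝓝 (Real.exp t • (ω : E4))] fun x => a * U x + b * U' x) (k : ℕ) :
    pm W k t = a • pm U k t + b • pm U' k t ∧ qm W k t = a • qm U k t + b • qm U' k t := by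
  have e1 := mdU_lin a b (fun ω => (h ω).continuousAt) (fun ω => (h' ω).continuousAt)
    (fun ω => (e ω).eq_of_nhds) k
  have e2 := mdU_Eu_lin a b h h' e k
  simp only [pm, qm, e1, e2]
  constructor <;> module

theorem pm_qm_congr (e : ∀ ω : S3, W =ᶠ[𝓝 (Real.exp t • (ω : E4))] U) (k : ℕ) :
    pm W k t = pm U k t ∧ qm W k t = qm U k t := by
  have e1 : rst W t = rst U t := rst_congr fun ω => (e ω).eq_of_nhds
  have e2 : rst (Eu W) t = rst (Eu U) t := rst_congr fun ω => by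
    simp only [Du, (e ω).fderiv_eq]
  simp only [pm, qm, mdU, e1, e2, and_self]

theorem pm_qm_sub {n : ℕ}
    (h : ∀ ω : S3, ContDiffAt ℝ (n + 1 : ℕ) U (Real.exp t • (ω : E4)))
    (h' : ∀ ω : S3, ContDiffAt ℝ (n + 1 : ℕ) U' (Real.exp t • (ω : E4)))
    (e : ∀ ω : S3, W =ᶠ[𝓝 (Real.exp t • (ω : E4))] fun x => U x - U' x) (k : ℕ) :
    pm W k t = pm U k t - pm U' k t ∧ qm W k t = qm U k t - qm U' k t := by
  simpa [sub_eq_add_neg] using pm_qm_lin 1 (-1) h h' (W := W)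
    (fun ω => by simpa [sub_eq_add_neg] using e ω) k

theorem ev_An {I : Set ℝ} (hI : IsOpen I) (ht : t ∈ I) (e : ∀ x ∈ An I, W x = U x) (ω : S3) :
    W =ᶠ[𝓝 (Real.exp t • (ω : E4))] U :=
  eventually_of_mem (An_mem_nhds hI (polar_mem_An ht ω)) e

end Crest.Agent.N207.J
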