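import Crest.Agent.N207.J.Re4

/-! # N207/J/Re5 (helper72): jets of `C²` functions; amplitudes `p_k`, `q_k`; outgoing lemma -/

set_option autoImplicit false
set_option maxHeartbeats 400000
open MeasureTheory Metric Topology Filter Set
open Crest.Agent.R246.Zon797
open scoped InnerProductSpace

noncomputable section

namespace Crest.Agent.N207.J

variable {U : E4 → ℂ} {I : Set ℝ}

theorem frame_ee (ω : S3) (i : Fin 4) :
    ee i = (ω : E4) i • (ω : E4) + ∑ a, Xv a (ω : E4) i • Xv a (ω : E4) := by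
  ext j
  have h := congrArg (fun u : CS => u ω) (gam_xc i j)
  simp only [ContinuousMap.coe_sum, Finset.sum_apply, ContinuousMap.mul_apply, ← Xv_coord,
    ContinuousMap.sub_apply, xc_apply] at h
  have h2 : ∑ a, Xv a (ω : E4) i * Xv a (ω : E4) j
      = (if i = j then 1 else 0) - (ω : E4) i * (ω : E4) j := by
    apply Complex.ofReal_injective
    push_cast
    rw [h]
    split_ifs <;> simp
  simp only [PiLp.add_apply, PiLp.smul_apply, smul_eq_mul, WithLp.ofLp_sum, Finset.sum_apply,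
    WithLp.ofLp_smul, Pi.smul_apply, h2]
  by_cases hij : i = j
  · subst hij; simp
  · simp [hij, Ne.symm hij]

/-- first jet of a `C¹` function -/
theorem jet1_rst {n : ℕ} {t : ℝ}
    (h : ∀ ω : S3, ContDiffAt ℝ (n + 1 : ℕ) U (Real.exp t • (ω : E4))) (i : Fin 4) (ω : S3) :
    J1 i (rst U t) (rst (Eu U) t) ω
      = ((Real.exp t : ℝ) : ℂ) * fderiv ℝ U (Real.exp t • (ω : E4)) (ee i) := by
  have c1 := fun A (ω : S3) => (contDiffAt_Du A (h ω)).continuousAt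
  simp only [J1, gr, (HR_rst h _).R_eq, ContinuousMap.add_apply, ContinuousMap.mul_apply,
    ContinuousMap.coe_sum, Finset.sum_apply, rst_apply' (c1 _), ← Xv_coord, xc_apply]
  conv_rhs => rw [frame_ee ω i]
  simp only [Du, ContinuousLinearMap.id_apply, map_smul, map_add, map_sum, Complex.real_smul,
    mul_add, Finset.mul_sum]
  congr 1
  · ring
  · exact Finset.sum_congr rfl fun a _ => by ring

theorem hasFDerivAt_nrm {x : E4} (hx : x ≠ 0) :
    HasFDerivAt (fun y : E4 => ‖y‖) (‖x‖⁻¹ • innerSL ℝ x) x := by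
  have h := (hasFDerivAt_logn hx).exp
  have hn := norm_pos_iff.2 hx
  refine (h.congr_of_eventuallyEq ?_).congr_fderiv ?_
  · filter_upwards [isOpen_ne.mem_nhds hx] with y hy
    rw [Real.exp_log (norm_pos_iff.2 hy)]
  · ext v
    simp [Real.exp_log hn]
    field_simp

/-- second jet of a `C²` function -/
theorem jet2_rst {t : ℝ} (h : ∀ ω : S3, ContDiffAt ℝ (2 : ℕ) U (Real.exp t • (ω : E4)))
    (l i : Fin 4) (ω : S3) :
    J2 l i (rst U t) (rst (Eu U) t) (rst (Eu (Eu U)) t) ω = ((Real.exp t : ℝ) : ℂ) ^ 2 *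
      fderiv ℝ (fun y => fderiv ℝ U y (ee i)) (Real.exp t • (ω : E4)) (ee l) := by
  set V' : E4 → ℂ := fun y => ((‖y‖ : ℝ) : ℂ) * fderiv ℝ U y (ee i) with hV
  have hx := fun ω : S3 => smul_S3_ne (Real.exp_pos t) ω
  have hn := fun ω : S3 => norm_smul_S3 (Real.exp_pos t) ω
  have g1 : ∀ ω : S3, ContDiffAt ℝ (0 + 1 : ℕ) (fun y => fderiv ℝ U y (ee i))
      (Real.exp t • (ω : E4)) := fun ω =>
    ((h ω).fderiv_right (by norm_cast)).clm_apply contDiffAt_const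
  have g2 : ∀ ω : S3, ContDiffAt ℝ (0 + 1 : ℕ) V' (Real.exp t • (ω : E4)) := fun ω =>
    (Complex.ofRealCLM.contDiff.contDiffAt.comp _ (contDiffAt_norm ℝ (hx ω))).mul (g1 ω)
  have g3 : ∀ (ω : S3) (v : E4), fderiv ℝ V' (Real.exp t • (ω : E4)) v =
      ((Real.exp t : ℝ) : ℂ) * fderiv ℝ (fun y => fderiv ℝ U y (ee i)) (Real.exp t • (ω : E4)) v +
      ((inner ℝ (ω : E4) v : ℝ) : ℂ) * fderiv ℝ U (Real.exp t • (ω : E4)) (ee i) := by
    intro ω v
    have := (Complex.ofRealCLM.hasFDerivAt.comp _ (hasFDerivAt_nrm (hx ω))).mul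
      ((g1 ω).differentiableAt (by simp)).hasFDerivAt
    rw [show fderiv ℝ V' _ = _ from this.fderiv]
    have he : ((Real.exp t : ℝ) : ℂ) ≠ 0 := by exact_mod_cast (Real.exp_pos t).ne'
    simp only [add_apply, smul_apply, Function.comp_apply, Complex.ofRealCLM_apply, hn,
      smul_eq_mul, ContinuousLinearMap.comp_apply, innerSL_apply_apply, inner_smul_left]
    push_cast at he ⊢
    simp only [conj_trivial]
    push_cast
    field_simp
  have e1 : J1 i (rst U t) (rst (Eu U) t) = rst V' t := by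
    ext ω
    rw [jet1_rst (n := 1) h, rst_apply' fun ω => (g2 ω).continuousAt, hV]
    simp only [hn]
  have e2 : J1 i (rst (Eu U) t) (rst (Eu (Eu U)) t) = rst (Eu V') t := by
    ext ω
    rw [jet1_rst (n := 0) fun ω => contDiffAt_Du _ (h ω),
      rst_apply' fun ω => (contDiffAt_Du _ (g2 ω)).continuousAt]
    have k1 := Du_Du (h ω) ((innerSL ℝ (ω : E4)).smulRight (ee i)) (ContinuousLinearMap.id ℝ E4)
    have k2 : inner ℝ (ω : E4) (Real.exp t • (ω : E4)) = Real.exp t := by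
      rw [inner_smul_right, real_inner_self_eq_norm_sq, S3_norm]; ring
    have k3 := ((h ω).isSymmSndFDerivAt (by simp)).eq (ee i) (Real.exp t • (ω : E4))
    rw [show Du (ContinuousLinearMap.id ℝ E4) V' (Real.exp t • (ω : E4)) =
      fderiv ℝ V' _ (Real.exp t • (ω : E4)) from rfl, g3, k2, fderiv_fderiv_apply (h ω), ← k3]
    rw [show Du ((innerSL ℝ (ω : E4)).smulRight (ee i)) (Eu U) (Real.exp t • (ω : E4)) =
      fderiv ℝ (Eu U) _ (inner ℝ (ω : E4) (Real.exp t • (ω : E4)) • ee i) from rfl] at k1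
    simp only [ContinuousLinearMap.smulRight_apply, innerSL_apply_apply, k2, map_smul,
      ContinuousLinearMap.id_apply, smul_apply, Complex.real_smul] at k1
    simp only [map_smul, Complex.real_smul]
    rw [real_inner_self_eq_norm_sq, S3_norm] at k1
    simpa using k1
  have e3 := jet1_rst g2 l ω
  rw [g3, inner_ee] at e3
  have e4 := jet1_rst (n := 1) h i ω
  rw [J2, e2, e1]
  rw [e1] at e4
  simp only [J1, ContinuousMap.add_apply, ContinuousMap.mul_apply, ContinuousMap.sub_apply,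
    xc_apply] at e3 ⊢
  rw [e4]
  linear_combination e3

/-! ### amplitudes -/

/-- mode `k` of `U` at radius `e^t` -/
def mdU (U : E4 → ℂ) (k : ℕ) (t : ℝ) : H := P k (toH (rst U t))

/-- growing amplitude -/
def pm (U : E4 → ℂ) (k : ℕ) (t : ℝ) : H :=
  (2 * (k : ℂ) + 2)⁻¹ • (((k : ℂ) + 2) • mdU U k t + mdU (Eu U) k t)

/-- decaying amplitude -/
def qm (U : E4 → ℂ) (k : ℕ) (t : ℝ) : H :=
  (2 * (k : ℂ) + 2)⁻¹ • ((k : ℂ) • mdU U k t - mdU (Eu U) k t)

theorem two_k_ne (k : ℕ) : (2 * (k : ℂ) + 2) ≠ 0 := by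
  exact_mod_cast (by omega : 2 * k + 2 ≠ 0)

theorem P_mdU (k : ℕ) (t : ℝ) : P k (mdU U k t) = mdU U k t := P_P _ _
theorem P_pm (k : ℕ) (t : ℝ) : P k (pm U k t) = pm U k t := by simp only [pm, map_smul, map_add, P_mdU]
theorem P_qm (k : ℕ) (t : ℝ) : P k (qm U k t) = qm U k t := by simp only [qm, map_smul, map_sub, P_mdU]

theorem pm_add_qm (k : ℕ) (t : ℝ) : pm U k t + qm U k t = mdU U k t := by
  have := two_k_ne k
  unfold pm qm
  match_scalars <;> field_simp <;> ring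

theorem pm_sub_qm (k : ℕ) (t : ℝ) :
    (k : ℂ) • pm U k t - ((k : ℂ) + 2) • qm U k t = mdU (Eu U) k t := by
  have := two_k_ne k
  unfold pm qm
  match_scalars <;> field_simp <;> ring

theorem mdU_eq {t : ℝ} (h : ∀ ω : S3, ContDiffAt ℝ (2 : ℕ) U (Real.exp t • (ω : E4))) (k : ℕ) :
    mdU (Eu (Eu U)) k t = mdU (Lp2 U) k t - (2 : ℂ) • mdU (Eu U) k t
      + ((k : ℂ) * (k + 2)) • mdU U k t := by
  have := mode_eq h k
  push_cast at this
  unfold mdU
  rw [← this]; abel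

theorem pm_qm_two {t : ℝ} (h : ∀ ω : S3, ContDiffAt ℝ (2 : ℕ) U (Real.exp t • (ω : E4))) (k : ℕ) :
    (k : ℂ) ^ 2 • pm U k t + ((k : ℂ) + 2) ^ 2 • qm U k t + mdU (Lp2 U) k t
      = mdU (Eu (Eu U)) k t := by
  have := two_k_ne k
  rw [mdU_eq h]
  unfold pm qm
  match_scalars <;> field_simp <;> ring

theorem hasDerivAt_mdU (hI : IsOpen I) {n : ℕ} (h : ContDiffOn ℝ (n + 1 : ℕ) U (An I)) (k : ℕ)
    {t : ℝ} (ht : t ∈ I) : HasDerivAt (mdU U k) (mdU (Eu U) k t) t :=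
  ((P k ∘L toH).restrictScalars ℝ).hasFDerivAt.comp_hasDerivAt t (hasDerivAt_rst hI h ht)

theorem continuousOn_mdU (h : ContinuousOn U (An I)) (k : ℕ) : ContinuousOn (mdU U k) I :=
  (P k ∘L toH).continuous.comp_continuousOn (continuousOn_rst h)

theorem hasDerivAt_pm (hI : IsOpen I) (h : ContDiffOn ℝ (2 : ℕ) U (An I)) (k : ℕ) {t : ℝ}
    (ht : t ∈ I) :
    HasDerivAt (pm U k) ((k : ℂ) • pm U k t + (2 * (k : ℂ) + 2)⁻¹ • mdU (Lp2 U) k t) t := by
  have h1 := (((hasDerivAt_mdU hI (n := 1) h k ht).const_smul ((k : ℂ) + 2)).add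
    (hasDerivAt_mdU hI (n := 0) (contDiffOn_Du hI (ContinuousLinearMap.id ℝ E4) h) k ht)).const_smul (2 * (k : ℂ) + 2)⁻¹
  refine h1.congr_deriv ?_
  rw [mdU_eq fun ω => h.contDiffAt (An_mem_nhds hI (polar_mem_An ht ω)), pm]
  match_scalars <;> ring

theorem hasDerivAt_qm (hI : IsOpen I) (h : ContDiffOn ℝ (2 : ℕ) U (An I)) (k : ℕ) {t : ℝ}
    (ht : t ∈ I) :
    HasDerivAt (qm U k) (-((k : ℂ) + 2) • qm U k t - (2 * (k : ℂ) + 2)⁻¹ • mdU (Lp2 U) k t) t := by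
  have h1 := (((hasDerivAt_mdU hI (n := 1) h k ht).const_smul (k : ℂ)).sub
    (hasDerivAt_mdU hI (n := 0) (contDiffOn_Du hI (ContinuousLinearMap.id ℝ E4) h) k ht)).const_smul (2 * (k : ℂ) + 2)⁻¹
  refine h1.congr_deriv ?_
  rw [mdU_eq fun ω => h.contDiffAt (An_mem_nhds hI (polar_mem_An ht ω)), qm]
  match_scalars <;> ring

theorem norm_mdU_le {t M : ℝ} (h : ∀ ω : S3, ‖U (Real.exp t • (ω : E4))‖ ≤ M) (k : ℕ) :
    ‖mdU U k t‖ ≤ 5 * M :=
  (norm_P_le k _).trans ((norm_toH_le _).trans (mul_le_mul_of_nonneg_left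
    (norm_rst_le ((norm_nonneg _).trans (h (prj 0))) h) (by norm_num)))

theorem norm_inv_two_k (k : ℕ) : ‖(2 * (k : ℂ) + 2)⁻¹‖ = (2 * ((k : ℝ) + 1))⁻¹ := by
  rw [norm_inv, show (2 * (k : ℂ) + 2) = ((2 * ((k : ℝ) + 1) : ℝ) : ℂ) by push_cast; ring,
    Complex.norm_real, Real.norm_of_nonneg (by positivity)]

theorem norm_pm_le (k : ℕ) (t : ℝ) :
    ‖pm U k t‖ ≤ ‖mdU U k t‖ + ((k : ℝ) + 1)⁻¹ * ‖mdU (Eu U) k t‖ := by
  rw [pm, norm_smul, norm_inv_two_k]
  refine (mul_le_mul_of_nonneg_left (norm_add_le _ _) (by positivity)).trans ?_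
  rw [norm_smul, show ((k : ℂ) + 2) = (((k : ℝ) + 2 : ℝ) : ℂ) by push_cast; ring,
    Complex.norm_real, Real.norm_of_nonneg (by positivity), mul_add, ← mul_assoc]
  refine add_le_add (mul_le_of_le_one_left (norm_nonneg _) ?_)
    (mul_le_mul_of_nonneg_right (inv_anti₀ (by positivity) ?_) (norm_nonneg _))
  · rw [inv_mul_le_iff₀ (by positivity)]; linarith [(Nat.cast_nonneg k : (0 : ℝ) ≤ k)]
  · linarith [(Nat.cast_nonneg k : (0 : ℝ) ≤ k)]

theorem norm_qm_le (k : ℕ) (t : ℝ) :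
    ‖qm U k t‖ ≤ ‖mdU U k t‖ + ((k : ℝ) + 1)⁻¹ * ‖mdU (Eu U) k t‖ := by
  rw [qm, norm_smul, norm_inv_two_k]
  refine (mul_le_mul_of_nonneg_left (norm_sub_le _ _) (by positivity)).trans ?_
  rw [norm_smul, Complex.norm_natCast, mul_add, ← mul_assoc]
  refine add_le_add (mul_le_of_le_one_left (norm_nonneg _) ?_)
    (mul_le_mul_of_nonneg_right (inv_anti₀ (by positivity) ?_) (norm_nonneg _))
  · rw [inv_mul_le_iff₀ (by positivity)]; linarith [(Nat.cast_nonneg k : (0 : ℝ) ≤ k)]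
  · linarith [(Nat.cast_nonneg k : (0 : ℝ) ≤ k)]

theorem mdU_zero_of {t : ℝ} (h : ∀ ω : S3, U (Real.exp t • (ω : E4)) = 0) (k : ℕ) :
    mdU U k t = 0 := by
  have := norm_mdU_le (U := U) (t := t) (M := 0) (fun ω => by rw [h ω, norm_zero]) k
  simpa using this

/-! ### harmonic functions -/

theorem flow_of_ode {v : ℝ → H} {m : ℝ} (hI : IsOpen I) (hc : IsPreconnected I)
    (h : ∀ t ∈ I, HasDerivAt v ((m : ℂ) • v t) t) {s t : ℝ} (hs : s ∈ I) (ht : t ∈ I) :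
    v t = Real.exp (m * (t - s)) • v s := by
  have h1 : ∀ t ∈ I, HasDerivAt (fun t => Real.exp (-m * t) • v t) 0 t := fun t ht => by
    refine ((((hasDerivAt_id t).const_mul (-m)).exp).smul (h t ht)).congr_deriv ?_
    rw [Complex.coe_smul]
    match_scalars
    ring
  have h2 := hI.is_const_of_deriv_eq_zero hc
    (fun t ht => (h1 t ht).differentiableAt.differentiableWithinAt)
    (fun t ht => (h1 t ht).deriv) ht hs
  have h3 := congrArg (fun z => Real.exp (m * t) • z) h2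
  simp only [smul_smul, ← Real.exp_add] at h3
  rw [show m * t + -m * t = 0 by ring, Real.exp_zero, one_smul] at h3
  rw [h3]; congr 2; ring

theorem pm_harm (hI : IsOpen I) (hc : IsPreconnected I) (h : ContDiffOn ℝ (2 : ℕ) U (An I))
    (h0 : ∀ x ∈ An I, Lp2 U x = 0) (k : ℕ) {s t : ℝ} (hs : s ∈ I) (ht : t ∈ I) :
    pm U k t = Real.exp (k * (t - s)) • pm U k s :=
  flow_of_ode hI hc (fun t ht => by
    simpa [mdU_zero_of fun ω => h0 _ (polar_mem_An ht ω)] using hasDerivAt_pm hI h k ht) hs ht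

theorem qm_harm (hI : IsOpen I) (hc : IsPreconnected I) (h : ContDiffOn ℝ (2 : ℕ) U (An I))
    (h0 : ∀ x ∈ An I, Lp2 U x = 0) (k : ℕ) {s t : ℝ} (hs : s ∈ I) (ht : t ∈ I) :
    qm U k t = Real.exp (-(k + 2) * (t - s)) • qm U k s :=
  flow_of_ode hI hc (fun t ht => by
    simpa [mdU_zero_of fun ω => h0 _ (polar_mem_An ht ω)] using hasDerivAt_qm hI h k ht) hs ht

theorem norm_mdU_grw {C σ t : ℝ} (hb : ∀ x ∈ An I, ‖U x‖ ≤ C * ‖x‖ ^ (-σ)) (ht : t ∈ I) (k : ℕ) :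
    ‖mdU U k t‖ ≤ 5 * (C * Real.exp (-σ * t)) :=
  norm_mdU_le (fun ω => by
    have := hb _ (polar_mem_An ht ω)
    rwa [norm_smul_S3 (Real.exp_pos t), ← Real.exp_mul, mul_comm t] at this) k

/-- **outgoing at infinity** -/
theorem pm_zero_of_decay {T C σ : ℝ} (hσ : 0 < σ) (h : ContDiffOn ℝ (2 : ℕ) U (An (Ioi T)))
    (h0 : ∀ x ∈ An (Ioi T), Lp2 U x = 0) (hb : ∀ x ∈ An (Ioi T), ‖U x‖ ≤ C * ‖x‖ ^ (-σ))
    (k : ℕ) {s : ℝ} (hs : T < s) : pm U k s = 0 := by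
  have l1 : ∀ c : ℝ, 0 < c → Tendsto (fun t => Real.exp (-c * t)) atTop (𝓝 0) := fun c hc =>
    Real.tendsto_exp_atBot.comp (tendsto_id.const_mul_atTop_of_neg (by linarith))
  have l2 : Tendsto (fun t => 5 * (C * Real.exp (-σ * t)) +
      Real.exp (-2 * t) * (Real.exp (2 * s) * ‖qm U k s‖)) atTop (𝓝 0) := by
    simpa using (((l1 σ hσ).const_mul C).const_mul 5).add ((l1 2 two_pos).mul_const _)
  refine norm_le_zero_iff.1 (ge_of_tendsto l2 ?_)
  filter_upwards [eventually_ge_atTop s] with t ht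
  have ht' : t ∈ Ioi T := lt_of_lt_of_le hs ht
  have hk : (0 : ℝ) ≤ k := Nat.cast_nonneg k
  have e1 := pm_harm isOpen_Ioi isPreconnected_Ioi h h0 k hs ht'
  have e2 := qm_harm isOpen_Ioi isPreconnected_Ioi h h0 k hs ht'
  have e3 : ‖pm U k t‖ ≤ ‖mdU U k t‖ + ‖qm U k t‖ := by
    rw [← pm_add_qm]; simpa using norm_sub_le (pm U k t + qm U k t) (qm U k t)
  rw [e1, e2, norm_smul, norm_smul, Real.norm_eq_abs, Real.norm_eq_abs, Real.abs_exp,
    Real.abs_exp] at e3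
  have e4 : ‖pm U k s‖ ≤ Real.exp (k * (t - s)) * ‖pm U k s‖ :=
    le_mul_of_one_le_left (norm_nonneg _) (Real.one_le_exp (by nlinarith))
  refine e4.trans (e3.trans (add_le_add (norm_mdU_grw hb ht' k) ?_))
  rw [← mul_assoc, ← Real.exp_add]
  exact mul_le_mul_of_nonneg_right (Real.exp_le_exp.2 (by nlinarith)) (norm_nonneg _)

/-- **outgoing at a puncture** -/
theorem qm_zero_of_growth {T C σ : ℝ} (hσ : σ < 2) (h : ContDiffOn ℝ (2 : ℕ) U (An (Iio T)))
    (h0 : ∀ x ∈ An (Iio T), Lp2 U x = 0) (hb : ∀ x ∈ An (Iio T), ‖U x‖ ≤ C * ‖x‖ ^ (-σ))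
    (k : ℕ) {s : ℝ} (hs : s < T) : qm U k s = 0 := by
  have l1 : ∀ c : ℝ, 0 < c → Tendsto (fun t => Real.exp (c * t)) atBot (𝓝 0) := fun c hc =>
    Real.tendsto_exp_atBot.comp (tendsto_id.const_mul_atBot hc)
  have l2 : Tendsto (fun t => Real.exp ((2 - σ) * t) * (Real.exp (-2 * s) * (5 * C)) +
      Real.exp (2 * t) * (Real.exp (-2 * s) * ‖pm U k s‖)) atBot (𝓝 0) := by
    simpa using ((l1 (2 - σ) (by linarith)).mul_const _).add ((l1 2 two_pos).mul_const _)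
  refine norm_le_zero_iff.1 (ge_of_tendsto l2 ?_)
  filter_upwards [eventually_le_atBot s] with t ht
  have ht' : t ∈ Iio T := lt_of_le_of_lt ht hs
  have hk : (0 : ℝ) ≤ k := Nat.cast_nonneg k
  have e1 := pm_harm isOpen_Iio isPreconnected_Iio h h0 k hs ht'
  have e2 := qm_harm isOpen_Iio isPreconnected_Iio h h0 k ht' hs
  have e3 : ‖qm U k t‖ ≤ ‖mdU U k t‖ + ‖pm U k t‖ := by
    rw [← pm_add_qm]; simpa using norm_sub_le (pm U k t + qm U k t) (pm U k t)
  have e4 : ‖pm U k t‖ ≤ ‖pm U k s‖ := by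
    rw [e1, norm_smul, Real.norm_eq_abs, Real.abs_exp]
    exact mul_le_of_le_one_left (norm_nonneg _) (Real.exp_le_one_iff.2 (by nlinarith))
  have e5 : ‖qm U k s‖ ≤ Real.exp (2 * t + -2 * s) * ‖qm U k t‖ := by
    rw [e2, norm_smul, Real.norm_eq_abs, Real.abs_exp]
    exact mul_le_mul_of_nonneg_right (Real.exp_le_exp.2 (by nlinarith)) (norm_nonneg _)
  refine e5.trans ((mul_le_mul_of_nonneg_left (e3.trans (add_le_add (norm_mdU_grw hb ht' k) e4))
    (Real.exp_pos _).le).trans (le_of_eq ?_))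
  rw [show (2 - σ) * t = 2 * t + -σ * t by ring, Real.exp_add, Real.exp_add]
  ring

end Crest.Agent.N207.J
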