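import Mathlib.Analysis.Analytic.Basic
import Mathlib.Analysis.SpecialFunctions.Pow.Asymptotics
import Mathlib.Analysis.SpecialFunctions.Log.Basic
import Mathlib.Analysis.Complex.Basic
import Mathlib.Analysis.SpecialFunctions.ExpDeriv

/-!
# Row 207, block J (helper77): one variable Dulac expansions, definitions and the real class

`mon q j L = e^{-qL/2} L^j`; `IsPol f`: finite sums `∑ mon q j • e`, `j ≤ 2q`;
`ExK κ N`: `N = polynomial + O(e^{-κ x})` on the real axis; `Dul C N c`: the class on `Om C`.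
-/

set_option autoImplicit false

open Set Filter Asymptotics
open scoped Topology

noncomputable section

namespace Crest.Agent.N207.J

/-- the logarithmic domain -/
def Om (C : ℝ) : Set ℂ := {L | C * (1 + Real.log (1 + ‖L‖)) < L.re}

/-- `Y^q L^j`, `Y = e^{-L/2}` -/
def mon (q j : ℕ) (L : ℂ) : ℂ := Complex.exp (-(q : ℂ) * L / 2) * L ^ j

variable {E E' : Type*} [NormedAddCommGroup E] [NormedSpace ℂ E] [NormedAddCommGroup E']
  [NormedSpace ℂ E']

/-- partial sums -/
def psum (c : ℕ → ℕ → E) (K : ℕ) (L : ℂ) : E :=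
  ∑ q ∈ Finset.range K, ∑ j ∈ Finset.range (2 * q + 1), mon q j L • c q j

/-- the class on the logarithmic domain -/
structure Dul (C : ℝ) (N : ℂ → E) (c : ℕ → ℕ → E) : Prop where
  diff : DifferentiableOn ℂ N (Om C)
  est : ∀ K : ℕ, ∃ B : ℝ, ∀ L ∈ Om C, ‖N L - psum c K L‖ ≤ B * Real.exp (-(K : ℝ) * L.re / 4)

/-- finite exponential polynomials -/
def IsPol (f : ℂ → E) : Prop :=
  ∃ (ι : Type) (_ : Fintype ι) (q j : ι → ℕ) (e : ι → E), (∀ i, j i ≤ 2 * q i) ∧
    ∀ L, f L = ∑ i, mon (q i) (j i) L • e i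

/-- truncated expansion on the real axis -/
def ExK (κ : ℝ) (N : ℝ → E) : Prop :=
  ∃ f : ℂ → E, IsPol f ∧ (fun x : ℝ => N x - f x) =O[atTop] fun x => Real.exp (-κ * x)

theorem mon_mul (q j q' j' : ℕ) (L : ℂ) : mon q j L * mon q' j' L = mon (q + q') (j + j') L := by
  simp only [mon, Nat.cast_add, pow_add]
  rw [show -((q : ℂ) + q') * L / 2 = -(q : ℂ) * L / 2 + -(q' : ℂ) * L / 2 by ring, Complex.exp_add]
  ring

theorem mon_zero (L : ℂ) : mon 0 0 L = 1 := by simp [mon]

theorem mon_prod {ι : Type*} (s : Finset ι) (q j : ι → ℕ) (L : ℂ) :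
    ∏ i ∈ s, mon (q i) (j i) L = mon (∑ i ∈ s, q i) (∑ i ∈ s, j i) L := by
  classical
  induction s using Finset.induction_on with
  | empty => simp [mon_zero]
  | insert a s ha ih => simp only [Finset.prod_insert ha, Finset.sum_insert ha, ih, mon_mul]

theorem norm_mon (q j : ℕ) (L : ℂ) : ‖mon q j L‖ = Real.exp (-(q : ℝ) * L.re / 2) * ‖L‖ ^ j := by
  simp [mon, Complex.norm_exp]

theorem differentiable_mon (q j : ℕ) : Differentiable ℂ (mon q j) := by
  unfold mon; fun_prop

theorem mon_isBigO (q j : ℕ) {κ : ℝ} (h : κ < q / 2) :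
    (fun x : ℝ => mon q j x) =O[atTop] fun x => Real.exp (-κ * x) := by
  have h1 := isLittleO_pow_exp_pos_mul_atTop j (b := q / 2 - κ) (by linarith)
  have h2 := (isBigO_refl (fun x : ℝ => Real.exp (-(q : ℝ) * x / 2)) atTop).mul h1.isBigO
  refine IsBigO.trans ?_ (h2.congr_right fun x => ?_)
  · refine IsBigO.of_bound 1 (Eventually.of_forall fun x => ?_)
    rw [norm_mon]; simp [abs_of_pos (Real.exp_pos _)]
  · rw [← Real.exp_add]; congr 1; ring

namespace IsPol

theorem single {q j : ℕ} (h : j ≤ 2 * q) (e : E) : IsPol fun L => mon q j L • e :=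
  ⟨Unit, inferInstance, fun _ => q, fun _ => j, fun _ => e, fun _ => h, fun L => by simp⟩

theorem const (e : E) : IsPol fun _ => e := by
  simpa [mon_zero] using single (q := 0) (j := 0) le_rfl e

theorem add {f g : ℂ → E} (hf : IsPol f) (hg : IsPol g) : IsPol fun L => f L + g L := by
  obtain ⟨ι, _, q, j, e, h1, h2⟩ := hf
  obtain ⟨ι', _, q', j', e', h1', h2'⟩ := hg
  refine ⟨ι ⊕ ι', inferInstance, Sum.elim q q', Sum.elim j j', Sum.elim e e', ?_, fun L => ?_⟩
  · rintro (i | i)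
    · exact h1 i
    · exact h1' i
  · simp [Fintype.sum_sum_type, h2, h2']

theorem sum {ι : Type*} (s : Finset ι) {f : ι → ℂ → E} (hf : ∀ i ∈ s, IsPol (f i)) :
    IsPol fun L => ∑ i ∈ s, f i L := by
  classical
  induction s using Finset.induction_on with
  | empty => simpa using const (0 : E)
  | insert a s ha ih =>
    simp only [Finset.sum_insert ha]
    exact (hf a (Finset.mem_insert_self _ _)).add
      (ih fun i hi => hf i (Finset.mem_insert_of_mem hi))

theorem psum (c : ℕ → ℕ → E) (K : ℕ) : IsPol (J.psum c K) :=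
  sum _ fun _ _ => sum _ fun _ hj => single (Nat.lt_succ_iff.1 (Finset.mem_range.1 hj)) _

theorem clm {f : ℂ → E} (hf : IsPol f) (A : E →L[ℂ] E') : IsPol fun L => A (f L) := by
  obtain ⟨ι, _, q, j, e, h1, h2⟩ := hf
  exact ⟨ι, inferInstance, q, j, fun i => A (e i), h1, fun L => by simp [h2]⟩

theorem neg {f : ℂ → E} (hf : IsPol f) : IsPol fun L => -f L :=
  hf.clm (-ContinuousLinearMap.id ℂ E)

theorem multi {f : ℂ → E} (hf : IsPol f) {n : ℕ}
    (p : ContinuousMultilinearMap ℂ (fun _ : Fin n => E) E') : IsPol fun L => p fun _ => f L := by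
  obtain ⟨ι, _, q, j, e, h1, h2⟩ := hf
  refine ⟨Fin n → ι, inferInstance, fun I => ∑ s, q (I s), fun I => ∑ s, j (I s),
    fun I => p fun s => e (I s), fun I => ?_, fun L => ?_⟩
  · rw [Finset.mul_sum]; exact Finset.sum_le_sum fun s _ => h1 _
  · simp only [h2]
    rw [p.map_sum (fun _ i => mon (q i) (j i) L • e i)]
    refine Finset.sum_congr rfl fun I _ => ?_
    rw [p.map_smul_univ, mon_prod]

theorem shift {f : ℂ → E} (hf : IsPol f) (a : ℂ) : IsPol fun L => f (L + a) := by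
  obtain ⟨ι, _, q, j, e, h1, h2⟩ := hf
  simp only [h2]
  refine sum _ fun i _ => ?_
  have e1 : ∀ L, mon (q i) (j i) (L + a) • e i = ∑ m ∈ Finset.range (j i + 1), mon (q i) m L •
      ((Complex.exp (-(q i : ℂ) * a / 2) * a ^ (j i - m) * ((j i).choose m : ℂ)) • e i) := by
    intro L
    simp only [smul_smul, ← Finset.sum_smul, mon, add_pow, Finset.mul_sum]
    congr 1
    refine Finset.sum_congr rfl fun m _ => ?_
    rw [show -(q i : ℂ) * (L + a) / 2 = -(q i : ℂ) * L / 2 + -(q i : ℂ) * a / 2 by ring,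
      Complex.exp_add]
    ring
  simp only [e1]
  exact sum _ fun m hm => single ((Nat.lt_succ_iff.1 (Finset.mem_range.1 hm)).trans (h1 i)) _

theorem differentiable {f : ℂ → E} (hf : IsPol f) : Differentiable ℂ f := by
  obtain ⟨ι, _, q, j, e, -, h2⟩ := hf
  rw [show f = fun L => ∑ i, mon (q i) (j i) L • e i from funext h2]
  exact Differentiable.fun_sum fun i _ => (differentiable_mon _ _).smul_const _

/-- normal form -/
theorem exists_psum {f : ℂ → E} (hf : IsPol f) :
    ∃ (K0 : ℕ) (c : ℕ → ℕ → E), ∀ K, K0 ≤ K → ∀ L, f L = J.psum c K L := by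
  classical
  obtain ⟨ι, _, q, j, e, h1, h2⟩ := hf
  refine ⟨Finset.univ.sup q + 1, fun a b => ∑ i, if q i = a ∧ j i = b then e i else 0,
    fun K hK L => ?_⟩
  simp only [h2, J.psum, Finset.smul_sum]
  rw [Finset.sum_congr rfl fun a _ => Finset.sum_comm, Finset.sum_comm]
  refine Finset.sum_congr rfl fun i _ => ?_
  have hq : q i ∈ Finset.range K :=
    Finset.mem_range.2 (lt_of_lt_of_le (Nat.lt_succ_of_le (Finset.le_sup (Finset.mem_univ i))) hK)
  have hj : j i ∈ Finset.range (2 * q i + 1) := Finset.mem_range.2 (Nat.lt_succ_of_le (h1 i))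
  rw [Finset.sum_eq_single_of_mem _ hq, Finset.sum_eq_single_of_mem _ hj]
  · simp
  · intro b _ hb; simp [hb.symm]
  · intro a _ ha; simp [ha.symm]

/-- a polynomial is a constant up to `O(e^{-x/4})` -/
theorem exists_lim {f : ℂ → E} (hf : IsPol f) :
    ∃ m : E, (fun x : ℝ => f x - m) =O[atTop] fun x => Real.exp (-(1 / 4) * x) := by
  obtain ⟨ι, _, q, j, e, h1, h2⟩ := hf
  refine ⟨∑ i, if q i = 0 then e i else 0, ?_⟩
  simp only [h2, ← Finset.sum_sub_distrib]
  refine IsBigO.fun_sum (A := fun i (x : ℝ) => mon (q i) (j i) x • e i - if q i = 0 then e i else 0)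
    fun i _ => ?_
  by_cases h : q i = 0
  · have hj : j i = 0 := by have := h1 i; omega
    simp [h, hj, mon_zero, isBigO_zero]
  · have h3 : (1 / 4 : ℝ) < q i / 2 := by
      have : (1 : ℝ) ≤ q i := by exact_mod_cast Nat.one_le_iff_ne_zero.2 h
      linarith
    simp only [h, if_false, sub_zero]
    simpa using (mon_isBigO (q i) (j i) h3).smul (isBigO_const_one ℝ (e i) atTop)

end IsPol

theorem exp_isBigO {κ κ' : ℝ} (h : κ ≤ κ') :
    (fun x : ℝ => Real.exp (-κ' * x)) =O[atTop] fun x => Real.exp (-κ * x) := by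
  refine IsBigO.of_bound 1 ?_
  filter_upwards [eventually_ge_atTop 0] with x hx
  simp only [Real.norm_eq_abs, abs_of_pos (Real.exp_pos _), one_mul]
  exact Real.exp_le_exp.2 (by nlinarith)

theorem tendsto_exp_neg {κ : ℝ} (h : 0 < κ) :
    Tendsto (fun x : ℝ => Real.exp (-κ * x)) atTop (𝓝 0) :=
  Real.tendsto_exp_atBot.comp (tendsto_id.const_mul_atTop_of_neg (by linarith))

namespace ExK

variable {κ κ' : ℝ} {N N' : ℝ → E}

theorem mono (h : ExK κ' N) (hκ : κ ≤ κ') : ExK κ N := by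
  obtain ⟨f, h1, h2⟩ := h
  exact ⟨f, h1, h2.trans (exp_isBigO hκ)⟩

theorem of_isBigO (h : ExK κ N) (h' : (fun x => N' x - N x) =O[atTop] fun x => Real.exp (-κ * x)) :
    ExK κ N' := by
  obtain ⟨f, h1, h2⟩ := h
  exact ⟨f, h1, (h'.add h2).congr_left fun x => by abel⟩

theorem congr (h : ExK κ N) (h' : N =ᶠ[atTop] N') : ExK κ N' :=
  h.of_isBigO ((isBigO_zero _ _).congr' (h'.mono fun x hx => by simp [hx]) EventuallyEq.rfl)

theorem pol {f : ℂ → E} (hf : IsPol f) : ExK κ fun x => f x :=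
  ⟨f, hf, by simpa using isBigO_zero _ _⟩

theorem const (e : E) : ExK κ fun _ => e := pol (IsPol.const e)

theorem small (h : N =O[atTop] fun x => Real.exp (-κ * x)) : ExK κ N :=
  (const 0).of_isBigO (by simpa using h)

theorem add (h : ExK κ N) (h' : ExK κ N') : ExK κ fun x => N x + N' x := by
  obtain ⟨f, h1, h2⟩ := h
  obtain ⟨g, h3, h4⟩ := h'
  exact ⟨_, h1.add h3, (h2.add h4).congr_left fun x => by simp only []; abel⟩

theorem clm (h : ExK κ N) (A : E →L[ℂ] E') : ExK κ fun x => A (N x) := by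
  obtain ⟨f, h1, h2⟩ := h
  exact ⟨_, h1.clm A, ((A.isBigO_comp _ _).trans h2).congr_left fun x => by simp⟩

theorem prod {M : ℝ → E'} (h : ExK κ N) (h' : ExK κ M) : ExK κ fun x => (N x, M x) := by
  simpa using (h.clm (ContinuousLinearMap.inl ℂ E E')).add (h'.clm (ContinuousLinearMap.inr ℂ E E'))

theorem shift (h : ExK κ N) (a : ℝ) : ExK κ fun x => N (x + a) := by
  obtain ⟨f, h1, h2⟩ := h
  refine ⟨_, h1.shift a, ?_⟩
  have h3 := h2.comp_tendsto (tendsto_atTop_add_const_right atTop a tendsto_id)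
  refine (h3.congr_left fun x => by simp).trans (IsBigO.of_bound (Real.exp (-κ * a))
    (Eventually.of_forall fun x => ?_))
  simp only [Function.comp, id, Real.norm_eq_abs, abs_of_pos (Real.exp_pos _), ← Real.exp_add]
  exact le_of_eq (by congr 1; ring)

theorem exists_lim (h : ExK κ N) :
    ∃ m : E, (fun x => N x - m) =O[atTop] fun x => Real.exp (-(min κ (1 / 4)) * x) := by
  obtain ⟨f, h1, h2⟩ := h
  obtain ⟨m, h3⟩ := h1.exists_lim
  exact ⟨m, ((h2.trans (exp_isBigO (min_le_left _ _))).add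
    (h3.trans (exp_isBigO (min_le_right _ _)))).congr_left fun x => by abel⟩

theorem rate (h : ExK κ N) (hκ : 0 < κ) {m : E} (hm : Tendsto N atTop (𝓝 m)) :
    (fun x => N x - m) =O[atTop] fun x => Real.exp (-(min κ (1 / 4)) * x) := by
  obtain ⟨m', h1⟩ := h.exists_lim
  have h2 := h1.trans_tendsto (tendsto_exp_neg (lt_min hκ (by norm_num)))
  rwa [tendsto_nhds_unique hm (tendsto_sub_nhds_zero_iff.1 h2)]

theorem multi (h : ExK κ N) (hκ : 0 < κ) {n : ℕ}
    (p : ContinuousMultilinearMap ℂ (fun _ : Fin n => E) E') :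
    ExK κ fun x => p fun _ => N x := by
  obtain ⟨m, hm⟩ := h.exists_lim
  obtain ⟨f, h1, h2⟩ := h
  refine ⟨_, h1.multi p, ?_⟩
  have t1 : Tendsto N atTop (𝓝 m) := tendsto_sub_nhds_zero_iff.1
    (hm.trans_tendsto (tendsto_exp_neg (lt_min hκ (by norm_num))))
  have t2 : Tendsto (fun x : ℝ => f x) atTop (𝓝 m) := by
    simpa using t1.sub (h2.trans_tendsto (tendsto_exp_neg hκ))
  refine IsBigO.trans (IsBigO.of_bound (‖p‖ * n * (‖m‖ + 1) ^ (n - 1)) ?_) h2
  have hb : ∀ᶠ y in 𝓝 m, ‖y‖ ≤ ‖m‖ + 1 :=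
    continuous_norm.continuousAt.eventually (ge_mem_nhds (lt_add_one _))
  filter_upwards [t1.eventually hb, t2.eventually hb] with x hx hx'
  refine (p.norm_image_sub_le _ _).trans ?_
  have e1 : ‖(fun _ : Fin n => N x) - fun _ => f x‖ ≤ ‖N x - f x‖ :=
    (pi_norm_le_iff_of_nonneg (norm_nonneg _)).2 fun _ => le_rfl
  have e2 : max ‖fun _ : Fin n => N x‖ ‖fun _ : Fin n => f x‖ ≤ ‖m‖ + 1 :=
    max_le ((pi_norm_le_iff_of_nonneg (by positivity)).2 fun _ => hx)
      ((pi_norm_le_iff_of_nonneg (by positivity)).2 fun _ => hx')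
  rw [Fintype.card_fin]
  gcongr

theorem sum {ι : Type*} (s : Finset ι) {f : ι → ℝ → E} (hf : ∀ i ∈ s, ExK κ (f i)) :
    ExK κ fun x => ∑ i ∈ s, f i x := by
  classical
  induction s using Finset.induction_on with
  | empty => simpa using const (0 : E)
  | insert a s ha ih =>
    simp only [Finset.sum_insert ha]
    exact (hf a (Finset.mem_insert_self _ _)).add
      (ih fun i hi => hf i (Finset.mem_insert_of_mem hi))

/-- **closure under analytic maps** -/
theorem analytic (h : ExK κ N) (hκ : 0 < κ) {m : E} (hm : Tendsto N atTop (𝓝 m)) {F : E → E'}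
    (hF : AnalyticAt ℂ F m) : ExK κ fun x => F (N x) := by
  obtain ⟨p, hp⟩ := hF
  set δ := min κ (1 / 4) with hδ
  have hδ0 : 0 < δ := lt_min hκ (by norm_num)
  obtain ⟨n, hn⟩ := exists_nat_ge (κ / δ)
  have hv : ExK κ fun x => N x - m := by simpa [sub_eq_add_neg] using h.add (const (-m))
  have h1 : ExK κ fun x => p.partialSum n (N x - m) :=
    sum _ fun k _ => hv.multi hκ (p k)
  refine h1.of_isBigO ?_
  have h2 := (hp.isBigO_sub_partialSum_pow n).comp_tendsto (tendsto_sub_nhds_zero_iff.2 hm)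
  refine (h2.congr_left fun x => by simp).trans ?_
  refine ((h.rate hκ hm).norm_left.pow n).trans ((exp_isBigO (κ := κ) (κ' := n * δ)
    (by rwa [div_le_iff₀ hδ0] at hn)).congr_left fun x => ?_)
  rw [← Real.exp_nat_mul]; congr 1; ring

end ExK

end Crest.Agent.N207.J

end
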