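import Crest.Agent.N207.J.PLT
import Mathlib.Analysis.Asymptotics.SpecificAsymptotics

/-!
# Row 207, block J (helper77): from real expansions to the class `Dul`
-/

set_option autoImplicit false

open Set Filter Asymptotics
open scoped Topology

noncomputable section

namespace Crest.Agent.N207.J

variable {E : Type*} [NormedAddCommGroup E] [NormedSpace ℂ E]

theorem poly_zero (n : ℕ) (c : ℕ → E)
    (h : Tendsto (fun x : ℝ => ∑ j ∈ Finset.range n, (x : ℂ) ^ j • c j) atTop (𝓝 0)) :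
    ∀ j < n, c j = 0 := by
  induction n with
  | zero => simp
  | succ n ih =>
    have h1 : (fun x : ℝ => ∑ j ∈ Finset.range (n + 1), (x : ℂ) ^ j • c j) =o[atTop]
        fun x : ℝ => x ^ n := by
      refine ((isLittleO_one_iff ℝ).2 h).trans_isBigO (IsBigO.of_bound 1 ?_)
      filter_upwards [eventually_ge_atTop 1] with x hx
      simpa [abs_of_nonneg (zero_le_one.trans hx)] using one_le_pow₀ hx
    have h2 : (fun x : ℝ => ∑ j ∈ Finset.range n, (x : ℂ) ^ j • c j) =o[atTop]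
        fun x : ℝ => x ^ n := by
      refine IsLittleO.fun_sum (A := fun j (x : ℝ) => (x : ℂ) ^ j • c j) fun j hj => ?_
      refine IsBigO.trans_isLittleO (g := fun x : ℝ => x ^ j) (IsBigO.of_bound ‖c j‖
        (Eventually.of_forall fun x => ?_)) (Asymptotics.isLittleO_pow_pow_atTop_of_lt (Finset.mem_range.1 hj))
      simp [norm_smul, mul_comm]
    have h3 := h1.sub h2
    simp only [Finset.sum_range_succ, add_sub_cancel_left] at h3
    have h4 : c n = 0 := by
      by_contra hc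
      have hp : 0 < ‖c n‖ := norm_pos_iff.2 hc
      obtain ⟨x, hx, hx'⟩ := ((h3.bound (half_pos hp)).and (eventually_gt_atTop 0)).exists
      simp only [norm_smul, norm_pow, Complex.norm_real] at hx
      have : 0 < ‖x‖ ^ n := pow_pos (norm_pos_iff.2 hx'.ne') n
      nlinarith
    intro j hj
    rcases (Nat.lt_succ_iff.1 hj).eq_or_lt with rfl | hj'
    · exact h4
    · exact ih (by simpa [Finset.sum_range_succ, h4] using h) j hj'

/-- uniqueness of the coefficients -/
theorem psum_uniq {c : ℕ → ℕ → E} {K : ℕ} {κ : ℝ}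
    (h : (fun x : ℝ => psum c K x) =O[atTop] fun x => Real.exp (-κ * x)) :
    ∀ q, q < K → (q : ℝ) / 2 < κ → ∀ j ≤ 2 * q, c q j = 0 := by
  intro q
  induction q using Nat.strong_induction_on with
  | _ q ih =>
  intro hq hκ j hj
  set κ' := min κ (q / 2 + 1 / 4) with hκ'
  have h1 : (fun x : ℝ => ∑ a ∈ (Finset.range K).erase q, ∑ b ∈ Finset.range (2 * a + 1),
      mon a b x • c a b) =O[atTop] fun x => Real.exp (-κ' * x) := by
    refine IsBigO.fun_sum (A := fun a (x : ℝ) => ∑ b ∈ Finset.range (2 * a + 1), mon a b x • c a b)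
      fun a ha => IsBigO.fun_sum (A := fun b (x : ℝ) => mon a b x • c a b) fun b hb => ?_
    simp only [Finset.mem_erase, Finset.mem_range] at ha hb
    rcases lt_or_gt_of_ne ha.1 with h2 | h2
    · have : (a : ℝ) < q := by exact_mod_cast h2
      simp [ih a h2 ha.2 (by linarith) b (by omega), isBigO_zero]
    · have : (q : ℝ) + 1 ≤ a := by exact_mod_cast h2
      have h3 : κ' < a / 2 := lt_of_le_of_lt (min_le_right _ _) (by linarith)
      simpa using (mon_isBigO a b h3).smul (isBigO_const_one ℝ (c a b) atTop)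
  have h2 := (h.trans (exp_isBigO (min_le_left κ (q / 2 + 1 / 4)))).sub h1
  have h3 := (isBigO_refl (fun x : ℝ => Real.exp (q / 2 * x)) atTop).smul h2
  refine poly_zero (2 * q + 1) (c q) ?_ j (by omega)
  have h4 : 0 < κ' - q / 2 := sub_pos.2 (lt_min hκ (by linarith))
  refine IsBigO.trans_tendsto (h3.congr (fun x => ?_) fun x => ?_) (tendsto_exp_neg h4)
  · rw [psum, ← Finset.add_sum_erase _ _ (Finset.mem_range.2 hq),
      add_sub_cancel_right, Finset.smul_sum]
    refine Finset.sum_congr rfl fun b _ => ?_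
    rw [← Complex.coe_smul, smul_smul, mon, ← mul_assoc, Complex.ofReal_exp, ← Complex.exp_add]
    congr 2
    rw [show ((q / 2 * x : ℝ) : ℂ) + -(q : ℂ) * x / 2 = 0 by push_cast; ring]
    simp
  · rw [smul_eq_mul, ← Real.exp_add]; congr 1; ring

theorem norm_mon_le {C : ℝ} (hC : 8 ≤ C) {L : ℂ} (hL : L ∈ Om C) {q j : ℕ} (hj : j ≤ 2 * q) :
    ‖mon q j L‖ ≤ Real.exp (-(q : ℝ) * L.re / 4) := by
  have h1 : C * (1 + Real.log (1 + ‖L‖)) < L.re := hL
  have h0 := log_one_add_nonneg L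
  have h2 : ‖L‖ ^ j ≤ Real.exp (q * L.re / 4) := by
    have h3 : ‖L‖ ^ j ≤ (1 + ‖L‖) ^ (2 * q) :=
      (pow_le_pow_left₀ (norm_nonneg _) (by linarith) j).trans
        (pow_le_pow_right₀ (by linarith [norm_nonneg L]) hj)
    refine h3.trans ?_
    rw [← Real.exp_log (by positivity : 0 < 1 + ‖L‖), ← Real.exp_nat_mul]
    refine Real.exp_le_exp.2 ?_
    have h4 : 8 * Real.log (1 + ‖L‖) ≤ L.re := by nlinarith
    have h5 := mul_le_mul_of_nonneg_left h4 (Nat.cast_nonneg (α := ℝ) q)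
    push_cast; linarith
  rw [norm_mon]
  refine (mul_le_mul_of_nonneg_left h2 (Real.exp_pos _).le).trans (le_of_eq ?_)
  rw [← Real.exp_add]; congr 1; ring

theorem norm_psum_sub_le {C : ℝ} (hC : 8 ≤ C) (c : ℕ → ℕ → E) {K K' : ℕ} (hK : K ≤ K') :
    ∃ B : ℝ, ∀ L ∈ Om C, ‖psum c K' L - psum c K L‖ ≤ B * Real.exp (-(K : ℝ) * L.re / 4) := by
  refine ⟨∑ q ∈ Finset.Ico K K', ∑ j ∈ Finset.range (2 * q + 1), ‖c q j‖, fun L hL => ?_⟩
  have h0 : 0 < L.re := lt_of_le_of_lt (by linarith) (lt_re_of_mem_Om (by linarith) hL)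
  rw [psum, psum, ← Finset.sum_Ico_eq_sub _ hK, Finset.sum_mul]
  refine norm_sum_le_of_le _ fun q hq => ?_
  rw [Finset.sum_mul]
  refine norm_sum_le_of_le _ fun j hj => ?_
  rw [norm_smul, mul_comm]
  refine mul_le_mul_of_nonneg_left ((norm_mon_le hC hL
    (Nat.lt_succ_iff.1 (Finset.mem_range.1 hj))).trans (Real.exp_le_exp.2 ?_)) (norm_nonneg _)
  have : (K : ℝ) ≤ q := by exact_mod_cast (Finset.mem_Ico.1 hq).1
  nlinarith

theorem psum_sub (c c' : ℕ → ℕ → E) (K : ℕ) (L : ℂ) :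
    psum (fun q j => c q j - c' q j) K L = psum c K L - psum c' K L := by
  simp [psum, smul_sub]

theorem psum_zero (c : ℕ → ℕ → E) (L : ℂ) : psum c 0 L = 0 := by simp [psum]

theorem psum_one (c : ℕ → ℕ → E) (L : ℂ) : psum c 1 L = c 0 0 := by simp [psum, mon_zero]

/-- **real expansions of all orders and a bound give the class** -/
theorem dul_of_exK {C A : ℝ} {N : ℂ → E} (hd : DifferentiableOn ℂ N (Om C))
    (hb : ∀ L ∈ Om C, ‖N L‖ ≤ A) (hx : ∀ κ : ℝ, ExK κ fun x : ℝ => N x) :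
    ∃ c : ℕ → ℕ → E, Dul (Cpl (max C 8)) N c := by
  set C1 := max C 8 with hC1
  have h8 : 8 ≤ C1 := le_max_right _ _
  have hs : Om C1 ⊆ Om C := Om_mono (le_max_left _ _)
  have hs' : Om (Cpl C1) ⊆ Om C1 := Om_mono (le_Cpl (by linarith))
  choose f hf hO using hx
  choose K0 c hc using fun κ => (hf κ).exists_psum
  refine ⟨fun q => c ((q + 1 : ℕ) / 2) q, hd.mono (hs'.trans hs), fun K => ?_⟩
  set K' := max K (K0 (K / 2)) with hK'
  have e1 : ∀ L, psum (fun q => c ((q + 1 : ℕ) / 2) q) K L = psum (c (K / 2)) K L := by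
    intro L
    refine Finset.sum_congr rfl fun q hq => Finset.sum_congr rfl fun j hj => ?_
    congr 1
    have hq' : ((q + 1 : ℕ) : ℝ) ≤ K := by exact_mod_cast Finset.mem_range.1 hq
    set K2 := max K' (K0 ((q + 1 : ℕ) / 2)) with hK2
    refine sub_eq_zero.1 (psum_uniq (c := fun a b => c ((q + 1 : ℕ) / 2) a b - c (K / 2) a b)
      (K := K2) (κ := (q + 1 : ℕ) / 2) ?_ q ?_ (by push_cast; linarith) j
      (Nat.lt_succ_iff.1 (Finset.mem_range.1 hj)))
    · refine (((hO (K / 2)).trans (exp_isBigO (by linarith))).sub (hO _)).congr_left fun x => ?_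
      rw [psum_sub, ← hc _ _ (le_max_right _ _),
        ← hc _ _ ((le_max_right _ _).trans (le_max_left _ _))]
      abel
    · exact lt_of_lt_of_le (Finset.mem_range.1 hq) ((le_max_left _ _).trans (le_max_left _ _))
  obtain ⟨B1, hB1⟩ := norm_psum_sub_le h8 (c (K / 2)) (le_max_left K (K0 (K / 2)))
  obtain ⟨B2, hB2⟩ := norm_psum_sub_le h8 (c (K / 2)) (Nat.zero_le K')
  refine ⟨A + B2 + B1, fun L hL => ?_⟩
  have h1 := plt (C := C1) (A := A + B2) (k := K / 2) (g := fun L => N L - f (K / 2) L)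
    (by linarith) (by positivity) ((hd.mono hs).sub (hf _).differentiable.differentiableOn)
    (fun z hz => (norm_sub_le _ _).trans (add_le_add (hb z (hs hz)) (by
      rw [hc _ K' (le_max_right _ _)]; simpa [psum_zero] using hB2 z hz))) (hO _) hL
  have h2 := hB1 L (hs' hL)
  rw [← hc _ _ (le_max_right _ _)] at h2
  rw [show -((K : ℝ) / 2) * L.re / 2 = -(K : ℝ) * L.re / 4 by ring] at h1
  rw [e1, add_mul]
  exact (norm_sub_le_norm_sub_add_norm_sub _ _ _).trans (add_le_add h1 h2)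

namespace Dul

variable {C C' : ℝ} {N : ℂ → E} {c : ℕ → ℕ → E}

theorem mono (h : Dul C N c) (hC : C ≤ C') : Dul C' N c :=
  ⟨h.diff.mono (Om_mono hC), fun K => (h.est K).imp fun _ hB L hL => hB L (Om_mono hC hL)⟩

theorem congr {N' : ℂ → E} (h : Dul C N c) (h' : EqOn N' N (Om C)) : Dul C N' c :=
  ⟨h.diff.congr h', fun K => (h.est K).imp fun _ hB L hL => by rw [h' hL]; exact hB L hL⟩

theorem lim (h : Dul C N c) :
    ∃ B : ℝ, ∀ L ∈ Om C, ‖N L - c 0 0‖ ≤ B * Real.exp (-L.re / 4) := by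
  simpa [psum_one] using h.est 1

theorem tendsto (h : Dul C N c) : Tendsto (fun x : ℝ => N x) atTop (𝓝 (c 0 0)) := by
  obtain ⟨B, hB⟩ := h.lim
  refine tendsto_sub_nhds_zero_iff.1 (IsBigO.trans_tendsto (IsBigO.of_bound B ?_)
    (tendsto_exp_neg (κ := 1 / 4) (by norm_num)))
  filter_upwards [eventually_mem_Om C] with x hx
  rw [Real.norm_of_nonneg (Real.exp_pos _).le, show -(1 / 4) * x = -(x : ℂ).re / 4 by simp; ring]
  exact hB _ hx

theorem exK (h : Dul C N c) (κ : ℝ) : ExK κ fun x : ℝ => N x := by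
  obtain ⟨K, hK⟩ := exists_nat_ge (4 * κ)
  obtain ⟨B, hB⟩ := h.est K
  refine ⟨_, IsPol.psum c K, IsBigO.trans (IsBigO.of_bound B ?_)
    (exp_isBigO (κ' := K / 4) (by linarith))⟩
  filter_upwards [eventually_mem_Om C] with x hx
  rw [Real.norm_of_nonneg (Real.exp_pos _).le,
    show -((K : ℝ) / 4) * x = -(K : ℝ) * (x : ℂ).re / 4 by simp; ring]
  exact hB _ hx

end Dul

end Crest.Agent.N207.J

end
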