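import Mathlib

/-! # N207/J/Seq (helper72): bilinear maps on `ℓ²` sums with triangle support -/

set_option autoImplicit false
set_option maxHeartbeats 400000
open Topology Filter Finset

noncomputable section

namespace Crest.Agent.N207.J

theorem card_band (s : Finset ℕ) (j l : ℕ) :
    ∑ k ∈ s, (if j ≤ k + l ∧ k ≤ j + l then (1 : ℝ) else 0) ≤ 2 * l + 1 := by
  rw [Finset.sum_boole]
  have : s.filter (fun k => j ≤ k + l ∧ k ≤ j + l) ⊆ Finset.Icc (j - l) (j + l) := by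
    intro k hk
    simp only [Finset.mem_filter, Finset.mem_Icc] at hk ⊢
    omega
  have h := Finset.card_le_card this
  rw [Nat.card_Icc] at h
  have : #(s.filter (fun k => j ≤ k + l ∧ k ≤ j + l)) ≤ 2 * l + 1 := by omega
  exact_mod_cast this

theorem half_band {c a : ℕ → ℝ} (hc : ∀ l, 0 ≤ c l) (J s t : Finset ℕ) :
    ∑ j ∈ J, (∑ p ∈ s ×ˢ t, if j ≤ p.1 + p.2 ∧ p.1 ≤ j + p.2 then c p.2 * a p.1 else 0) ^ 2
      ≤ (∑ l ∈ t, (2 * l + 1) * c l) ^ 2 * ∑ k ∈ s, a k ^ 2 := by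
  set m := ∑ l ∈ t, (2 * l + 1) * c l with hm
  have hm0 : 0 ≤ m := Finset.sum_nonneg fun l _ => by have := hc l; positivity
  let μ : ℕ → ℕ × ℕ → ℝ := fun j p => (if j ≤ p.1 + p.2 ∧ p.1 ≤ j + p.2 then 1 else 0) * c p.2
  have μ0 : ∀ j p, 0 ≤ μ j p := fun j p => mul_nonneg (by split_ifs <;> norm_num) (hc _)
  have h1 : ∀ j, ∑ p ∈ s ×ˢ t, μ j p ≤ m := by
    intro j
    rw [Finset.sum_product_right]
    refine Finset.sum_le_sum fun l _ => ?_
    simp only [μ]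
    rw [← Finset.sum_mul]
    exact mul_le_mul_of_nonneg_right (card_band s j l) (hc l)
  have h2 : ∀ j, (∑ p ∈ s ×ˢ t, if j ≤ p.1 + p.2 ∧ p.1 ≤ j + p.2 then c p.2 * a p.1 else 0) ^ 2
      ≤ m * ∑ p ∈ s ×ˢ t, μ j p * a p.1 ^ 2 := by
    intro j
    refine (Finset.sum_sq_le_sum_mul_sum_of_sq_le_mul _ (f := μ j)
      (g := fun p => μ j p * a p.1 ^ 2) (fun p _ => μ0 j p)
      (fun p _ => mul_nonneg (μ0 j p) (sq_nonneg _)) fun p _ => ?_).trans ?_
    · simp only [μ]; split_ifs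
      · exact le_of_eq (by ring)
      · simp
    · exact mul_le_mul_of_nonneg_right (h1 j)
        (Finset.sum_nonneg fun p _ => mul_nonneg (μ0 j p) (sq_nonneg _))
  refine (Finset.sum_le_sum fun j _ => h2 j).trans ?_
  rw [← Finset.mul_sum, sq m, mul_assoc]
  refine mul_le_mul_of_nonneg_left ?_ hm0
  rw [Finset.sum_comm, Finset.sum_product, Finset.mul_sum]
  refine Finset.sum_le_sum fun k _ => ?_
  rw [hm, Finset.sum_mul]
  refine Finset.sum_le_sum fun l _ => ?_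
  simp only [μ]
  rw [← Finset.sum_mul, ← Finset.sum_mul]
  refine mul_le_mul_of_nonneg_right (mul_le_mul_of_nonneg_right ?_ (hc l)) (sq_nonneg _)
  refine le_trans (le_of_eq (Finset.sum_congr rfl fun j _ => ?_)) (card_band J k l)
  simp only [and_comm]

/-- triangle condition -/
def tri (j k l : ℕ) : Prop := j ≤ k + l ∧ k ≤ j + l ∧ l ≤ j + k

instance (j k l : ℕ) : Decidable (tri j k l) := by unfold tri; infer_instance

/-- the scalar estimate -/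
theorem tri_sum {α a b : ℕ → ℝ} {A Na Nb : ℝ} (hα : ∀ l, 0 ≤ α l) (ha : ∀ l, 0 ≤ a l)
    (hb : ∀ l, 0 ≤ b l) (hA : ∀ t : Finset ℕ, ∑ m ∈ t, ((2 * m + 1) * α m) ^ 2 ≤ A ^ 2)
    (hNa : ∀ t : Finset ℕ, ∑ m ∈ t, a m ^ 2 ≤ Na ^ 2)
    (hNb : ∀ t : Finset ℕ, ∑ m ∈ t, b m ^ 2 ≤ Nb ^ 2) (J : Finset ℕ) (S : Finset (ℕ × ℕ)) :
    ∑ j ∈ J, (∑ p ∈ S, if tri j p.1 p.2 then α (min p.1 p.2) * a p.1 * b p.2 else 0) ^ 2
      ≤ (2 * A * Na * Nb) ^ 2 := by
  set s := S.image Prod.fst ∪ S.image Prod.snd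
  have hS : S ⊆ s ×ˢ s := fun p hp => Finset.mem_product.2
    ⟨Finset.mem_union_left _ (Finset.mem_image_of_mem _ hp),
      Finset.mem_union_right _ (Finset.mem_image_of_mem _ hp)⟩
  have key : ∀ {a b : ℕ → ℝ} {Na Nb : ℝ}, (∀ l, 0 ≤ b l) →
      (∀ t : Finset ℕ, ∑ m ∈ t, a m ^ 2 ≤ Na ^ 2) → (∀ t : Finset ℕ, ∑ m ∈ t, b m ^ 2 ≤ Nb ^ 2) →
      ∑ j ∈ J, (∑ p ∈ s ×ˢ s, if j ≤ p.1 + p.2 ∧ p.1 ≤ j + p.2 then
        (α p.2 * b p.2) * a p.1 else 0) ^ 2 ≤ A ^ 2 * Na ^ 2 * Nb ^ 2 := by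
    intro a b Na Nb hb hNa hNb
    refine (half_band (c := fun l => α l * b l) (fun l => mul_nonneg (hα l) (hb l)) J s s).trans ?_
    rw [mul_right_comm]
    refine mul_le_mul ?_ (hNa s) (Finset.sum_nonneg fun _ _ => sq_nonneg _) (by positivity)
    simp only [← mul_assoc]
    exact (Finset.sum_mul_sq_le_sq_mul_sq s _ _).trans (mul_le_mul (hA s) (hNb s)
      (Finset.sum_nonneg fun _ _ => sq_nonneg _) (by positivity))
  have k1 := key hb hNa hNb
  have k2 := key ha hNb hNa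
  have h3 : ∀ j, (∑ p ∈ S, if tri j p.1 p.2 then α (min p.1 p.2) * a p.1 * b p.2 else 0) ≤
      (∑ p ∈ s ×ˢ s, if j ≤ p.1 + p.2 ∧ p.1 ≤ j + p.2 then (α p.2 * b p.2) * a p.1 else 0) +
      ∑ p ∈ s ×ˢ s, if j ≤ p.1 + p.2 ∧ p.1 ≤ j + p.2 then (α p.2 * a p.2) * b p.1 else 0 := by
    intro j
    refine (Finset.sum_le_sum_of_subset_of_nonneg hS fun p _ _ => ?_).trans ?_
    · have := hα (min p.1 p.2); have := ha p.1; have := hb p.2
      split_ifs <;> positivity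
    · rw [Finset.sum_product_right (s := s) (t := s) (f := fun p : ℕ × ℕ =>
        if j ≤ p.1 + p.2 ∧ p.1 ≤ j + p.2 then (α p.2 * a p.2) * b p.1 else 0),
        Finset.sum_product, Finset.sum_product, ← Finset.sum_add_distrib]
      refine Finset.sum_le_sum fun k _ => ?_
      rw [← Finset.sum_add_distrib]
      refine Finset.sum_le_sum fun l _ => ?_
      have := hα k; have := hα l; have := ha k; have := hb l
      by_cases h : tri j k l
      · have h' := h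
        unfold tri at h'
        rw [if_pos h, if_pos ⟨h'.1, h'.2.1⟩, if_pos ⟨by omega, h'.2.2⟩]
        rcases le_total k l with hkl | hkl
        · rw [min_eq_left hkl]
          have : 0 ≤ α l * b l * a k := by positivity
          linarith
        · rw [min_eq_right hkl]
          have : 0 ≤ α k * a k * b l := by positivity
          nlinarith
      · rw [if_neg h]
        split_ifs <;> positivity
  have h4 : ∀ j, 0 ≤ ∑ p ∈ S, if tri j p.1 p.2 then α (min p.1 p.2) * a p.1 * b p.2 else 0 :=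
    fun j => Finset.sum_nonneg fun p _ => by
      have := hα (min p.1 p.2); have := ha p.1; have := hb p.2
      split_ifs <;> positivity
  refine (Finset.sum_le_sum fun j _ => (pow_le_pow_left₀ (h4 j) (h3 j) 2).trans
    (add_sq_le (a := _) (b := _))).trans ?_
  rw [← Finset.mul_sum, Finset.sum_add_distrib]
  nlinarith

variable {𝕜 : Type*} [NontriviallyNormedField 𝕜] {X Y Z : ℕ → Type*}
  [∀ k, NormedAddCommGroup (X k)] [∀ k, NormedSpace 𝕜 (X k)]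
  [∀ k, NormedAddCommGroup (Y k)] [∀ k, NormedSpace 𝕜 (Y k)]
  [∀ k, NormedAddCommGroup (Z k)] [∀ k, NormedSpace 𝕜 (Z k)]

theorem lp_sum_sq_le (x : lp X 2) (t : Finset ℕ) : ∑ m ∈ t, ‖x m‖ ^ 2 ≤ ‖x‖ ^ 2 := by
  simpa using lp.sum_rpow_le_norm_rpow (p := 2) (by simp) x t

theorem lp_hasSum_sq (x : lp X 2) : HasSum (fun m => ‖x m‖ ^ 2) (‖x‖ ^ 2) := by
  simpa using lp.hasSum_norm (p := 2) (by simp) x

theorem memlp_of_le {x : ∀ k, X k} {C : ℝ} (h : ∀ t : Finset ℕ, ∑ m ∈ t, ‖x m‖ ^ 2 ≤ C) :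
    Memℓp x 2 := memℓp_gen' (C := C) (by simpa using h)

theorem lp_norm_le {x : lp X 2} {C : ℝ} (hC : 0 ≤ C)
    (h : ∀ t : Finset ℕ, ∑ m ∈ t, ‖x m‖ ^ 2 ≤ C ^ 2) : ‖x‖ ≤ C :=
  lp.norm_le_of_forall_sum_le (p := 2) (by simp) hC (by simpa using h)

/-- a family of bilinear maps with triangle support, bounded by `α (min k l)` -/
structure Tri (M : ∀ j k l, X k →L[𝕜] Y l →L[𝕜] Z j) (α : ℕ → ℝ) (A : ℝ) : Prop where
  supp : ∀ j k l, ¬ tri j k l → ∀ x y, M j k l x y = 0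
  bd : ∀ j k l, tri j k l → ∀ x y, ‖M j k l x y‖ ≤ α (min k l) * ‖x‖ * ‖y‖
  nn : ∀ m, 0 ≤ α m
  A0 : 0 ≤ A
  sum : ∀ t : Finset ℕ, ∑ m ∈ t, ((2 * m + 1) * α m) ^ 2 ≤ A ^ 2

variable {M : ∀ j k l, X k →L[𝕜] Y l →L[𝕜] Z j} {α : ℕ → ℝ} {A : ℝ}

theorem Tri.fin (h : Tri M α A) (x : lp X 2) (y : lp Y 2) (J : Finset ℕ) (S : Finset (ℕ × ℕ)) :
    ∑ j ∈ J, (∑ p ∈ S, ‖M j p.1 p.2 (x p.1) (y p.2)‖) ^ 2 ≤ (2 * A * ‖x‖ * ‖y‖) ^ 2 := by
  refine le_trans (Finset.sum_le_sum fun j _ => pow_le_pow_left₀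
    (Finset.sum_nonneg fun _ _ => norm_nonneg _) (Finset.sum_le_sum fun p _ => ?_) 2)
    (tri_sum h.nn (fun k => norm_nonneg (x k)) (fun k => norm_nonneg (y k)) h.sum
      (lp_sum_sq_le x) (lp_sum_sq_le y) J S)
  split_ifs with ht
  · exact h.bd _ _ _ ht _ _
  · rw [h.supp _ _ _ ht, norm_zero]

theorem Tri.summable_norm (h : Tri M α A) (x : lp X 2) (y : lp Y 2) (j : ℕ) :
    Summable fun p : ℕ × ℕ => ‖M j p.1 p.2 (x p.1) (y p.2)‖ := by
  refine summable_of_sum_le (c := 2 * A * ‖x‖ * ‖y‖) (fun _ => norm_nonneg _) fun S => ?_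
  have := h.fin x y {j} S
  rw [Finset.sum_singleton] at this
  have hA := h.A0
  exact (sq_le_sq₀ (Finset.sum_nonneg fun _ _ => norm_nonneg _) (by positivity)).1 this

theorem Tri.tsum_sq_le (h : Tri M α A) (x : lp X 2) (y : lp Y 2) (J : Finset ℕ) :
    ∑ j ∈ J, (∑' p : ℕ × ℕ, ‖M j p.1 p.2 (x p.1) (y p.2)‖) ^ 2 ≤ (2 * A * ‖x‖ * ‖y‖) ^ 2 :=
  le_of_tendsto' (tendsto_finsetSum J fun j _ =>
    Tendsto.pow (h.summable_norm x y j).hasSum 2) (h.fin x y J)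

variable [∀ k, CompleteSpace (Z k)]

theorem Tri.summable (h : Tri M α A) (x : lp X 2) (y : lp Y 2) (j : ℕ) :
    Summable fun p : ℕ × ℕ => M j p.1 p.2 (x p.1) (y p.2) := (h.summable_norm x y j).of_norm

omit [∀ k, CompleteSpace (Z k)] in
theorem Tri.sq_le (h : Tri M α A) (x : lp X 2) (y : lp Y 2) (J : Finset ℕ) :
    ∑ j ∈ J, ‖∑' p : ℕ × ℕ, M j p.1 p.2 (x p.1) (y p.2)‖ ^ 2 ≤ (2 * A * ‖x‖ * ‖y‖) ^ 2 :=
  (Finset.sum_le_sum fun j _ => pow_le_pow_left₀ (norm_nonneg _)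
    (norm_tsum_le_tsum_norm (h.summable_norm x y j)) 2).trans (h.tsum_sq_le x y J)

/-- the assembled bilinear map, unbundled -/
def Tri.bil0 (h : Tri M α A) (x : lp X 2) (y : lp Y 2) : lp Z 2 :=
  ⟨fun j => ∑' p : ℕ × ℕ, M j p.1 p.2 (x p.1) (y p.2), memlp_of_le (h.sq_le x y)⟩

omit [∀ k, CompleteSpace (Z k)] in
theorem Tri.bil0_apply (h : Tri M α A) (x : lp X 2) (y : lp Y 2) (j : ℕ) :
    h.bil0 x y j = ∑' p : ℕ × ℕ, M j p.1 p.2 (x p.1) (y p.2) := rfl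

/-- the assembled bilinear map on `ℓ²` sums -/
def Tri.bil (h : Tri M α A) : lp X 2 →L[𝕜] lp Y 2 →L[𝕜] lp Z 2 :=
  LinearMap.mkContinuous₂ (LinearMap.mk₂ 𝕜 h.bil0
    (fun x x' y => lp.ext (funext fun j => by
      simp only [lp.coeFn_add, Pi.add_apply, h.bil0_apply, map_add,
        add_apply]
      exact (h.summable x y j).tsum_add (h.summable x' y j)))
    (fun c x y => lp.ext (funext fun j => by
      simp only [lp.coeFn_smul, Pi.smul_apply, h.bil0_apply, map_smul,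
        smul_apply]
      exact (h.summable x y j).tsum_const_smul c))
    (fun x y y' => lp.ext (funext fun j => by
      simp only [lp.coeFn_add, Pi.add_apply, h.bil0_apply, map_add]
      exact (h.summable x y j).tsum_add (h.summable x y' j)))
    (fun c x y => lp.ext (funext fun j => by
      simp only [lp.coeFn_smul, Pi.smul_apply, h.bil0_apply, map_smul]
      exact (h.summable x y j).tsum_const_smul c)))
    (2 * A) fun x y => lp_norm_le (by have := h.A0; positivity) (h.sq_le x y)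

theorem Tri.bil_apply (h : Tri M α A) (x : lp X 2) (y : lp Y 2) (j : ℕ) :
    h.bil x y j = ∑' p : ℕ × ℕ, M j p.1 p.2 (x p.1) (y p.2) := rfl

theorem Tri.hasSum (h : Tri M α A) (x : lp X 2) (y : lp Y 2) (j : ℕ) :
    HasSum (fun p : ℕ × ℕ => M j p.1 p.2 (x p.1) (y p.2)) (h.bil x y j) :=
  (h.summable x y j).hasSum

theorem Tri.norm_bil_le (h : Tri M α A) : ‖h.bil‖ ≤ 2 * A :=
  LinearMap.mkContinuous₂_norm_le _ (by have := h.A0; positivity) _

theorem Tri.norm_bil_apply_le (h : Tri M α A) (x : lp X 2) (y : lp Y 2) :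
    ‖h.bil x y‖ ≤ 2 * A * ‖x‖ * ‖y‖ := lp_norm_le (by have := h.A0; positivity) (h.sq_le x y)

/-! ### polynomial weights -/

/-- the weight `(k+1)^s` -/
def wt (s : ℝ) (k : ℕ) : ℝ := ((k : ℝ) + 1) ^ s

theorem wt_pos (s : ℝ) (k : ℕ) : 0 < wt s k := Real.rpow_pos_of_pos (by positivity) _

theorem wt_add (s t : ℝ) (k : ℕ) : wt (s + t) k = wt s k * wt t k :=
  Real.rpow_add (by positivity) _ _

theorem wt_zero (k : ℕ) : wt 0 k = 1 := Real.rpow_zero _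

theorem wt_nat (n k : ℕ) : wt n k = ((k : ℝ) + 1) ^ n := Real.rpow_natCast _ _

theorem wt_one (k : ℕ) : wt 1 k = (k : ℝ) + 1 := Real.rpow_one _

theorem wt_mono {s t : ℝ} (h : s ≤ t) (k : ℕ) : wt s k ≤ wt t k :=
  Real.rpow_le_rpow_of_exponent_le (by linarith [(Nat.cast_nonneg k : (0 : ℝ) ≤ k)]) h

theorem wt_le_of_le {s : ℝ} (hs : 0 ≤ s) {j k : ℕ} (h : j ≤ 2 * k) : wt s j ≤ 2 ^ s * wt s k := by
  unfold wt
  rw [← Real.mul_rpow (by norm_num) (by positivity)]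
  refine Real.rpow_le_rpow (by positivity) ?_ hs
  have : (j : ℝ) ≤ 2 * k := by exact_mod_cast h
  linarith

theorem sum_inv_sq_le (t : Finset ℕ) : ∑ m ∈ t, 1 / ((m : ℝ) + 1) ^ 2 ≤ 2 := by
  have h : ∀ n : ℕ, ∑ m ∈ Finset.range n, 1 / ((m : ℝ) + 1) ^ 2 ≤ 2 - 2 / ((n : ℝ) + 1) := by
    intro n
    induction n with
    | zero => simp
    | succ n ih =>
      rw [Finset.sum_range_succ]
      have : 1 / ((n : ℝ) + 1) ^ 2 ≤ 2 / ((n : ℝ) + 1) - 2 / (((n + 1 : ℕ) : ℝ) + 1) := by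
        push_cast
        rw [div_sub_div _ _ (by positivity) (by positivity), div_le_div_iff₀ (by positivity)
          (by positivity)]
        have : (0 : ℝ) ≤ n := Nat.cast_nonneg n
        nlinarith [mul_nonneg this this]
      linarith
  obtain ⟨n, hn⟩ := t.exists_nat_subset_range
  refine (Finset.sum_le_sum_of_subset_of_nonneg hn fun _ _ _ => by positivity).trans
    ((h n).trans ?_)
  have : 0 ≤ 2 / ((n : ℝ) + 1) := by positivity
  linarith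

theorem wt_ratio_le {σ s s' : ℝ} (h0 : 0 ≤ σ) (h1 : σ ≤ s) (h2 : σ ≤ s') (h3 : 4 ≤ s)
    (h4 : 4 ≤ s') {j k l : ℕ} (h : tri j k l) :
    wt σ j / (wt s k * wt s' l) ≤ 2 ^ σ / (((min k l : ℕ) : ℝ) + 1) ^ 4 := by
  have key : ∀ {s s' : ℝ} {k l : ℕ}, σ ≤ s → 4 ≤ s' → j ≤ 2 * k →
      wt σ j / (wt s k * wt s' l) ≤ 2 ^ σ / ((l : ℝ) + 1) ^ 4 := by
    intro s s' k l h1 h4 hj
    have := wt_pos s k; have := wt_pos s' l
    rw [div_le_div_iff₀ (by positivity) (by positivity), ← mul_assoc]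
    refine mul_le_mul ((wt_le_of_le h0 hj).trans ?_) ?_ (by positivity) (by positivity)
    · exact mul_le_mul_of_nonneg_left (wt_mono h1 k) (by positivity)
    · rw [← wt_nat]; exact wt_mono (by exact_mod_cast h4) l
  unfold tri at h
  rcases le_total k l with hkl | hkl
  · rw [min_eq_left hkl, mul_comm]; exact key h2 h3 (by omega)
  · rw [min_eq_right hkl]; exact key h1 h4 (by omega)

theorem tri_weighted {X Y Z : ℕ → Type*}
    [∀ k, NormedAddCommGroup (X k)] [∀ k, NormedSpace ℂ (X k)]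
    [∀ k, NormedAddCommGroup (Y k)] [∀ k, NormedSpace ℂ (Y k)]
    [∀ k, NormedAddCommGroup (Z k)] [∀ k, NormedSpace ℂ (Z k)]
    (b : ∀ j k l, X k →L[ℂ] Y l →L[ℂ] Z j) {C : ℝ} (hC : 0 ≤ C)
    (supp : ∀ j k l, ¬ tri j k l → ∀ x y, b j k l x y = 0)
    (bd : ∀ j k l, tri j k l → ∀ x y,
      ‖b j k l x y‖ ≤ C * (((min k l : ℕ) : ℝ) + 1) ^ 2 * ‖x‖ * ‖y‖)
    {σ s s' : ℝ} (h0 : 0 ≤ σ) (h1 : σ ≤ s) (h2 : σ ≤ s') (h3 : 4 ≤ s) (h4 : 4 ≤ s') :
    Tri (fun j k l => ((wt σ j / (wt s k * wt s' l) : ℝ) : ℂ) • b j k l)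
      (fun m => C * 2 ^ σ / ((m : ℝ) + 1) ^ 2) (3 * C * 2 ^ σ) where
  supp j k l h x y := by simp [supp j k l h]
  bd j k l h x y := by
    have := wt_pos σ j; have := wt_pos s k; have := wt_pos s' l
    simp only [smul_apply, norm_smul, Complex.norm_real]
    rw [Real.norm_of_nonneg (by positivity)]
    refine (mul_le_mul (wt_ratio_le h0 h1 h2 h3 h4 h) (bd j k l h x y) (norm_nonneg _)
      (by positivity)).trans (le_of_eq ?_)
    field_simp
  nn m := by positivity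
  A0 := by positivity
  sum t := by
    have h : ∀ m : ℕ, ((2 * m + 1) * (C * 2 ^ σ / ((m : ℝ) + 1) ^ 2)) ^ 2
        ≤ (2 * C * 2 ^ σ) ^ 2 * (1 / ((m : ℝ) + 1) ^ 2) := by
      intro m
      rw [show 1 / ((m : ℝ) + 1) ^ 2 = (1 / ((m : ℝ) + 1)) ^ 2 by rw [div_pow, one_pow], ← mul_pow]
      refine pow_le_pow_left₀ (by positivity) ?_ 2
      rw [← mul_div_assoc, mul_one_div, div_le_div_iff₀ (by positivity) (by positivity)]
      have : 0 ≤ C * 2 ^ σ * ((m : ℝ) + 1) := by positivity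
      nlinarith
    refine (Finset.sum_le_sum fun m _ => h m).trans ?_
    rw [← Finset.mul_sum]
    refine (mul_le_mul_of_nonneg_left (sum_inv_sq_le t) (sq_nonneg _)).trans ?_
    nlinarith [sq_nonneg (C * 2 ^ σ)]

end Crest.Agent.N207.J
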