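import Crest.Agent.N207.J.Sph4
import Crest.Agent.N207.J.Seq

/-! # N207/J/Sph5 (helper72): mode-wise operators on `H`; absolutely summable modes -/

set_option autoImplicit false
set_option maxHeartbeats 400000
open MeasureTheory Metric Topology Filter
open Crest.Agent.R246.Zon797
open scoped InnerProductSpace

noncomputable section

namespace Crest.Agent.N207.J

/-- mode `j` of the product of mode `k` and mode `l` -/
def mulH (j k l : ℕ) : H →L[ℂ] H →L[ℂ] H :=
  ((ContinuousLinearMap.compL ℂ H CS H) (P j ∘L toH)).comp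
    (((ContinuousLinearMap.mul ℂ CS).bilinearComp (Pc k) (Pc l)))

theorem mulH_apply (j k l : ℕ) (x y : H) : mulH j k l x y = P j (toH (Pc k x * Pc l y)) := rfl

theorem P_mul_of_not_tri {j k l : ℕ} (h : ¬ tri j k l) {u v : CS} (hu : u ∈ E k) (hv : v ∈ E l) :
    P j (toH (u * v)) = 0 := by
  refine P_mul_zero hu hv ?_
  unfold tri at h
  omega

theorem mulH_supp {j k l : ℕ} (h : ¬ tri j k l) (x y : H) : mulH j k l x y = 0 :=
  P_mul_of_not_tri h (Pc_mem k x) (Pc_mem l y)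

theorem norm_mulH_le' (j k l : ℕ) (x y : H) :
    ‖mulH j k l x y‖ ≤ (((min k l : ℕ) : ℝ) + 1) ^ 2 * ‖P k x‖ * ‖P l y‖ := by
  have := (norm_P_le j _).trans (norm_toH_mul_le (Pc_memV k x) (Pc_memV l y))
  rwa [toH_Pc, toH_Pc] at this

theorem norm_mulH_le (j k l : ℕ) (x y : H) :
    ‖mulH j k l x y‖ ≤ (((min k l : ℕ) : ℝ) + 1) ^ 2 * ‖x‖ * ‖y‖ :=
  (norm_mulH_le' j k l x y).trans (by gcongr <;> exact norm_P_le _ _)

theorem P_mulH (j k l : ℕ) (x y : H) : P j (mulH j k l x y) = mulH j k l x y := P_P _ _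

theorem mulH_comm (j k l : ℕ) (x y : H) : mulH j k l x y = mulH j l k y x := by
  rw [mulH_apply, mulH_apply, mul_comm]

/-- rotation derivative on mode `k` -/
def Rk (a : Pr 4) (k : ℕ) : H →L[ℂ] H :=
  LinearMap.mkContinuous
    { toFun := fun x => toH (R a (Pc k x))
      map_add' := fun x y => by rw [map_add, R_add a (Pc_memV k x) (Pc_memV k y), map_add]
      map_smul' := fun c x => by
        rw [map_smul, R_smul a c (Pc_memV k x), map_smul]; rfl } (k + 1) fun x =>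
    (norm_R_le a (Pc_mem k x)).trans (by
      rw [toH_Pc]; exact mul_le_mul_of_nonneg_left (norm_P_le k x) (by positivity))

theorem Rk_apply (a : Pr 4) (k : ℕ) (x : H) : Rk a k x = toH (R a (Pc k x)) := rfl

theorem norm_Rk_le (a : Pr 4) (k : ℕ) : ‖Rk a k‖ ≤ k + 1 :=
  LinearMap.mkContinuous_norm_le _ (by positivity) _

theorem norm_Rk_apply_le (a : Pr 4) (k : ℕ) (x : H) : ‖Rk a k x‖ ≤ (k + 1) * ‖P k x‖ := by
  have := norm_R_le a (Pc_mem k x)
  rwa [toH_Pc] at this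

theorem P_Rk (a : Pr 4) (k : ℕ) (x : H) : P k (Rk a k x) = Rk a k x :=
  mem_E.1 (R_mem_E a (Pc_mem k x))

theorem Pc_Rk (a : Pr 4) (k : ℕ) (x : H) : Pc k (Rk a k x) = R a (Pc k x) :=
  Pc_of_mem (R_mem_E a (Pc_mem k x))

theorem Rk_P (a : Pr 4) (k : ℕ) (x : H) : Rk a k (P k x) = Rk a k x := by
  rw [Rk_apply, Pc_P, Rk_apply]

theorem sum_Rk_Rk (k : ℕ) (x : H) :
    ∑ a, Rk a k (Rk a k x) = -(((k * (k + 2) : ℕ) : ℂ) • P k x) := by
  have := congrArg toH (lap_Pc k x)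
  rw [map_neg, map_smul, toH_Pc, Lap, map_sum] at this
  rw [← this]
  exact Finset.sum_congr rfl fun a _ => by rw [Rk_apply a k (Rk a k x), Pc_Rk]

theorem norm_P_op (k : ℕ) : ‖P k‖ ≤ 1 :=
  ContinuousLinearMap.opNorm_le_bound _ zero_le_one fun x => by simpa using norm_P_le k x

theorem one_mem_E : (1 : CS) ∈ E 0 :=
  mem_E_of (one_mem_V 0) fun w hw => by rw [(Submodule.mem_bot ℂ).1 hw, map_zero, inner_zero_left]

theorem E_zero {v : CS} (hv : v ∈ E 0) : ∃ c : ℂ, v = c • 1 := by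
  obtain ⟨c, h⟩ := Submodule.mem_span_singleton.1 (E_le_V 0 hv)
  exact ⟨c, h.symm⟩

theorem integral_R (a : Pr 4) {k : ℕ} {v : CS} (hv : v ∈ V k) : ∫ x, R a v x ∂sg = 0 :=
  (HR_R a hv).integral_eq_zero

theorem xc_mem_E (i : Fin 4) : xc i ∈ E 1 := by
  refine mem_E_of (xc_mem i) fun w hw => ?_
  obtain ⟨c, rfl⟩ := Submodule.mem_span_singleton.1 hw
  have h := inner_Lap (one_mem_V 0) (xc_mem i)
  have h2 : Lap (xc i) = (-3 : ℂ) • xc i := by
    unfold Lap
    simp only [R_xc, lap_xc]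
    have := natCS 3 (xc i)
    push_cast at this
    rw [show -(3 : CS) * xc i = -(3 * xc i) by ring, ← this]
    ext x; simp
  simp only [h2, R_one, map_zero, inner_zero_left, Finset.sum_const_zero, neg_zero, map_smul,
    inner_smul_right] at h
  rw [map_smul, inner_smul_left, (mul_eq_zero.1 h).resolve_left (by norm_num), mul_zero]

theorem rx_mem_E (a : Pr 4) (i : Fin 4) : rx a i ∈ E 1 := by
  rw [← R_xc]; exact R_mem_E a (xc_mem_E i)

theorem integral_E {k : ℕ} (hk : k ≠ 0) {v : CS} (hv : v ∈ E k) : ∫ x, v x ∂sg = 0 := by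
  obtain ⟨k, rfl⟩ := Nat.exists_eq_succ_of_ne_zero hk
  have := E_orth hv (one_mem_V k)
  rw [inner_toH] at this
  simpa using this

/-- the mode `0` is the mean value -/
theorem Pc_zero (v : CS) : Pc 0 (toH v) = ((∫ x, v x ∂sg) / (2 * Real.pi ^ 2 : ℝ)) • (1 : CS) := by
  obtain ⟨c, hc⟩ := E_zero (Pc_mem 0 (toH v))
  have h1 : ⟪toH 1, toH (Pc 0 (toH v))⟫_ℂ = ⟪toH 1, toH v⟫_ℂ := by
    rw [toH_Pc, ← inner_P, mem_E.1 one_mem_E]
  rw [hc, inner_toH, inner_toH] at h1
  simp only [star_one, ContinuousMap.one_apply, ContinuousMap.smul_apply, smul_eq_mul, mul_one,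
    one_mul, integral_const, sg_univ, Complex.real_smul] at h1
  rw [hc, ← h1]
  congr 1
  have : ((2 * Real.pi ^ 2 : ℝ) : ℂ) ≠ 0 := by
    exact_mod_cast (by positivity : (2 * Real.pi ^ 2 : ℝ) ≠ 0)
  field_simp

theorem norm_xc_le (i : Fin 4) : ‖xc i‖ ≤ 1 :=
  (ContinuousMap.norm_le _ zero_le_one).2 fun x => by
    have := PiLp.norm_apply_le (x : E4) i
    simpa using this

theorem norm_rx_le (a : Pr 4) (i : Fin 4) : ‖rx a i‖ ≤ 1 := by
  unfold rx
  split_ifs
  · rw [norm_neg]; exact norm_xc_le _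
  · exact norm_xc_le _
  · simp

/-! ### products of series -/

/-- modes of the product of two absolutely convergent series of harmonics -/
theorem hasSum_P_mul {u v : ℕ → CS} {U W' : CS} (hu : HasSum u U) (hv : HasSum v W')
    (su : Summable fun k => ‖u k‖) (sv : Summable fun k => ‖v k‖) (j : ℕ) :
    HasSum (fun p : ℕ × ℕ => P j (toH (u p.1 * v p.2))) (P j (toH (U * W'))) :=
  (hu.mul hv (summable_mul_of_summable_norm su sv)).mapL (P j ∘L toH)

/-- absolutely summable modes with weight `(k+1)^n` -/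
def Sb (n : ℕ) (u : CS) : Prop := Summable fun k : ℕ => ((k : ℝ) + 1) ^ n * ‖P k (toH u)‖

theorem Sb.mono {m n : ℕ} (h : m ≤ n) {u : CS} (hu : Sb n u) : Sb m u :=
  Summable.of_nonneg_of_le (fun _ => by positivity) (fun k => mul_le_mul_of_nonneg_right
    (pow_le_pow_right₀ (by linarith [(Nat.cast_nonneg k : (0 : ℝ) ≤ k)]) h) (norm_nonneg _)) hu

theorem Sb.hasSum {n : ℕ} {u : CS} (hu : Sb (n + 2) u) : HasSum (fun k => Pc k (toH u)) u :=
  hasSum_Pc (hu.mono (by omega))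

theorem Sb.summable_R {n : ℕ} {u : CS} (hu : Sb (n + 1) u) (a : Pr 4) :
    Summable fun k : ℕ => ((k : ℝ) + 1) ^ n * ‖toH (R a (Pc k (toH u)))‖ :=
  Summable.of_nonneg_of_le (fun _ => by positivity) (fun k => by
    rw [pow_succ, mul_assoc, ← toH_Pc]
    exact mul_le_mul_of_nonneg_left (norm_R_le a (Pc_mem k _)) (by positivity)) hu

theorem Sb.HR_aux {n : ℕ} {u : CS} (hu : Sb (n + 3) u) (a : Pr 4) :
    HR a u (R a u) ∧ HasSum (fun k => R a (Pc k (toH u))) (R a u) := by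
  have h1 := (summable_E (fun k => R_mem a (Pc_memV k (toH u)))
    ((hu.mono (m := 3) (by omega)).summable_R a)).hasSum
  have h2 := HR.hasSum (hu.hasSum (n := n + 1)) h1 fun k => HR_R a (Pc_memV k _)
  rw [h2.R_eq]
  exact ⟨h2, h1⟩

theorem Sb.HR {n : ℕ} {u : CS} (hu : Sb (n + 3) u) (a : Pr 4) : HR a u (R a u) := (hu.HR_aux a).1

theorem Sb.R {n : ℕ} {u : CS} (hu : Sb (n + 3) u) (a : Pr 4) : Sb (n + 2) (R a u) := by
  have := hu.summable_R a
  unfold Sb
  simp only [← toH_Pc, (hu.HR a).Pc]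
  exact this

theorem Sb.of_mem_V (n : ℕ) {k : ℕ} {u : CS} (hu : u ∈ V k) : Sb n u := by
  refine summable_of_ne_finset_zero (s := Finset.range (k + 1)) fun j hj => ?_
  rw [P_of_memWH (k := k + 1) (by simpa using hj) (toH_memWH (k := k + 1) hu), norm_zero, mul_zero]

theorem Sb.add {n : ℕ} {u v : CS} (hu : Sb n u) (hv : Sb n v) : Sb n (u + v) :=
  Summable.of_nonneg_of_le (fun _ => by positivity) (fun k => by
    rw [map_add, map_add, ← mul_add]
    exact mul_le_mul_of_nonneg_left (norm_add_le _ _) (by positivity)) (Summable.add hu hv)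

theorem Sb.smul {n : ℕ} {u : CS} (c : ℂ) (hu : Sb n u) : Sb n (c • u) := by
  have := Summable.mul_left ‖c‖ hu
  unfold Sb
  simp only [map_smul, norm_smul, mul_left_comm _ ‖c‖]
  exact this

/-- a series of harmonics with summable weighted norms -/
theorem Sb.of_hasSum {n : ℕ} {v : ℕ → CS} (hv : ∀ k, v k ∈ E k) {u : CS} (hu : HasSum v u)
    (hs : Summable fun k : ℕ => ((k : ℝ) + 1) ^ n * ‖toH (v k)‖) : Sb n u := by
  unfold Sb
  simp only [← toH_Pc, Pc_of_hasSum hv hu]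
  exact hs

/-- `ℓ²` with weight `n+1` implies `ℓ¹` with weight `n` -/
theorem summable_of_sq {a : ℕ → ℝ} (ha : ∀ k, 0 ≤ a k) {C : ℝ} (hC : 0 ≤ C)
    (h : ∀ t : Finset ℕ, ∑ k ∈ t, (((k : ℝ) + 1) * a k) ^ 2 ≤ C ^ 2) :
    Summable a ∧ ∑' k, a k ≤ 2 * C := by
  have key : ∀ t : Finset ℕ, ∑ k ∈ t, a k ≤ 2 * C := by
    intro t
    have h1 := Finset.sum_mul_sq_le_sq_mul_sq t (fun k => 1 / ((k : ℝ) + 1))
      (fun k => ((k : ℝ) + 1) * a k)
    have e : ∀ k : ℕ, 1 / ((k : ℝ) + 1) * (((k : ℝ) + 1) * a k) = a k := fun k => by field_simp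
    simp only [e, div_pow, one_pow] at h1
    have h2 := mul_le_mul (sum_inv_sq_le t) (h t) (Finset.sum_nonneg fun _ _ => sq_nonneg _)
      (by norm_num)
    refine (sq_le_sq₀ (Finset.sum_nonneg fun k _ => ha k) (by positivity)).1 ?_
    nlinarith [sq_nonneg C]
  have hs := summable_of_sum_le ha key
  exact ⟨hs, hs.tsum_le_of_sum_le key⟩

end Crest.Agent.N207.J
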