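import Crest.Agent.N207.J.As1
import Crest.Agent.N207.J.Sph5
import Crest.Agent.N250.H.Fix

/-! # N207/J/As2 (helper71): the sequence spaces `CL F`, diagonal operators, true modes and
synthesis -/

set_option autoImplicit false
set_option maxHeartbeats 400000
open Metric Topology Filter
open Crest.Agent.R246.Zon797

noncomputable section

namespace Crest.Agent.N207.J

/-- `ℓ²` sequences with values in `F` (Chemin–Lerner space; weights are put in the operators) -/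
abbrev CL (F : Type) [NormedAddCommGroup F] := lp (fun _ : ℕ => F) 2

section Diag
variable {F G K : Type} [NormedAddCommGroup F] [NormedSpace ℂ F] [NormedAddCommGroup G]
  [NormedSpace ℂ G] [NormedAddCommGroup K] [NormedSpace ℂ K]

omit [NormedSpace ℂ F] in
theorem CL.ext {x y : CL F} (h : ∀ k, x k = y k) : x = y := lp.ext (funext h)

omit [NormedSpace ℂ F] in
theorem CL.norm_apply_le (x : CL F) (k : ℕ) : ‖x k‖ ≤ ‖x‖ := lp.norm_apply_le_norm (by simp) x k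

open Classical in
/-- diagonal operator (zero if the entries are not uniformly bounded) -/
def dg (T : ℕ → F →L[ℂ] G) : CL F →L[ℂ] CL G :=
  if h : ∃ c, 0 ≤ c ∧ ∀ k, ‖T k‖ ≤ c then lp.mapCLM 2 T h.choose_spec.1 h.choose_spec.2 else 0

theorem dg_apply {T : ℕ → F →L[ℂ] G} {c : ℝ} (h : ∀ k, ‖T k‖ ≤ c) (x : CL F) (k : ℕ) :
    dg T x k = T k (x k) := by
  have h' : ∃ c, 0 ≤ c ∧ ∀ k, ‖T k‖ ≤ c := ⟨c, (norm_nonneg _).trans (h 0), h⟩
  rw [dg, dif_pos h']; rfl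

theorem norm_dg_apply_le {T : ℕ → F →L[ℂ] G} {c : ℝ} (h : ∀ k, ‖T k‖ ≤ c) (x : CL F) :
    ‖dg T x‖ ≤ c * ‖x‖ := by
  have hc : 0 ≤ c := (norm_nonneg _).trans (h 0)
  refine lp_norm_le (by positivity) fun t => ?_
  calc ∑ m ∈ t, ‖dg T x m‖ ^ 2 ≤ ∑ m ∈ t, c ^ 2 * ‖x m‖ ^ 2 := Finset.sum_le_sum fun m _ => by
        rw [dg_apply h, ← mul_pow]
        exact pow_le_pow_left₀ (norm_nonneg _) ((T m).le_of_opNorm_le (h m) _) 2
    _ ≤ (c * ‖x‖) ^ 2 := by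
        rw [← Finset.mul_sum, mul_pow]
        exact mul_le_mul_of_nonneg_left (lp_sum_sq_le x t) (by positivity)

theorem norm_dg_le {T : ℕ → F →L[ℂ] G} {c : ℝ} (h : ∀ k, ‖T k‖ ≤ c) : ‖dg T‖ ≤ c :=
  ContinuousLinearMap.opNorm_le_bound _ ((norm_nonneg _).trans (h 0)) (norm_dg_apply_le h)

/-- the same operator in every mode -/
def cm (T : F →L[ℂ] G) : CL F →L[ℂ] CL G := dg fun _ => T

@[simp] theorem cm_apply (T : F →L[ℂ] G) (x : CL F) (k : ℕ) : cm T x k = T (x k) :=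
  dg_apply (fun _ => le_rfl) x k

theorem norm_cm_le (T : F →L[ℂ] G) : ‖cm T‖ ≤ ‖T‖ := norm_dg_le fun _ => le_rfl

/-- scalar multiplier -/
def sc (F : Type) [NormedAddCommGroup F] [NormedSpace ℂ F] (s : ℕ → ℂ) : CL F →L[ℂ] CL F :=
  dg fun k => s k • ContinuousLinearMap.id ℂ F

theorem sc_bd {s : ℕ → ℂ} {c : ℝ} (h : ∀ k, ‖s k‖ ≤ c) (k : ℕ) :
    ‖s k • ContinuousLinearMap.id ℂ F‖ ≤ c := by
  rw [norm_smul]
  exact (mul_le_of_le_one_right (norm_nonneg _) ContinuousLinearMap.norm_id_le).trans (h k)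

theorem sc_apply {s : ℕ → ℂ} {c : ℝ} (h : ∀ k, ‖s k‖ ≤ c) (x : CL F) (k : ℕ) :
    sc F s x k = s k • x k := dg_apply (sc_bd h) x k

theorem norm_sc_le {s : ℕ → ℂ} {c : ℝ} (h : ∀ k, ‖s k‖ ≤ c) : ‖sc F s‖ ≤ c := norm_dg_le (sc_bd h)

variable {Z : Type*} [NormedAddCommGroup Z] [NormedSpace ℂ Z]

/-- `ℓ²`-valued maps: bounded and coordinatewise holomorphic -/
theorem diffOn_CL [CompleteSpace G] {f : Z → CL G} {U : Set Z} (hU : IsOpen U) {M : ℝ}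
    (hM : ∀ z ∈ U, ‖f z‖ ≤ M) (hd : ∀ k, DifferentiableOn ℂ (fun z => f z k) U) :
    DifferentiableOn ℂ f U := by
  classical
  let Pr' : Finset ℕ → CL G →L[ℂ] CL G := fun s =>
    ∑ i ∈ s, (lp.singleContinuousLinearMap ℂ (fun _ : ℕ => G) 2 i).comp
      (lp.evalCLM ℂ (fun _ : ℕ => G) 2 i)
  have hP : ∀ s v, Pr' s v = ∑ i ∈ s, lp.single 2 i (v i) := fun s v => by
    simp only [Pr', sum_apply]
    rfl
  refine N250.H.diffOn_of_trunc (l := atTop) Pr' (fun s v => ?_) (fun v => ?_) hU hM (fun s => ?_)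
  · rw [hP]
    refine lp_norm_le (norm_nonneg _) fun t => le_trans (Finset.sum_le_sum fun m _ => ?_)
      (lp_sum_sq_le v t)
    refine pow_le_pow_left₀ (norm_nonneg _) ?_ 2
    rw [lp.coeFn_sum, Finset.sum_apply]
    simp only [lp.single_apply, Finset.sum_pi_single]
    split_ifs <;> simp
  · simp only [hP]
    exact lp.hasSum_single (by simp) v
  · simp only [hP]
    exact DifferentiableOn.fun_sum (fun i _ =>
      (lp.singleContinuousLinearMap ℂ (fun _ : ℕ => G) 2 i).differentiable.comp_differentiableOn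
        (hd i))

/-- a diagonal operator with uniformly bounded holomorphic entries is holomorphic -/
theorem diffOn_dg [CompleteSpace G] {T : Z → ℕ → F →L[ℂ] G} {U : Set Z} (hU : IsOpen U) {c : ℝ}
    (hc : ∀ z ∈ U, ∀ k, ‖T z k‖ ≤ c) (hd : ∀ k v, DifferentiableOn ℂ (fun z => T z k v) U) :
    DifferentiableOn ℂ (fun z => dg (T z)) U :=
  N250.H.diffOn_clm hU (fun z hz => norm_dg_le (hc z hz)) fun v =>
    diffOn_CL hU (fun z hz => norm_dg_apply_le (hc z hz) v) fun k =>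
      (hd k (v k)).congr fun z hz => dg_apply (hc z hz) v k

end Diag

/-- the Sobolev weight -/
def wn (m k : ℕ) : ℂ := ((k : ℂ) + 1) ^ m

theorem k1_ne (k : ℕ) : (k : ℂ) + 1 ≠ 0 := by exact_mod_cast Nat.succ_ne_zero k

theorem wn_ne (m k : ℕ) : wn m k ≠ 0 := pow_ne_zero _ (k1_ne k)

theorem norm_k1 (k : ℕ) : ‖(k : ℂ) + 1‖ = (k : ℝ) + 1 := by
  rw [show (k : ℂ) + 1 = ((k + 1 : ℕ) : ℂ) by push_cast; ring, Complex.norm_natCast]; push_cast; ring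

theorem norm_wn (m k : ℕ) : ‖wn m k‖ = ((k : ℝ) + 1) ^ m := by rw [wn, norm_pow, norm_k1]

theorem wn_succ (m k : ℕ) : wn (m + 1) k = wn m k * (k + 1) := pow_succ _ _

theorem wt_eq_wn (m k : ℕ) : ((wt m k : ℝ) : ℂ) = wn m k := by rw [wt_nat, wn]; push_cast; ring

section Syn
variable {F : Type} [NormedAddCommGroup F] [NormedSpace ℂ F]

/-- the true mode `k` of `x` at level `m`, analytic weight `o`, evaluation `e` -/
def md (m : ℕ) (o : ℂ) (e : F →L[ℂ] H) (x : CL F) (k : ℕ) : CS :=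
  (o ^ k / wn m k) • Pc k (e (x k))

theorem md_mem (m : ℕ) (o : ℂ) (e : F →L[ℂ] H) (x : CL F) (k : ℕ) : md m o e x k ∈ E k :=
  Submodule.smul_mem _ _ (Pc_mem k _)

theorem md_add (m : ℕ) (o : ℂ) (e : F →L[ℂ] H) (x y : CL F) (k : ℕ) :
    md m o e (x + y) k = md m o e x k + md m o e y k := by
  simp only [md, lp.coeFn_add, Pi.add_apply, map_add]
  ext y
  simp [mul_add]

theorem md_sub (m : ℕ) (o : ℂ) (e : F →L[ℂ] H) (x y : CL F) (k : ℕ) :
    md m o e (x - y) k = md m o e x k - md m o e y k := by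
  simp [md, smul_sub]

theorem md_smul (m : ℕ) (o : ℂ) (e : F →L[ℂ] H) (c : ℂ) (x : CL F) (k : ℕ) :
    md m o e (c • x) k = c • md m o e x k := by
  simp [md, smul_comm c]

theorem md_sc (m : ℕ) (o : ℂ) (e : F →L[ℂ] H) {s : ℕ → ℂ} {c : ℝ} (h : ∀ k, ‖s k‖ ≤ c) (x : CL F)
    (k : ℕ) : md m o e (sc F s x) k = s k • md m o e x k := by
  simp [md, sc_apply h, smul_comm (s k)]

theorem norm_toH_md {m : ℕ} {o : ℂ} (ho : ‖o‖ ≤ 1) (e : F →L[ℂ] H) (x : CL F) (k : ℕ) :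
    ((k : ℝ) + 1) ^ m * ‖toH (md m o e x k)‖ ≤ ‖e (x k)‖ := by
  rw [md, map_smul, norm_smul, toH_Pc, norm_div, norm_wn, norm_pow, ← mul_assoc,
    mul_div_cancel₀ _ (by positivity)]
  exact (mul_le_of_le_one_left (norm_nonneg _) (pow_le_one₀ (norm_nonneg _) ho)).trans
    (norm_P_le k _)

theorem summable_md_aux {n : ℕ} {o : ℂ} (ho : ‖o‖ ≤ 1) (e : F →L[ℂ] H) {c : ℝ} (hc : 0 ≤ c)
    (he : ∀ f, ‖e f‖ ≤ c * ‖f‖) (x : CL F) :
    Summable (fun k : ℕ => ((k : ℝ) + 1) ^ n * ‖toH (md (n + 1) o e x k)‖) ∧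
      ∑' k : ℕ, ((k : ℝ) + 1) ^ n * ‖toH (md (n + 1) o e x k)‖ ≤ 2 * (c * ‖x‖) := by
  refine summable_of_sq (fun k => by positivity) (by positivity) fun t => ?_
  calc _ ≤ ∑ k ∈ t, c ^ 2 * ‖x k‖ ^ 2 := Finset.sum_le_sum fun k _ => by
        rw [← mul_pow, ← mul_assoc, ← pow_succ']
        exact pow_le_pow_left₀ (by positivity) ((norm_toH_md ho e x k).trans (he _)) 2
    _ ≤ (c * ‖x‖) ^ 2 := by
        rw [← Finset.mul_sum, mul_pow]
        exact mul_le_mul_of_nonneg_left (lp_sum_sq_le x t) (by positivity)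

theorem norm_md_le {m : ℕ} (hm : 3 ≤ m) (o : ℂ) (e : F →L[ℂ] H) (x : CL F) (k : ℕ) :
    ‖md m o e x k‖ ≤ ((k : ℝ) + 1) ^ (m - 1) * ‖toH (md m o e x k)‖ :=
  (sup_le (E_le_V k (md_mem m o e x k))).trans (mul_le_mul_of_nonneg_right
    (pow_le_pow_right₀ (by linarith [(Nat.cast_nonneg k : (0 : ℝ) ≤ k)]) (by omega))
    (norm_nonneg _))

theorem summable_norm_md {m : ℕ} (hm : 3 ≤ m) {o : ℂ} (ho : ‖o‖ ≤ 1) (e : F →L[ℂ] H) {c : ℝ}
    (hc : 0 ≤ c) (he : ∀ f, ‖e f‖ ≤ c * ‖f‖) (x : CL F) :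
    Summable (fun k => ‖md m o e x k‖) ∧ ∑' k, ‖md m o e x k‖ ≤ 2 * c * ‖x‖ := by
  obtain ⟨n, rfl⟩ : ∃ n, m = n + 1 := ⟨m - 1, by omega⟩
  obtain ⟨h1, h2⟩ := summable_md_aux (n := n) ho e hc he x
  have h3 : Summable fun k => ‖md (n + 1) o e x k‖ :=
    Summable.of_nonneg_of_le (fun _ => norm_nonneg _) (norm_md_le hm o e x) h1
  exact ⟨h3, (h3.tsum_le_tsum (norm_md_le hm o e x) h1).trans (h2.trans_eq (by ring))⟩

theorem summable_norm_md' {m : ℕ} (hm : 3 ≤ m) {o : ℂ} (ho : ‖o‖ ≤ 1) (e : F →L[ℂ] H) (x : CL F) :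
    Summable fun k => ‖md m o e x k‖ := (summable_norm_md hm ho e (norm_nonneg _) e.le_opNorm x).1

open Classical in
/-- synthesis: the true function on the sphere -/
def syn (m : ℕ) (o : ℂ) (e : F →L[ℂ] H) : CL F →L[ℂ] CS :=
  if h : 3 ≤ m ∧ ‖o‖ ≤ 1 then LinearMap.mkContinuous
    { toFun := fun x => ∑' k, md m o e x k
      map_add' := fun x y => by
        simp only [md_add]
        exact (summable_norm_md' h.1 h.2 e x).of_norm.tsum_add
          (summable_norm_md' h.1 h.2 e y).of_norm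
      map_smul' := fun c x => by
        simp only [md_smul]
        exact (summable_norm_md' h.1 h.2 e x).of_norm.tsum_const_smul c } (2 * ‖e‖) fun x =>
      (norm_tsum_le_tsum_norm (summable_norm_md' h.1 h.2 e x)).trans
        (summable_norm_md h.1 h.2 e (norm_nonneg _) e.le_opNorm x).2
  else 0

variable {m : ℕ} {o : ℂ}

theorem hasSum_syn (hm : 3 ≤ m) (ho : ‖o‖ ≤ 1) (e : F →L[ℂ] H) (x : CL F) :
    HasSum (md m o e x) (syn m o e x) := by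
  rw [syn, dif_pos ⟨hm, ho⟩]
  exact (summable_norm_md' hm ho e x).of_norm.hasSum

theorem norm_syn_le (hm : 3 ≤ m) (ho : ‖o‖ ≤ 1) (e : F →L[ℂ] H) {c : ℝ} (hc : 0 ≤ c)
    (he : ∀ f, ‖e f‖ ≤ c * ‖f‖) (x : CL F) : ‖syn m o e x‖ ≤ 2 * c * ‖x‖ := by
  rw [← (hasSum_syn hm ho e x).tsum_eq]
  exact (norm_tsum_le_tsum_norm (summable_norm_md' hm ho e x)).trans
    (summable_norm_md hm ho e hc he x).2

theorem Pc_syn (hm : 3 ≤ m) (ho : ‖o‖ ≤ 1) (e : F →L[ℂ] H) (x : CL F) (k : ℕ) :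
    Pc k (toH (syn m o e x)) = md m o e x k :=
  Pc_of_hasSum (md_mem m o e x) (hasSum_syn hm ho e x) k

theorem P_syn (hm : 3 ≤ m) (ho : ‖o‖ ≤ 1) (e : F →L[ℂ] H) (x : CL F) (k : ℕ) :
    P k (toH (syn m o e x)) = (o ^ k / wn m k) • P k (e (x k)) := by
  rw [← toH_Pc, Pc_syn hm ho, md, map_smul, toH_Pc]

/-- a function is the synthesis of `x` as soon as its modes are the modes of `x` -/
theorem syn_eq (hm : 3 ≤ m) (ho : ‖o‖ ≤ 1) (e : F →L[ℂ] H) (x : CL F) {v : CS}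
    (h : ∀ k, Pc k (toH v) = md m o e x k) : syn m o e x = v :=
  ext_Pc fun k => by rw [Pc_syn hm ho, h]

theorem syn_congr {F' : Type} [NormedAddCommGroup F'] [NormedSpace ℂ F'] {m' : ℕ} {o' : ℂ}
    (hm : 3 ≤ m) (ho : ‖o‖ ≤ 1) (hm' : 3 ≤ m') (ho' : ‖o'‖ ≤ 1) {e : F →L[ℂ] H} {e' : F' →L[ℂ] H}
    {x : CL F} {x' : CL F'} (h : ∀ k, md m o e x k = md m' o' e' x' k) :
    syn m o e x = syn m' o' e' x' := syn_eq hm ho e x fun k => by rw [Pc_syn hm' ho', h]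

theorem Sb_syn (hm : 3 ≤ m) (ho : ‖o‖ ≤ 1) (e : F →L[ℂ] H) (x : CL F) :
    Sb (m - 1) (syn m o e x) := by
  obtain ⟨n, rfl⟩ : ∃ n, m = n + 1 := ⟨m - 1, by omega⟩
  exact Sb.of_hasSum (md_mem _ o e x) (hasSum_syn hm ho e x)
    (summable_md_aux ho e (norm_nonneg _) e.le_opNorm x).1

theorem HR_syn (hm : 4 ≤ m) (ho : ‖o‖ ≤ 1) (e : F →L[ℂ] H) (x : CL F) (a : Pr 4) :
    HR a (syn m o e x) (R a (syn m o e x)) := by
  obtain ⟨n, rfl⟩ : ∃ n, m = n + 4 := ⟨m - 4, by omega⟩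
  exact (Sb_syn (m := n + 4) (by omega) ho e x).HR a

/-- lowering the level -/
def lw (F : Type) [NormedAddCommGroup F] [NormedSpace ℂ F] (d : ℕ) : CL F →L[ℂ] CL F :=
  sc F fun k => (wn d k)⁻¹

theorem lw_bd (d k : ℕ) : ‖(wn d k)⁻¹‖ ≤ 1 := by
  rw [norm_inv, norm_wn]
  exact inv_le_one_of_one_le₀ (one_le_pow₀ (by linarith [(Nat.cast_nonneg k : (0 : ℝ) ≤ k)]))

theorem norm_lw_le (d : ℕ) : ‖lw F d‖ ≤ 1 := norm_sc_le (lw_bd d)

theorem md_lw (m d : ℕ) (o : ℂ) (e : F →L[ℂ] H) (x : CL F) (k : ℕ) :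
    md m o e (lw F d x) k = md (m + d) o e x k := by
  rw [lw, md_sc m o e (lw_bd d), md, md, smul_smul]
  congr 1
  have := wn_ne m k
  have := wn_ne d k
  rw [show wn (m + d) k = wn m k * wn d k from pow_add _ _ _]
  field_simp

theorem syn_lw (hm : 3 ≤ m) (ho : ‖o‖ ≤ 1) (d : ℕ) (e : F →L[ℂ] H) (x : CL F) :
    syn m o e (lw F d x) = syn (m + d) o e x :=
  syn_congr hm ho (by omega) ho fun k => md_lw m d o e x k

end Syn

end Crest.Agent.N207.J
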