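import Crest.Agent.N207.J.Sph4

/-! # N207/J/As1 (helper71): the structure `Layer` (time part of the neck calculus)

`F1` (solutions) and `F2` (sources) are Banach spaces whose elements are determined by their
values `ev p f ∈ H = L²(S³)` at the points `p : Pt`.  All closure properties are existence
statements; the operators are built here. -/

set_option autoImplicit false
set_option maxHeartbeats 400000
open Metric Topology Filter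

noncomputable section

namespace Crest.Agent.N207.J

section Lift
variable {Pt A B G : Type} [NormedAddCommGroup A] [NormedSpace ℂ A] [NormedAddCommGroup B]
  [NormedSpace ℂ B] [NormedAddCommGroup G] [NormedSpace ℂ G]

/-- A map given by an existence statement with prescribed (linear) values is a bounded operator. -/
theorem exists_clm (ev : Pt → B →L[ℂ] G) (inj : ∀ f, (∀ p, ev p f = 0) → f = 0)
    (T : A → Pt → G) (hadd : ∀ f g p, T (f + g) p = T f p + T g p)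
    (hsm : ∀ (c : ℂ) f p, T (c • f) p = c • T f p) {c : ℝ} (hc : 0 ≤ c)
    (h : ∀ f, ∃ g, ‖g‖ ≤ c * ‖f‖ ∧ ∀ p, ev p g = T f p) :
    ∃ S : A →L[ℂ] B, ‖S‖ ≤ c ∧ ∀ f p, ev p (S f) = T f p := by
  choose S hS hev using h
  have ext : ∀ f g : B, (∀ p, ev p f = ev p g) → f = g := fun f g h =>
    sub_eq_zero.1 (inj _ fun p => by rw [map_sub, h p, sub_self])
  let L : A →ₗ[ℂ] B :=
    { toFun := S
      map_add' := fun f g => ext _ _ fun p => by rw [map_add, hev, hev, hev, hadd]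
      map_smul' := fun c f => ext _ _ fun p => by
        rw [map_smul, hev, hev, hsm, RingHom.id_apply] }
  exact ⟨L.mkContinuous c hS, LinearMap.mkContinuous_norm_le _ hc _, hev⟩

/-- Bilinear version of `exists_clm`. -/
theorem exists_clm₂ {A' : Type} [NormedAddCommGroup A'] [NormedSpace ℂ A']
    (ev : Pt → B →L[ℂ] G) (inj : ∀ f, (∀ p, ev p f = 0) → f = 0)
    (T : A → A' → Pt → G) (hadd : ∀ f g u p, T (f + g) u p = T f u p + T g u p)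
    (hsm : ∀ (c : ℂ) f u p, T (c • f) u p = c • T f u p)
    (hadd' : ∀ f u v p, T f (u + v) p = T f u p + T f v p)
    (hsm' : ∀ (c : ℂ) f u p, T f (c • u) p = c • T f u p) {c : ℝ} (hc : 0 ≤ c)
    (h : ∀ f u, ∃ g, ‖g‖ ≤ c * ‖f‖ * ‖u‖ ∧ ∀ p, ev p g = T f u p) :
    ∃ S : A →L[ℂ] A' →L[ℂ] B, ‖S‖ ≤ c ∧ ∀ f u p, ev p (S f u) = T f u p := by
  choose S hS hev using h
  have ext : ∀ f g : B, (∀ p, ev p f = ev p g) → f = g := fun f g h =>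
    sub_eq_zero.1 (inj _ fun p => by rw [map_sub, h p, sub_self])
  let L : A →ₗ[ℂ] A' →ₗ[ℂ] B := LinearMap.mk₂ ℂ S
    (fun f g u => ext _ _ fun p => by rw [map_add, hev, hev, hev, hadd])
    (fun c f u => ext _ _ fun p => by rw [map_smul, hev, hev, hsm])
    (fun f u v => ext _ _ fun p => by rw [map_add, hev, hev, hev, hadd'])
    (fun c f u => ext _ _ fun p => by rw [map_smul, hev, hev, hsm'])
  exact ⟨L.mkContinuous₂ c hS, LinearMap.mkContinuous₂_norm_le _ hc _, hev⟩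

end Lift

/-- The time layer (algebra part).  The true mode `k` of a stored `f` at `p` is
`om p ^ k • P k (ev p f)` (times the Sobolev weight, put in by the assembly). -/
structure Layer (Pt F1 F2 : Type) [NormedAddCommGroup F1] [NormedSpace ℂ F1]
    [NormedAddCommGroup F2] [NormedSpace ℂ F2] (C : ℝ) where
  one_le : 1 ≤ C
  om : Pt → ℂ
  om_ne : ∀ p, om p ≠ 0
  om_le : ∀ p, ‖om p‖ ≤ 1
  ev1 : Pt → F1 →L[ℂ] H
  ev2 : Pt → F2 →L[ℂ] H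
  ev1_le : ∀ p f, ‖ev1 p f‖ ≤ C * ‖f‖
  inj1 : ∀ f, (∀ p, ev1 p f = 0) → f = 0
  inj2 : ∀ f, (∀ p, ev2 p f = 0) → f = 0
  lin_ex : ∀ (A : H →L[ℂ] H) (j : ℤ), -1 ≤ j → ∀ f : F1, ∃ g : F1,
    ‖g‖ ≤ C * ‖A‖ * ‖f‖ ∧ ∀ p, ev1 p g = om p ^ j • A (ev1 p f)
  bil_ex : ∀ (β : H →L[ℂ] H →L[ℂ] H) (j : ℕ) (f g : F1), ∃ h : F2,
    ‖h‖ ≤ C * ‖β‖ * ‖f‖ * ‖g‖ ∧ ∀ p, ev2 p h = om p ^ j • β (ev1 p f) (ev1 p g)
  inc_ex : ∀ f : F2, ∃ g : F1, ‖g‖ ≤ C * ‖f‖ ∧ ∀ p, ev1 p g = ev2 p f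

/-- The Green part.  Intended meaning on a path `t(·)`:
`om^k ev1 (gm k f) (t) = ∫_0^t e^{-(k+2)(t-u)} om^k ev2 f`,
`om^k ev1 (gp k f) (t) = ∫_t^L e^{-k(u-t)} om^k ev2 f` (`k = 0`: from `t` to the base point),
`em k a = e^{-(k+2) t} a`, `ep k b = e^{-k (L-t)} b` up to normalisation (`ep 0 = 0` on necks). -/
structure Grn (F1 F2 : Type) [NormedAddCommGroup F1] [NormedSpace ℂ F1]
    [NormedAddCommGroup F2] [NormedSpace ℂ F2] (C : ℝ) where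
  gm : ℕ → F2 →L[ℂ] F1
  gp : ℕ → F2 →L[ℂ] F1
  em : ℕ → H →L[ℂ] F1
  ep : ℕ → H →L[ℂ] F1
  gm_le : ∀ k, ‖gm k‖ ≤ C / (k + 1)
  gp_le : ∀ k, ‖gp k‖ ≤ C / (k + 1)
  em_le : ∀ k, ‖em k‖ ≤ C
  ep_le : ∀ k, ‖ep k‖ ≤ C

namespace Layer
variable {Pt F1 F2 : Type} [NormedAddCommGroup F1] [NormedSpace ℂ F1]
  [NormedAddCommGroup F2] [NormedSpace ℂ F2] {C : ℝ} (Y : Layer Pt F1 F2 C)
include Y

theorem C_pos : 0 < C := lt_of_lt_of_le one_pos Y.one_le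

theorem ext1 {f g : F1} (h : ∀ p, Y.ev1 p f = Y.ev1 p g) : f = g :=
  sub_eq_zero.1 (Y.inj1 _ fun p => by rw [map_sub, h p, sub_self])

theorem ext2 {f g : F2} (h : ∀ p, Y.ev2 p f = Y.ev2 p g) : f = g :=
  sub_eq_zero.1 (Y.inj2 _ fun p => by rw [map_sub, h p, sub_self])

theorem lin_spec (A : H →L[ℂ] H) (j : ℤ) : ∃ S : F1 →L[ℂ] F1, ‖S‖ ≤ C * ‖A‖ ∧
    (-1 ≤ j → ∀ f p, Y.ev1 p (S f) = Y.om p ^ j • A (Y.ev1 p f)) := by
  have hc : 0 ≤ C * ‖A‖ := mul_nonneg Y.C_pos.le (norm_nonneg _)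
  by_cases hj : -1 ≤ j
  · obtain ⟨S, h1, h2⟩ := exists_clm Y.ev1 Y.inj1 (fun f p => Y.om p ^ j • A (Y.ev1 p f))
      (fun f g p => by simp) (fun c f p => by simp [smul_comm c]) hc (Y.lin_ex A j hj)
    exact ⟨S, h1, fun _ => h2⟩
  · exact ⟨0, by simpa using hc, fun h => absurd h hj⟩

/-- The lift of `om ^ j • A`. -/
def lin (A : H →L[ℂ] H) (j : ℤ) : F1 →L[ℂ] F1 := (Y.lin_spec A j).choose

theorem norm_lin (A : H →L[ℂ] H) (j : ℤ) : ‖Y.lin A j‖ ≤ C * ‖A‖ := (Y.lin_spec A j).choose_spec.1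

theorem ev_lin (A : H →L[ℂ] H) {j : ℤ} (hj : -1 ≤ j) (f : F1) (p : Pt) :
    Y.ev1 p (Y.lin A j f) = Y.om p ^ j • A (Y.ev1 p f) := (Y.lin_spec A j).choose_spec.2 hj f p

theorem ev_lin0 (A : H →L[ℂ] H) (f : F1) (p : Pt) :
    Y.ev1 p (Y.lin A 0 f) = A (Y.ev1 p f) := by rw [Y.ev_lin A (by norm_num)]; simp

theorem bil_spec (β : H →L[ℂ] H →L[ℂ] H) (j : ℕ) : ∃ S : F1 →L[ℂ] F1 →L[ℂ] F2,
    ‖S‖ ≤ C * ‖β‖ ∧ ∀ f g p, Y.ev2 p (S f g) = Y.om p ^ j • β (Y.ev1 p f) (Y.ev1 p g) :=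
  exists_clm₂ Y.ev2 Y.inj2 (fun f g p => Y.om p ^ j • β (Y.ev1 p f) (Y.ev1 p g))
    (fun f g u p => by simp) (fun c f u p => by simp [smul_comm c]) (fun f g u p => by simp)
    (fun c f u p => by simp [smul_comm c]) (mul_nonneg Y.C_pos.le β.opNorm_nonneg)
    (Y.bil_ex β j)

/-- The lift of `om ^ j • β`. -/
def bil (β : H →L[ℂ] H →L[ℂ] H) (j : ℕ) : F1 →L[ℂ] F1 →L[ℂ] F2 := (Y.bil_spec β j).choose

theorem norm_bil (β : H →L[ℂ] H →L[ℂ] H) (j : ℕ) : ‖Y.bil β j‖ ≤ C * ‖β‖ :=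
  (Y.bil_spec β j).choose_spec.1

theorem ev_bil (β : H →L[ℂ] H →L[ℂ] H) (j : ℕ) (f g : F1) (p : Pt) :
    Y.ev2 p (Y.bil β j f g) = Y.om p ^ j • β (Y.ev1 p f) (Y.ev1 p g) :=
  (Y.bil_spec β j).choose_spec.2 f g p

theorem inc_spec : ∃ S : F2 →L[ℂ] F1, ‖S‖ ≤ C ∧ ∀ f p, Y.ev1 p (S f) = Y.ev2 p f :=
  exists_clm Y.ev1 Y.inj1 (fun f p => Y.ev2 p f) (fun f g p => by simp) (fun c f p => by simp)
    Y.C_pos.le Y.inc_ex

/-- Sources are solutions-class functions. -/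
def inc : F2 →L[ℂ] F1 := Y.inc_spec.choose

theorem norm_inc : ‖Y.inc‖ ≤ C := Y.inc_spec.choose_spec.1

theorem ev_inc (f : F2) (p : Pt) : Y.ev1 p (Y.inc f) = Y.ev2 p f := Y.inc_spec.choose_spec.2 f p

theorem ev2_le (p : Pt) (f : F2) : ‖Y.ev2 p f‖ ≤ C * C * ‖f‖ := by
  rw [← Y.ev_inc]
  refine (Y.ev1_le p _).trans ?_
  rw [mul_assoc]
  exact mul_le_mul_of_nonneg_left ((Y.inc.le_opNorm f).trans
    (mul_le_mul_of_nonneg_right Y.norm_inc (norm_nonneg _))) Y.C_pos.le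

/-- Enlarging the constant. -/
def mono {C' : ℝ} (h : C ≤ C') : Layer Pt F1 F2 C' where
  one_le := Y.one_le.trans h
  om := Y.om
  om_ne := Y.om_ne
  om_le := Y.om_le
  ev1 := Y.ev1
  ev2 := Y.ev2
  ev1_le := fun p f => (Y.ev1_le p f).trans (by gcongr)
  inj1 := Y.inj1
  inj2 := Y.inj2
  lin_ex := fun A j hj f => (Y.lin_ex A j hj f).imp fun _ hg => ⟨hg.1.trans (by gcongr), hg.2⟩
  bil_ex := fun β j f g => (Y.bil_ex β j f g).imp fun _ hg => ⟨hg.1.trans (by gcongr), hg.2⟩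
  inc_ex := fun f => (Y.inc_ex f).imp fun _ hg => ⟨hg.1.trans (by gcongr), hg.2⟩

end Layer

/-- A restriction map between layers: compatible with the evaluations along `π` (nothing is
asked about Green operators). -/
structure Mor {Pt F1 F2 Pt' F1' F2' : Type} [NormedAddCommGroup F1] [NormedSpace ℂ F1]
    [NormedAddCommGroup F2] [NormedSpace ℂ F2] [NormedAddCommGroup F1'] [NormedSpace ℂ F1']
    [NormedAddCommGroup F2'] [NormedSpace ℂ F2'] {C C' : ℝ} (Y : Layer Pt F1 F2 C)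
    (Y' : Layer Pt' F1' F2' C') (c : ℝ) where
  π : Pt' → Pt
  om_eq : ∀ p, Y'.om p = Y.om (π p)
  φ1 : F1 →L[ℂ] F1'
  φ2 : F2 →L[ℂ] F2'
  φ1_le : ‖φ1‖ ≤ c
  φ2_le : ‖φ2‖ ≤ c
  ev1_φ : ∀ f p, Y'.ev1 p (φ1 f) = Y.ev1 (π p) f
  ev2_φ : ∀ f p, Y'.ev2 p (φ2 f) = Y.ev2 (π p) f

end Crest.Agent.N207.J
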