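import Crest.Agent.N207.J.As4

/-! # N207/J/As5 (helper71): the layer of bounded continuous functions with weights `w, om`;
dictionary `md/syn` ↔ `tru/val` of `L/Defs` -/

set_option autoImplicit false
set_option maxHeartbeats 400000
set_option linter.unusedSectionVars false
open Metric Topology Filter BoundedContinuousFunction
open Crest.Agent.N207.L (BH Md tru trD val dt jets cj Jx)

noncomputable section

namespace Crest.Agent.N207.J

/-- hypotheses on the weights -/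
structure Wts (w om : ℝ → ℝ) (o : ℝ) : Prop where
  wc : Continuous w
  w0 : ∀ x, 0 < w x
  w1 : ∀ x, w x ≤ 1
  oc : Continuous om
  op : 0 < o
  o0 : ∀ x, o ≤ om x
  o1 : ∀ x, om x ≤ 1

theorem _root_.Crest.Agent.N207.L.Pth.Ok.wts {γ : L.Pth} {C o : ℝ} (h : γ.Ok C o) (ho : 0 < o) :
    Wts γ.w γ.om o := ⟨h.wc, h.w0, h.w1, h.oc, ho, h.o0, h.o1⟩

/-- weighted evaluation -/
def evW (g : ℝ → ℝ) (x : ℝ) : BH →L[ℂ] H := (g x : ℂ) • evalCLM ℂ x

@[simp] theorem evW_apply (g : ℝ → ℝ) (x : ℝ) (f : BH) : evW g x f = (g x : ℂ) • f x := rfl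

theorem exists_BH {g : ℝ → H} (hg : Continuous g) {c : ℝ} (hc : 0 ≤ c) (h : ∀ x, ‖g x‖ ≤ c) :
    ∃ f : BH, ‖f‖ ≤ c ∧ ∀ x, f x = g x :=
  ⟨ofNormedAddCommGroup g hg c h, norm_ofNormedAddCommGroup_le hg hc h, fun _ => rfl⟩

namespace Wts
variable {w om : ℝ → ℝ} {o : ℝ} (h : Wts w om o)
include h

theorem om_pos (x : ℝ) : 0 < om x := h.op.trans_le (h.o0 x)

theorem one_le : 1 ≤ o⁻¹ := (one_le_inv₀ h.op).2 ((h.o0 0).trans (h.o1 0))

theorem norm_om (x : ℝ) : ‖(om x : ℂ)‖ = om x := by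
  rw [Complex.norm_real, Real.norm_of_nonneg (h.om_pos x).le]

theorem norm_w (x : ℝ) : ‖(w x : ℂ)‖ = w x := by
  rw [Complex.norm_real, Real.norm_of_nonneg (h.w0 x).le]

theorem zpow_le (x : ℝ) {j : ℤ} (hj : -1 ≤ j) : ‖(om x : ℂ) ^ j‖ ≤ o⁻¹ := by
  rw [norm_zpow, h.norm_om]
  rcases eq_or_lt_of_le hj with rfl | hj
  · rw [zpow_neg_one]; exact inv_anti₀ h.op (h.o0 x)
  · exact (zpow_le_one₀ (h.om_pos x) (h.o1 x) (by omega)).trans h.one_le

theorem inj {g : ℝ → ℝ} (hg : ∀ x, 0 < g x) (f : BH) (hf : ∀ x, evW g x f = 0) : f = 0 := by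
  ext1 x
  have := hf x
  rw [evW_apply, smul_eq_zero] at this
  exact this.resolve_left (by exact_mod_cast (hg x).ne')

/-- the layer: true values `w x • f x` (solutions), `w x ^ 2 • f x` (sources) -/
def bcf : Layer ℝ BH BH o⁻¹ where
  one_le := h.one_le
  om x := om x
  om_ne x := by exact_mod_cast (h.om_pos x).ne'
  om_le x := by rw [h.norm_om]; exact h.o1 x
  ev1 := evW w
  ev2 := evW fun x => w x ^ 2
  ev1_le x f := by
    rw [evW_apply, norm_smul, h.norm_w]
    exact mul_le_mul ((h.w1 x).trans h.one_le) (f.norm_coe_le_norm x) (norm_nonneg _)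
      (inv_pos.2 h.op).le
  inj1 := h.inj h.w0
  inj2 := h.inj fun x => pow_pos (h.w0 x) 2
  lin_ex A j hj f := by
    have hc : Continuous fun x => (om x : ℂ) ^ j • A (f x) :=
      ((Complex.continuous_ofReal.comp h.oc).zpow₀ j fun x => Or.inl (by
        simpa using (h.om_pos x).ne')).smul (A.continuous.comp f.continuous)
    have := h.op
    obtain ⟨g, h1, h2⟩ := exists_BH hc (c := o⁻¹ * ‖A‖ * ‖f‖) (by positivity) fun x => by
      rw [norm_smul, mul_assoc]
      exact mul_le_mul (h.zpow_le x hj) ((A.le_opNorm _).trans (by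
        gcongr; exact f.norm_coe_le_norm x)) (norm_nonneg _) (by positivity)
    exact ⟨g, h1, fun x => by rw [evW_apply, evW_apply, h2, map_smul, smul_comm]⟩
  bil_ex β j f g := by
    have hc : Continuous fun x => (om x : ℂ) ^ j • β (f x) (g x) :=
      ((Complex.continuous_ofReal.comp h.oc).pow j).smul
        ((β.continuous.comp f.continuous).clm_apply g.continuous)
    have := h.op
    have hβ := β.opNorm_nonneg
    obtain ⟨u, h1, h2⟩ := exists_BH hc (c := o⁻¹ * ‖β‖ * ‖f‖ * ‖g‖) (by positivity) fun x => by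
      rw [norm_smul, mul_assoc, mul_assoc, ← mul_assoc ‖β‖, ← zpow_natCast]
      exact mul_le_mul (h.zpow_le x (by omega)) ((β.le_opNorm₂ _ _).trans (by
        gcongr
        exacts [f.norm_coe_le_norm x, g.norm_coe_le_norm x])) (norm_nonneg _) (by positivity)
    refine ⟨u, h1, fun x => ?_⟩
    simp only [evW_apply, h2, map_smul, _root_.smul_apply, smul_smul]
    congr 1; push_cast; ring
  inc_ex f := by
    have hc : Continuous fun x => (w x : ℂ) • f x :=
      (Complex.continuous_ofReal.comp h.wc).smul f.continuous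
    have := h.op
    obtain ⟨g, h1, h2⟩ := exists_BH hc (c := o⁻¹ * ‖f‖) (by positivity) fun x => by
      rw [norm_smul, h.norm_w]
      exact mul_le_mul ((h.w1 x).trans h.one_le) (f.norm_coe_le_norm x) (norm_nonneg _)
        (by positivity)
    refine ⟨g, h1, fun x => ?_⟩
    simp only [evW_apply, h2, smul_smul]
    congr 1; push_cast; ring

@[simp] theorem bcf_om (x : ℝ) : h.bcf.om x = om x := rfl
@[simp] theorem bcf_ev1 : h.bcf.ev1 = evW w := rfl
@[simp] theorem bcf_ev2 : h.bcf.ev2 = evW fun x => w x ^ 2 := rfl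

end Wts

/-! ### dictionary -/

theorem toH_md_evW (σ : ℕ) (g om : ℝ → ℝ) (X : L.CL) (k : ℕ) (x : ℝ) :
    toH (md σ (om x) (evW g x) X k) = tru σ g om X k x := by
  rw [md, map_smul, toH_Pc, evW_apply, map_smul, smul_smul, tru]
  congr 1
  rw [← wt_eq_wn]; push_cast; ring

theorem P_tru (σ : ℕ) (g om : ℝ → ℝ) (X : L.CL) (k : ℕ) (x : ℝ) :
    P k (tru σ g om X k x) = tru σ g om X k x := by rw [tru, map_smul, P_P]

theorem md_evW (σ : ℕ) (g om : ℝ → ℝ) (X : L.CL) (k : ℕ) (x : ℝ) :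
    md σ (om x) (evW g x) X k = Pc k (tru σ g om X k x) := by
  rw [← toH_md_evW, Pc_of_mem (md_mem _ _ _ _ _)]

theorem val_tru {σ : ℕ} (hσ : 3 ≤ σ) (g : ℝ → ℝ) {om : ℝ → ℝ} {x : ℝ} (ho : ‖(om x : ℂ)‖ ≤ 1)
    (X : L.CL) : val (tru σ g om X) x = syn σ (om x) (evW g x) X := by
  rw [← (hasSum_syn hσ ho _ X).tsum_eq, val]
  exact tsum_congr fun k => (md_evW σ g om X k x).symm

theorem toH_md_id (o : ℝ) (A : L.D) (k : ℕ) :
    toH (md 6 o (ContinuousLinearMap.id ℂ H) A k) = trD o A k := by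
  rw [md, map_smul, toH_Pc, trD]
  congr 1
  rw [← wt_eq_wn]; push_cast; ring

namespace Wts
variable {w om : ℝ → ℝ} {o : ℝ} (h : Wts w om o)

theorem val_tru1 {σ : ℕ} (hσ : 3 ≤ σ) (X : L.CL) (x : ℝ) :
    val (tru σ w om X) x = h.bcf.syn1 σ x X := val_tru hσ w (h.bcf.om_le x) X

theorem val_tru2 {σ : ℕ} (hσ : 3 ≤ σ) (X : L.CL) (x : ℝ) :
    val (tru σ (fun x => w x ^ 2) om X) x = h.bcf.syn2 σ x X := val_tru hσ _ (h.bcf.om_le x) X

theorem val_dt0 (p q f : L.CL) (x : ℝ) :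
    val (dt (tru 6 w om p) (tru 6 w om q) (tru 4 (fun x => w x ^ 2) om f) 0) x =
      h.bcf.syn1 6 x (Layer.u0 (p, q, f)) := by
  rw [Layer.syn1, ← (hasSum_syn (by norm_num) (h.bcf.om_le x) _ _).tsum_eq, val]
  refine tsum_congr fun k => ?_
  rw [Layer.md_u0]
  simp only [dt, map_add, bcf_om, bcf_ev1, md_evW]

theorem val_dt1 (p q f : L.CL) (x : ℝ) :
    val (dt (tru 6 w om p) (tru 6 w om q) (tru 4 (fun x => w x ^ 2) om f) 1) x =
      h.bcf.syn1 5 x (Layer.u1 (p, q, f)) := by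
  rw [Layer.syn1, ← (hasSum_syn (by norm_num) (h.bcf.om_le x) _ _).tsum_eq, val]
  refine tsum_congr fun k => ?_
  rw [Layer.md_u1]
  simp only [dt, map_sub, map_smul, bcf_om, bcf_ev1, md_evW]

theorem val_dt2 (p q f : L.CL) (x : ℝ) :
    val (dt (tru 6 w om p) (tru 6 w om q) (tru 4 (fun x => w x ^ 2) om f) 2) x =
      h.bcf.syn1 4 x (h.bcf.u2 (p, q, f)) := by
  rw [Layer.syn1, ← (hasSum_syn (by norm_num) (h.bcf.om_le x) _ _).tsum_eq, val]
  refine tsum_congr fun k => ?_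
  rw [Layer.md_u2]
  simp only [dt, map_add, map_smul, bcf_om, bcf_ev1, bcf_ev2, md_evW]

/-- the jets of `L/Defs` are the true values of the stored jets -/
theorem jets_tru {ι : Type} [Fintype ι] (p q f : ι → L.CL) (x : ℝ) (y : S3) (j : ι × Jx) :
    jets (fun i => tru 6 w om (p i)) (fun i => tru 6 w om (q i))
      (fun i => tru 4 (fun x => w x ^ 2) om (f i)) x y j =
      h.bcf.syn1 4 x (h.bcf.jetc j.2 (p j.1, q j.1, f j.1)) y := by
  rw [Layer.syn_jetc, jets, h.val_dt0, h.val_dt1, h.val_dt2]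

theorem mem_prop2 {f : L.CL} : f ∈ h.bcf.prop2 ↔ ∀ k x, P k (f k x) = f k x := by
  rw [Layer.mem_prop2]
  refine forall_congr' fun k => forall_congr' fun x => ?_
  rw [bcf_ev2, evW_apply, map_smul]
  exact (smul_right_injective H (by exact_mod_cast (pow_pos (h.w0 x) 2).ne')).eq_iff

end Wts

end Crest.Agent.N207.J
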