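import Mathlib

/-!
Row 207, block J (helper82): Banach spaces from gauges.  A gauge on a complex vector space `V`
is a predicate `R M v` ("`v` has size at most `M`"); `Γ.Sp` is the Banach space of vectors of
finite size, `lin` / `bil` build bounded maps from maps on `V`.
-/

set_option autoImplicit false

open Filter Topology

noncomputable section

namespace Crest.Agent.N207.J

/-- a complete gauge -/
structure Gauge (V : Type*) [AddCommGroup V] [Module ℂ V] where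
  R : ℝ → V → Prop
  nonneg : ∀ {M : ℝ} {v : V}, R M v → 0 ≤ M
  mono : ∀ {M M' : ℝ} {v : V}, R M v → M ≤ M' → R M' v
  zero : R 0 0
  add : ∀ {M M' : ℝ} {v w : V}, R M v → R M' w → R (M + M') (v + w)
  smul : ∀ (c : ℂ) {M : ℝ} {v : V}, R M v → R (‖c‖ * M) (c • v)
  sep : ∀ {v : V}, (∀ ε : ℝ, 0 < ε → R ε v) → v = 0
  compl : ∀ (v : ℕ → V) (M : ℕ → ℝ), Summable M → (∀ n, R (M n) (v n)) →
    ∃ s : V, ∀ N : ℕ, R (∑' n, M (n + N)) (s - ∑ n ∈ Finset.range N, v n)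

namespace Gauge

variable {V V' V'' : Type*} [AddCommGroup V] [Module ℂ V] [AddCommGroup V'] [Module ℂ V']
  [AddCommGroup V''] [Module ℂ V'']

/-- vectors of finite size -/
def sub (Γ : Gauge V) : Submodule ℂ V where
  carrier := {v | ∃ M, Γ.R M v}
  add_mem' := fun ⟨_, h⟩ ⟨_, h'⟩ => ⟨_, Γ.add h h'⟩
  zero_mem' := ⟨0, Γ.zero⟩
  smul_mem' := fun c _ ⟨_, h⟩ => ⟨_, Γ.smul c h⟩

/-- the Banach space of a gauge -/
def Sp (Γ : Gauge V) : Type _ := Γ.sub

variable {Γ : Gauge V} {Γ' : Gauge V'} {Γ'' : Gauge V''}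

instance : AddCommGroup Γ.Sp := inferInstanceAs (AddCommGroup Γ.sub)
instance : Module ℂ Γ.Sp := inferInstanceAs (Module ℂ Γ.sub)

/-- the underlying vector -/
def Sp.val (x : Γ.Sp) : V := Subtype.val (p := fun v => v ∈ Γ.sub) x

/-- a vector of finite size as an element of the space -/
def mk' (Γ : Gauge V) (v : V) (h : ∃ M, Γ.R M v) : Γ.Sp := (⟨v, h⟩ : Γ.sub)

@[simp] lemma val_mk' (v : V) (h : ∃ M, Γ.R M v) : (Γ.mk' v h).val = v := rfl
@[simp] lemma val_add (x y : Γ.Sp) : (x + y).val = x.val + y.val := rfl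
@[simp] lemma val_sub (x y : Γ.Sp) : (x - y).val = x.val - y.val := rfl
@[simp] lemma val_neg (x : Γ.Sp) : (-x).val = -x.val := rfl
@[simp] lemma val_zero : (0 : Γ.Sp).val = 0 := rfl
@[simp] lemma val_smul (c : ℂ) (x : Γ.Sp) : (c • x).val = c • x.val := rfl

lemma ext {x y : Γ.Sp} (h : x.val = y.val) : x = y := Subtype.ext h

lemma val_injective : Function.Injective (Sp.val : Γ.Sp → V) := fun _ _ h => ext h

lemma val_sum {ι : Type*} (s : Finset ι) (x : ι → Γ.Sp) :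
    (∑ i ∈ s, x i).val = ∑ i ∈ s, (x i).val := by
  classical
  induction s using Finset.induction_on with
  | empty => simp
  | insert a s ha ih => rw [Finset.sum_insert ha, Finset.sum_insert ha, val_add, ih]

lemma exists_R (x : Γ.Sp) : ∃ M, Γ.R M x.val := Subtype.property (p := fun v => v ∈ Γ.sub) x

/-- the gauge norm -/
def nrm (x : Γ.Sp) : ℝ := sInf {M | Γ.R M x.val}

lemma bdd (x : Γ.Sp) : BddBelow {M | Γ.R M x.val} := ⟨0, fun _ h => Γ.nonneg h⟩

lemma nrm_le {x : Γ.Sp} {M : ℝ} (h : Γ.R M x.val) : nrm x ≤ M := csInf_le (bdd x) h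

lemma nrm_nonneg (x : Γ.Sp) : 0 ≤ nrm x := le_csInf (exists_R x) fun _ h => Γ.nonneg h

lemma R_of_nrm_lt {x : Γ.Sp} {M : ℝ} (h : nrm x < M) : Γ.R M x.val := by
  obtain ⟨M', h1, h2⟩ := exists_lt_of_csInf_lt (exists_R x) h
  exact Γ.mono h1 h2.le

lemma nrm_smul_le (c : ℂ) (x : Γ.Sp) : nrm (c • x) ≤ ‖c‖ * nrm x := by
  refine le_of_forall_pos_le_add fun ε hε => ?_
  have hδ : 0 < ε / (‖c‖ + 1) := by positivity
  have h := Γ.smul c (R_of_nrm_lt (x := x) (M := nrm x + ε / (‖c‖ + 1)) (by linarith))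
  refine (nrm_le (x := c • x) h).trans ?_
  have h1 : ‖c‖ * (ε / (‖c‖ + 1)) ≤ ε := by
    rw [mul_div_assoc', div_le_iff₀ (by positivity)]; nlinarith [norm_nonneg c]
  nlinarith

lemma nrm_add_le (x y : Γ.Sp) : nrm (x + y) ≤ nrm x + nrm y := by
  refine le_of_forall_pos_le_add fun ε hε => ?_
  have h := Γ.add (R_of_nrm_lt (x := x) (M := nrm x + ε / 2) (by linarith))
    (R_of_nrm_lt (x := y) (M := nrm y + ε / 2) (by linarith))
  refine (nrm_le (x := x + y) h).trans (by linarith)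

instance : NormedAddCommGroup Γ.Sp :=
  AddGroupNorm.toNormedAddCommGroup
    { toFun := nrm
      map_zero' := le_antisymm (nrm_le Γ.zero) (nrm_nonneg _)
      add_le' := nrm_add_le
      neg' := fun x => by
        have h : ∀ y : Γ.Sp, nrm (-y) ≤ nrm y := fun y => by
          have := nrm_smul_le (-1) y
          simpa using this
        exact le_antisymm (h x) (by simpa using h (-x))
      eq_zero_of_map_eq_zero' := fun x hx => ext (Γ.sep fun ε hε => R_of_nrm_lt (by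
        rw [show nrm x = 0 from hx]; exact hε)) }

lemma norm_def (x : Γ.Sp) : ‖x‖ = nrm x := rfl

instance : NormedSpace ℂ Γ.Sp where
  norm_smul_le := nrm_smul_le

lemma norm_le {x : Γ.Sp} {M : ℝ} (h : Γ.R M x.val) : ‖x‖ ≤ M := nrm_le h

lemma R_of_lt {x : Γ.Sp} {M : ℝ} (h : ‖x‖ < M) : Γ.R M x.val := R_of_nrm_lt h

instance : CompleteSpace Γ.Sp := by
  refine NormedAddCommGroup.completeSpace_of_summable_imp_tendsto fun u hu => ?_
  have hM : Summable fun n : ℕ => ‖u n‖ + (1 / 2 : ℝ) ^ n :=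
    hu.add summable_geometric_two
  obtain ⟨s, hs⟩ := Γ.compl (fun n => (u n).val) _ hM
    (fun n => R_of_lt (by have : (0 : ℝ) < (1 / 2) ^ n := by positivity
                          linarith))
  have hs0 : ∃ M, Γ.R M s := ⟨_, by simpa using hs 0⟩
  refine ⟨Γ.mk' s hs0, ?_⟩
  rw [tendsto_iff_norm_sub_tendsto_zero]
  refine squeeze_zero (fun _ => norm_nonneg _) (fun N => ?_)
    (tendsto_sum_nat_add fun n => ‖u n‖ + (1 / 2 : ℝ) ^ n)
  · rw [norm_sub_rev]
    refine norm_le (M := ∑' n, (‖u (n + N)‖ + (1 / 2 : ℝ) ^ (n + N))) ?_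
    rw [val_sub, val_sum]
    exact hs N

/-- a bound valid for all admissible sizes passes to the norm -/
lemma le_mul_norm {x : Γ.Sp} {a C : ℝ} (hC : 0 ≤ C) (h : ∀ M, Γ.R M x.val → a ≤ C * M) :
    a ≤ C * ‖x‖ := by
  refine le_of_forall_pos_le_add fun ε hε => ?_
  have hδ : 0 < ε / (C + 1) := by positivity
  refine (h (‖x‖ + ε / (C + 1)) (R_of_lt (by linarith))).trans ?_
  have h1 : C * (ε / (C + 1)) ≤ ε := by
    rw [mul_div_assoc', div_le_iff₀ (by positivity)]; nlinarith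
  nlinarith

section out
variable {W : Type*} [NormedAddCommGroup W] [NormedSpace ℂ W]

/-- bounded maps from a gauge space to a normed space -/
def out (Γ : Gauge V) (T : V → W) (C : ℝ) (hC : 0 ≤ C)
    (hR : ∀ M v, Γ.R M v → ‖T v‖ ≤ C * M)
    (ha : ∀ x y : Γ.Sp, T (x.val + y.val) = T x.val + T y.val)
    (hs : ∀ (c : ℂ) (x : Γ.Sp), T (c • x.val) = c • T x.val) : Γ.Sp →L[ℂ] W :=
  LinearMap.mkContinuous
    { toFun := fun x => T x.val
      map_add' := ha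
      map_smul' := hs } C fun _ => le_mul_norm hC fun M h => hR M _ h

@[simp] lemma out_apply (T : V → W) (C : ℝ) (hC : 0 ≤ C) (hR) (ha) (hs) (x : Γ.Sp) :
    Γ.out T C hC hR ha hs x = T x.val := rfl

lemma norm_out_le (T : V → W) (C : ℝ) (hC : 0 ≤ C) (hR) (ha) (hs) :
    ‖Γ.out T C hC hR ha hs‖ ≤ C := LinearMap.mkContinuous_norm_le _ hC _

/-- bounded maps from a normed space to a gauge space -/
def inn (Γ : Gauge V) (T : W →ₗ[ℂ] V) (C : ℝ) (hR : ∀ w, Γ.R (C * ‖w‖) (T w)) : W →L[ℂ] Γ.Sp :=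
  LinearMap.mkContinuous
    { toFun := fun w => Γ.mk' (T w) ⟨_, hR w⟩
      map_add' := fun _ _ => ext (by simp)
      map_smul' := fun _ _ => ext (by simp) } C fun w => norm_le (hR w)

@[simp] lemma val_inn (T : W →ₗ[ℂ] V) (C : ℝ) (hR) (w : W) : (Γ.inn T C hR w).val = T w := rfl

lemma norm_inn_le (T : W →ₗ[ℂ] V) {C : ℝ} (hC : 0 ≤ C) (hR) : ‖Γ.inn T C hR‖ ≤ C :=
  LinearMap.mkContinuous_norm_le _ hC _

end out

/-- bounded linear maps between gauge spaces -/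
def lin (Γ : Gauge V) (Γ' : Gauge V') (T : V → V') (C : ℝ) (hC : 0 ≤ C)
    (hR : ∀ M v, Γ.R M v → Γ'.R (C * M) (T v))
    (ha : ∀ x y : Γ.Sp, T (x.val + y.val) = T x.val + T y.val)
    (hs : ∀ (c : ℂ) (x : Γ.Sp), T (c • x.val) = c • T x.val) : Γ.Sp →L[ℂ] Γ'.Sp :=
  LinearMap.mkContinuous
    { toFun := fun x => Γ'.mk' (T x.val) (by
        obtain ⟨M, h⟩ := exists_R x
        exact ⟨_, hR M _ h⟩)
      map_add' := fun x y => ext (ha x y)
      map_smul' := fun c x => ext (hs c x) } C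
    fun _ => le_mul_norm hC fun M h => norm_le (hR M _ h)

@[simp] lemma val_lin (T : V → V') (C : ℝ) (hC : 0 ≤ C) (hR) (ha) (hs) (x : Γ.Sp) :
    (Γ.lin Γ' T C hC hR ha hs x).val = T x.val := rfl

lemma norm_lin_le (T : V → V') (C : ℝ) (hC : 0 ≤ C) (hR) (ha) (hs) :
    ‖Γ.lin Γ' T C hC hR ha hs‖ ≤ C := LinearMap.mkContinuous_norm_le _ hC _

/-- bounded bilinear maps between gauge spaces -/
def bil (Γ : Gauge V) (Γ' : Gauge V') (Γ'' : Gauge V'') (T : V →ₗ[ℂ] V' →ₗ[ℂ] V'') (C : ℝ)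
    (hC : 0 ≤ C) (hR : ∀ M M' v w, Γ.R M v → Γ'.R M' w → Γ''.R (C * M * M') (T v w)) :
    Γ.Sp →L[ℂ] Γ'.Sp →L[ℂ] Γ''.Sp :=
  LinearMap.mkContinuous₂
    (LinearMap.mk₂ ℂ (fun x y => Γ''.mk' (T x.val y.val) (by
        obtain ⟨M, h⟩ := exists_R x
        obtain ⟨M', h'⟩ := exists_R y
        exact ⟨_, hR M M' _ _ h h'⟩))
      (fun _ _ _ => ext (by simp)) (fun _ _ _ => ext (by simp))
      (fun _ _ _ => ext (by simp)) (fun _ _ _ => ext (by simp))) C
    fun x y => by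
      refine le_mul_norm (mul_nonneg hC (norm_nonneg _)) fun M' h' => ?_
      rw [mul_right_comm]
      refine le_mul_norm (mul_nonneg hC (Γ'.nonneg h')) fun M h => ?_
      rw [mul_right_comm]
      exact norm_le (hR M M' _ _ h h')

@[simp] lemma val_bil (T : V →ₗ[ℂ] V' →ₗ[ℂ] V'') (C : ℝ) (hC : 0 ≤ C) (hR) (x : Γ.Sp)
    (y : Γ'.Sp) : (Γ.bil Γ' Γ'' T C hC hR x y).val = T x.val y.val := rfl

lemma norm_bil_le (T : V →ₗ[ℂ] V' →ₗ[ℂ] V'') (C : ℝ) (hC : 0 ≤ C) (hR) :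
    ‖Γ.bil Γ' Γ'' T C hC hR‖ ≤ C := LinearMap.mkContinuous₂_norm_le _ hC _

end Gauge

end Crest.Agent.N207.J
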