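import Crest.Agent.N250.H.Fix
import Crest.Agent.N250.H.Int

/-!
Row 207 (helper80), block J.  Volterra operators with separable kernels on `ℝ →ᵇ H`.
-/

set_option autoImplicit false
set_option linter.unusedSectionVars false

open Metric Set Filter Topology MeasureTheory BoundedContinuousFunction

noncomputable section

namespace Crest.Agent.N207.J

open Crest.Agent.N250.H

variable {H : Type*} [NormedAddCommGroup H] [NormedSpace ℂ H] [CompleteSpace H]

/-- the integration domain: `Iic x` (backwards, `true`) or `Ioi x` (forwards, `false`) -/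
def dom (b : Bool) (x : ℝ) : Set ℝ := if b then Iic x else Ioi x

@[simp] theorem dom_true (x : ℝ) : dom true x = Iic x := rfl
@[simp] theorem dom_false (x : ℝ) : dom false x = Ioi x := rfl

theorem meas_dom (b : Bool) (x : ℝ) : MeasurableSet (dom b x) := by
  cases b
  · exact measurableSet_Ioi
  · exact measurableSet_Iic

theorem ivl_of_dom {b : Bool} {g : ℝ → H} (h : ∀ x, IntegrableOn g (dom b x)) (x y : ℝ) :
    IntervalIntegrable g volume x y := by
  rw [intervalIntegrable_iff]
  cases b
  · exact (h (min x y)).mono_set fun s hs => hs.1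
  · exact (h (max x y)).mono_set fun s hs => hs.2

theorem int_dom_sub {b : Bool} {g : ℝ → H} (h : ∀ x, IntegrableOn g (dom b x)) (x y : ℝ) :
    (∫ s in dom b x, g s) - ∫ s in dom b y, g s =
      (if b then (1 : ℂ) else -1) • ∫ s in y..x, g s := by
  cases b
  · simp only [dom_false, Bool.false_eq_true, if_false, neg_smul, one_smul]
    rw [← intervalIntegral.integral_symm]
    exact intervalIntegral.integral_Ioi_sub_Ioi' (h x) (h y)
  · simpa using intervalIntegral.integral_Iic_sub_Iic (h y) (h x)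

theorem cont_dom {b : Bool} {g : ℝ → H} (h : ∀ x, IntegrableOn g (dom b x)) :
    Continuous fun x => ∫ s in dom b x, g s := by
  have : (fun x => ∫ s in dom b x, g s) = fun x => (∫ s in dom b 0, g s) +
      (if b then (1 : ℂ) else -1) • ∫ s in (0 : ℝ)..x, g s := by
    funext x
    rw [← int_dom_sub h]
    abel
  rw [this]
  exact continuous_const.add
    ((intervalIntegral.continuous_primitive (ivl_of_dom h) 0).const_smul _)

/-- a separable kernel `A x * B y` with integrable majorant `m x` of mass at most `C` -/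
structure VK (b : Bool) (A B : ℝ → ℂ) (m : ℝ → ℝ → ℝ) (C : ℝ) : Prop where
  cont : Continuous A
  ne : ∀ x, A x ≠ 0
  meas : AEStronglyMeasurable B volume
  int : ∀ x, Integrable (m x)
  nn : ∀ x y, 0 ≤ m x y
  mass : ∀ x, ∫ y, m x y ≤ C
  bd : ∀ x, ∀ y ∈ dom b x, ‖A x * B y‖ ≤ m x y

namespace VK

variable {b : Bool} {A B : ℝ → ℂ} {m : ℝ → ℝ → ℝ} {C : ℝ}

theorem C0 (h : VK b A B m C) : 0 ≤ C := (integral_nonneg (h.nn 0)).trans (h.mass 0)

theorem bd' (h : VK b A B m C) (f : ℝ →ᵇ H) (x : ℝ) :
    ∀ᵐ y ∂(volume.restrict (dom b x)), ‖(A x * B y) • f y‖ ≤ m x y * ‖f‖ :=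
  (ae_restrict_mem (meas_dom b x)).mono fun y hy => by
    rw [norm_smul]
    exact mul_le_mul (h.bd x y hy) (f.norm_coe_le_norm y) (norm_nonneg _) (h.nn x y)

theorem meas' (h : VK b A B m C) (f : ℝ →ᵇ H) (x : ℝ) :
    AEStronglyMeasurable (fun y => (A x * B y) • f y) (volume.restrict (dom b x)) :=
  ((h.meas.const_mul _).smul f.continuous.aestronglyMeasurable).restrict

theorem intK (h : VK b A B m C) (f : ℝ →ᵇ H) (x : ℝ) :
    IntegrableOn (fun y => (A x * B y) • f y) (dom b x) :=
  ((h.int x).mul_const ‖f‖).integrableOn.mono' (h.meas' f x) (h.bd' f x)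

theorem intB (h : VK b A B m C) (f : ℝ →ᵇ H) (x : ℝ) :
    IntegrableOn (fun y => B y • f y) (dom b x) := by
  have := (h.intK f x).smul (A x)⁻¹
  refine this.congr (Eventually.of_forall fun y => ?_)
  simp only [Pi.smul_apply, smul_smul]
  rw [inv_mul_cancel_left₀ (h.ne x)]

theorem val_eq (A B : ℝ → ℂ) (f : ℝ → H) (S : Set ℝ) (x : ℝ) :
    A x • ∫ y in S, B y • f y = ∫ y in S, (A x * B y) • f y := by
  rw [← integral_smul]
  simp only [smul_smul]

theorem norm_val (h : VK b A B m C) (f : ℝ →ᵇ H) (x : ℝ) :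
    ‖A x • ∫ y in dom b x, B y • f y‖ ≤ C * ‖f‖ := by
  rw [val_eq]
  refine (norm_integral_le_of_norm_le ((h.int x).mul_const ‖f‖).integrableOn (h.bd' f x)).trans ?_
  rw [integral_mul_const]
  refine mul_le_mul_of_nonneg_right ?_ (norm_nonneg _)
  exact (setIntegral_le_integral (h.int x) (Eventually.of_forall (h.nn x))).trans (h.mass x)

/-- the operator -/
def op (h : VK b A B m C) : (ℝ →ᵇ H) →L[ℂ] (ℝ →ᵇ H) :=
  LinearMap.mkContinuous
    { toFun := fun f => ofNormedAddCommGroup (fun x => A x • ∫ y in dom b x, B y • f y)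
        (h.cont.smul (cont_dom (h.intB f))) (C * ‖f‖) (h.norm_val f)
      map_add' := fun f g => by
        ext x
        simp only [coe_ofNormedAddCommGroup, coe_add, Pi.add_apply, smul_add]
        rw [integral_add (h.intB f x) (h.intB g x), smul_add]
      map_smul' := fun a f => by
        ext x
        simp only [coe_ofNormedAddCommGroup, coe_smul, RingHom.id_apply]
        rw [smul_comm a, ← integral_smul a]
        simp only [smul_comm a] }
    C fun f => (BoundedContinuousFunction.norm_le (mul_nonneg h.C0 (norm_nonneg _))).2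
      (h.norm_val f)

end VK

open Classical in
/-- the Volterra operator `f ↦ A x • ∫ B y • f y` (zero if the kernel is not admissible) -/
def vop (H : Type*) [NormedAddCommGroup H] [NormedSpace ℂ H] [CompleteSpace H] (b : Bool)
    (A B : ℝ → ℂ) : (ℝ →ᵇ H) →L[ℂ] (ℝ →ᵇ H) :=
  if h : ∃ p : (ℝ → ℝ → ℝ) × ℝ, VK b A B p.1 p.2 then h.choose_spec.op else 0

namespace VK

variable {b : Bool} {A B : ℝ → ℂ} {m : ℝ → ℝ → ℝ} {C : ℝ}

theorem apply (h : VK b A B m C) (f : ℝ →ᵇ H) (x : ℝ) :
    vop H b A B f x = A x • ∫ y in dom b x, B y • f y := by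
  have : ∃ p : (ℝ → ℝ → ℝ) × ℝ, VK b A B p.1 p.2 := ⟨(m, C), h⟩
  rw [vop, dif_pos this]
  rfl

theorem norm_le (h : VK b A B m C) : ‖vop H b A B‖ ≤ C :=
  ContinuousLinearMap.opNorm_le_bound _ h.C0 fun f =>
    (BoundedContinuousFunction.norm_le (mul_nonneg h.C0 (norm_nonneg _))).2 fun x => by
      rw [h.apply]; exact h.norm_val f x

end VK

/-- holomorphic dependence on a parameter -/
theorem diffOn_vop {E : Type*} [NormedAddCommGroup E] [NormedSpace ℂ E] {U : Set E} (hU : IsOpen U)
    {b : Bool} {A B : E → ℝ → ℂ} {m : ℝ → ℝ → ℝ} {C : ℝ} (h : ∀ z ∈ U, VK b (A z) (B z) m C)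
    (hd : ∀ x y, DifferentiableOn ℂ (fun z => A z x * B z y) U) :
    DifferentiableOn ℂ (fun z => vop H b (A z) (B z)) U := by
  refine diffOn_clm hU (fun z hz => (h z hz).norm_le) fun f => ?_
  refine diffOn_bcf hU (M := C * ‖f‖) (fun z hz => ((vop H b (A z) (B z)).le_opNorm f).trans
    (mul_le_mul_of_nonneg_right (h z hz).norm_le (norm_nonneg _))) fun x => ?_
  rcases U.eq_empty_or_nonempty with rfl | ⟨z0, hz0⟩
  · exact differentiableOn_empty
  refine DifferentiableOn.congr (f := fun z => ∫ y in dom b x, (A z x * B z y) • f y) ?_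
    fun z hz => by rw [(h z hz).apply, VK.val_eq]
  refine int_diffOn hU (((h z0 hz0).int x).mul_const ‖f‖).integrableOn
    (fun z hz => (h z hz).meas' f x) (Eventually.of_forall fun y => (hd x y).smul_const _) ?_
  refine (ae_restrict_mem (meas_dom b x)).mono fun y hy z hz => ?_
  rw [norm_smul]
  exact mul_le_mul ((h z hz).bd x y hy) (f.norm_coe_le_norm y) (norm_nonneg _) ((h z hz).nn x y)

/-! ### multipliers of a constant vector -/

open Classical in
/-- `a ↦ (x ↦ A x • a)` (zero if `A` is not bounded continuous) -/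
def mop (H : Type*) [NormedAddCommGroup H] [NormedSpace ℂ H] (A : ℝ → ℂ) : H →L[ℂ] (ℝ →ᵇ H) :=
  if h : Continuous A ∧ ∃ C, ∀ x, ‖A x‖ ≤ C then
    LinearMap.mkContinuous
      { toFun := fun a => ofNormedAddCommGroup (fun x => A x • a) (h.1.smul continuous_const)
          (h.2.choose * ‖a‖) fun x => by
            rw [norm_smul]; exact mul_le_mul_of_nonneg_right (h.2.choose_spec x) (norm_nonneg _)
        map_add' := fun f g => by ext x; simp
        map_smul' := fun a f => by ext x; simp [smul_comm a] }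
      h.2.choose fun a => (BoundedContinuousFunction.norm_le
        (mul_nonneg ((norm_nonneg _).trans (h.2.choose_spec 0)) (norm_nonneg _))).2 fun x =>
          (norm_smul (A x) a).trans_le
            (mul_le_mul_of_nonneg_right (h.2.choose_spec x) (norm_nonneg _))
  else 0

theorem mop_apply {A : ℝ → ℂ} {C : ℝ} (hA : Continuous A) (hC : ∀ x, ‖A x‖ ≤ C) (a : H) (x : ℝ) :
    mop H A a x = A x • a := by
  rw [mop, dif_pos ⟨hA, C, hC⟩]
  rfl

theorem norm_mop_le {A : ℝ → ℂ} {C : ℝ} (hA : Continuous A) (hC : ∀ x, ‖A x‖ ≤ C) :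
    ‖mop H A‖ ≤ C := by
  have C0 : 0 ≤ C := (norm_nonneg _).trans (hC 0)
  refine ContinuousLinearMap.opNorm_le_bound _ C0 fun a =>
    (norm_le (mul_nonneg C0 (norm_nonneg _))).2 fun x => ?_
  rw [mop_apply hA hC, norm_smul]
  exact mul_le_mul_of_nonneg_right (hC x) (norm_nonneg _)

theorem diffOn_mop {E : Type*} [NormedAddCommGroup E] [NormedSpace ℂ E] {U : Set E} (hU : IsOpen U)
    {A : E → ℝ → ℂ} {C : ℝ} (hA : ∀ z ∈ U, Continuous (A z)) (hC : ∀ z ∈ U, ∀ x, ‖A z x‖ ≤ C)
    (hd : ∀ x, DifferentiableOn ℂ (fun z => A z x) U) :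
    DifferentiableOn ℂ (fun z => mop H (A z)) U := by
  refine diffOn_clm hU (fun z hz => norm_mop_le (hA z hz) (hC z hz)) fun a => ?_
  refine diffOn_bcf hU (M := C * ‖a‖) (fun z hz => ((mop H (A z)).le_opNorm a).trans
    (mul_le_mul_of_nonneg_right (norm_mop_le (hA z hz) (hC z hz)) (norm_nonneg _))) fun x => ?_
  exact ((hd x).smul_const a).congr fun z hz => mop_apply (hA z hz) (hC z hz) a x

/-! ### the exponential majorants -/

/-- the majorant `K e^{-μ |c - y|}` on one side of `c` -/
def emaj (b : Bool) (K μ c y : ℝ) : ℝ :=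
  if b then (Iic c).indicator (fun y => K * Real.exp (μ * (y - c))) y
  else (Ici c).indicator (fun y => K * Real.exp (μ * (c - y))) y

theorem emaj_nonneg {b : Bool} {K : ℝ} (hK : 0 ≤ K) (μ c y : ℝ) : 0 ≤ emaj b K μ c y := by
  unfold emaj
  split_ifs <;> exact indicator_nonneg (fun _ _ => by positivity) _

theorem emaj_int (b : Bool) (K : ℝ) {μ : ℝ} (hμ : 0 < μ) (c : ℝ) :
    Integrable (emaj b K μ c) ∧ ∫ y, emaj b K μ c y = K / μ := by
  cases b
  · have e : emaj false K μ c =
        (Ici c).indicator fun y => (K * Real.exp (μ * c)) * Real.exp (-μ * y) := by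
      funext y
      simp only [emaj, Bool.false_eq_true, if_false]
      congr 1
      funext y
      rw [mul_assoc, ← Real.exp_add]
      congr 2
      ring
    rw [e, integrable_indicator_iff measurableSet_Ici, integral_indicator measurableSet_Ici,
      integrableOn_Ici_iff_integrableOn_Ioi, integral_Ici_eq_integral_Ioi, integral_const_mul,
      integral_exp_mul_Ioi (by linarith)]
    refine ⟨(integrableOn_exp_mul_Ioi (by linarith) c).const_mul _, ?_⟩
    rw [neg_mul, Real.exp_neg]
    field_simp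
  · have e : emaj true K μ c =
        (Iic c).indicator fun y => (K * Real.exp (-(μ * c))) * Real.exp (μ * y) := by
      funext y
      simp only [emaj, if_true]
      congr 1
      funext y
      rw [mul_assoc, ← Real.exp_add]
      congr 2
      ring
    rw [e, integrable_indicator_iff measurableSet_Iic, integral_indicator measurableSet_Iic,
      integral_const_mul, integral_exp_mul_Iic hμ]
    refine ⟨(integrableOn_exp_mul_Iic hμ c).const_mul _, ?_⟩
    rw [Real.exp_neg]
    field_simp

end Crest.Agent.N207.J
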