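import Crest.Agent.N207.J.Grn1
import Crest.Agent.N207.J.As1

/-!
Row 207 (helper80), block J.  Paths and their Green operators in the stored variables
(true solution mode `= e^{k lo + lw} •` stored, true source mode `= e^{k lo + 2 lw} •` stored).
-/

set_option autoImplicit false
set_option linter.unusedSectionVars false

open Metric Set Filter Topology MeasureTheory BoundedContinuousFunction Complex

noncomputable section

namespace Crest.Agent.N207.J

/-- A path `γ` with velocity `τ` (zero off the piece, `c` = clamp onto the piece), logarithmic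
weights `lw`, `lo`, left end `x0`, right end `x1` (if `fin`), and the base point of the constant
mode: `Lo` = points below it (`Iic xs`, or `univ` on a half line); `base` = free constant. -/
structure Pth where
  γ : ℝ → ℂ
  τ : ℝ → ℂ
  lw : ℝ → ℝ
  lo : ℝ → ℝ
  c : ℝ → ℝ
  x0 : ℝ
  x1 : ℝ
  xs : ℝ
  Lo : Set ℝ
  fin : Bool
  base : Bool

namespace Pth

/-- admissible paths, with gap `g` and size `K` -/
structure Ok (P : Pth) (g K : ℝ) : Prop where
  g_pos : 0 < g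
  one_le : 1 ≤ K
  cγ : Continuous P.γ
  cw : Continuous P.lw
  co : Continuous P.lo
  mτ : AEStronglyMeasurable P.τ volume
  mLo : MeasurableSet P.Lo
  lw_le : ∀ x, P.lw x ≤ 0
  lo_le : ∀ x, P.lo x ≤ 0
  le_lo : ∀ x, -Real.log K ≤ P.lo x
  mono : Monotone P.c
  supp : ∀ y, P.τ y ≠ 0 → P.c y = y
  c0 : ∀ x, P.x0 ≤ P.c x
  c0' : P.c P.x0 = P.x0
  c1 : P.fin = true → P.c P.x1 = P.x1 ∧ ∀ x, P.c x ≤ P.x1
  τ_le : ∀ y, ‖P.τ y‖ * Real.exp (P.lw y) ≤ K
  bo : ∀ x y, P.c y ≤ P.c x → P.lo y - P.lo x + g * (P.c x - P.c y) ≤ (P.γ x - P.γ y).re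
  bw : ∀ x y, P.c y ≤ P.c x → P.lw y - P.lw x + g * (P.c x - P.c y) ≤ 2 * (P.γ x - P.γ y).re
  fo : ∀ x y, P.c y ≤ P.c x → P.lo x - P.lo y + g * (P.c x - P.c y) ≤ (P.γ x - P.γ y).re
  fw : ∀ x y, P.c y ≤ P.c x →
    P.lo x - P.lo y + (P.lw x - P.lw y) + g * (P.c x - P.c y) ≤ (P.γ x - P.γ y).re
  zb : ∀ x y, y ∉ P.Lo → y ≤ x → P.c y = y → P.lw y - P.lw x + g * (P.c x - y) ≤ Real.log K
  zf : ∀ x y, y ∈ P.Lo → x < y → P.c y = y → P.lw y - P.lw x + g * (y - P.c x) ≤ Real.log K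
  zs : P.base = true → ∀ x, P.lw P.xs - P.lw x ≤ Real.log K

variable (P : Pth) (V : Type*) [NormedAddCommGroup V] [NormedSpace ℂ V] [CompleteSpace V]

/-- outer factor -/
def Aw (m : ℂ) (k : ℕ) (x : ℝ) : ℂ := exp (m * P.γ x - ((k * P.lo x + P.lw x : ℝ) : ℂ))

/-- inner factor -/
def Bw (m : ℂ) (k : ℕ) (y : ℝ) : ℂ :=
  exp (-m * P.γ y + ((k * P.lo y + 2 * P.lw y : ℝ) : ℂ)) * P.τ y

/-- `∫_{x0}^x e^{-(k+2)(γ x - γ y)} f` -/
def gm (k : ℕ) : (ℝ →ᵇ V) →L[ℂ] (ℝ →ᵇ V) :=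
  vop V true (P.Aw (-(k + 2)) k) (P.Bw (-(k + 2)) k)

/-- `∫_x^{x1} e^{-k(γ y - γ x)} f`; for `k = 0` from `x` to the base point -/
def gp (k : ℕ) : (ℝ →ᵇ V) →L[ℂ] (ℝ →ᵇ V) :=
  if k = 0 then vop V false (P.Aw 0 0) (P.Lo.indicator (P.Bw 0 0)) -
    vop V true (P.Aw 0 0) (P.Loᶜ.indicator (P.Bw 0 0))
  else vop V false (P.Aw k k) (P.Bw k k)

/-- decaying homogeneous solution with stored value `a` at `x0` -/
def em (k : ℕ) : V →L[ℂ] (ℝ →ᵇ V) :=
  mop V fun x => P.Aw (-(k + 2)) k x / P.Aw (-(k + 2)) k P.x0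

/-- the point where the growing amplitude is prescribed -/
def xp (k : ℕ) : ℝ := if k = 0 then P.xs else P.x1

/-- is the growing amplitude prescribed? -/
def on (k : ℕ) : Bool := if k = 0 then P.base else P.fin

/-- growing homogeneous solution with stored value `b` at `x1` (`k = 0`: at `xs`) -/
def ep (k : ℕ) : V →L[ℂ] (ℝ →ᵇ V) :=
  if P.on k = true then mop V fun x => P.Aw k k x / P.Aw k k (P.xp k) else 0

variable {P V} {g K : ℝ}

theorem Aw_ne (m : ℂ) (k : ℕ) (x : ℝ) : P.Aw m k x ≠ 0 := exp_ne_zero _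

theorem norm_AB (m : ℝ) (k : ℕ) (x y : ℝ) : ‖P.Aw m k x * P.Bw m k y‖ =
    Real.exp (m * (P.γ x - P.γ y).re + k * (P.lo y - P.lo x) + (P.lw y - P.lw x)) *
      (‖P.τ y‖ * Real.exp (P.lw y)) := by
  rw [Aw, Bw, norm_mul, norm_mul, norm_exp, norm_exp, ← mul_assoc, ← Real.exp_add, mul_comm ‖_‖,
    ← mul_assoc, ← Real.exp_add]
  congr 2
  simp only [sub_re, mul_re, ofReal_re, ofReal_im, add_re, neg_re, neg_im]
  ring

theorem norm_AA (m : ℝ) (k : ℕ) (x y : ℝ) : ‖P.Aw m k x / P.Aw m k y‖ =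
    Real.exp (m * (P.γ x - P.γ y).re + k * (P.lo y - P.lo x) + (P.lw y - P.lw x)) := by
  rw [Aw, Aw, ← Complex.exp_sub, norm_exp]
  congr 1
  simp only [sub_re, mul_re, ofReal_re, ofReal_im]
  ring

namespace Ok

theorem K0 (h : P.Ok g K) : 0 < K := one_pos.trans_le h.one_le

theorem cA (h : P.Ok g K) (m : ℂ) (k : ℕ) : Continuous (P.Aw m k) := by
  have := h.cγ; have := h.cw; have := h.co
  unfold Aw
  fun_prop

theorem mB (h : P.Ok g K) (m : ℂ) (k : ℕ) : AEStronglyMeasurable (P.Bw m k) volume := by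
  have := h.cγ; have := h.cw; have := h.co
  refine AEStronglyMeasurable.mul (Continuous.aestronglyMeasurable ?_) h.mτ
  fun_prop

theorem exm (h : P.Ok g K) (k : ℕ) {x y : ℝ} (hc : P.c y ≤ P.c x) :
    ((-(k + 2) : ℝ)) * (P.γ x - P.γ y).re + k * (P.lo y - P.lo x) + (P.lw y - P.lw x) ≤
      g * (k + 1) * (P.c y - P.c x) := by
  have h1 := mul_le_mul_of_nonneg_left (h.bo x y hc) (Nat.cast_nonneg (α := ℝ) k)
  have h2 := h.bw x y hc
  nlinarith

theorem exp' (h : P.Ok g K) {k : ℕ} (hk : k ≠ 0) {x y : ℝ} (hc : P.c x ≤ P.c y) :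
    (k : ℝ) * (P.γ x - P.γ y).re + k * (P.lo y - P.lo x) + (P.lw y - P.lw x) ≤
      g * k * (P.c x - P.c y) := by
  have hk1 : (0 : ℝ) ≤ k - 1 := by
    have : (1 : ℝ) ≤ k := by exact_mod_cast Nat.one_le_iff_ne_zero.2 hk
    linarith
  have h1 := mul_le_mul_of_nonneg_left (h.fo y x hc) hk1
  have h2 := h.fw y x hc
  simp only [sub_re] at h1 h2 ⊢
  nlinarith

theorem vk_of {b : Bool} {A B : ℝ → ℂ} {K' μ : ℝ} (hK : 0 ≤ K') (hμ : 0 < μ) (hA : Continuous A)
    (hne : ∀ x, A x ≠ 0) (hB : AEStronglyMeasurable B volume)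
    (hb : ∀ x, ∀ y ∈ dom b x, ‖A x * B y‖ ≤ emaj b K' μ (P.c x) y) :
    VK b A B (fun x => emaj b K' μ (P.c x)) (K' / μ) :=
  ⟨hA, hne, hB, fun _ => (emaj_int b K' hμ _).1, fun _ _ => emaj_nonneg hK _ _ _,
    fun _ => (emaj_int b K' hμ _).2.le, hb⟩

theorem vk_m (h : P.Ok g K) (k : ℕ) : VK true (P.Aw (-(k + 2)) k) (P.Bw (-(k + 2)) k)
    (fun x => emaj true K (g * (k + 1)) (P.c x)) (K / (g * (k + 1))) := by
  have := h.g_pos
  refine vk_of h.K0.le (by positivity) (h.cA _ _) (Aw_ne _ _) (h.mB _ _) fun x y hy => ?_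
  by_cases h0 : P.τ y = 0
  · simpa [Bw, h0] using emaj_nonneg h.K0.le _ _ _
  have hc := h.mono (show y ≤ x from hy)
  have e := norm_AB (P := P) (-(k + 2)) k x y
  push_cast at e
  have hy' : y ∈ Iic (P.c x) := by rw [← h.supp y h0]; exact hc
  rw [e, emaj, if_pos rfl, indicator_of_mem hy', mul_comm K]
  refine mul_le_mul (Real.exp_le_exp.2 ?_) (h.τ_le y) (by positivity) (by positivity)
  have := h.exm k hc
  rwa [h.supp y h0] at this

theorem vk_p (h : P.Ok g K) {k : ℕ} (hk : k ≠ 0) : VK false (P.Aw k k) (P.Bw k k)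
    (fun x => emaj false K (g * k) (P.c x)) (K / (g * k)) := by
  have := h.g_pos
  have : (0 : ℝ) < k := by exact_mod_cast Nat.pos_of_ne_zero hk
  refine vk_of h.K0.le (by positivity) (h.cA _ _) (Aw_ne _ _) (h.mB _ _) fun x y hy => ?_
  by_cases h0 : P.τ y = 0
  · simpa [Bw, h0] using emaj_nonneg h.K0.le _ _ _
  have hc := h.mono (show x ≤ y from le_of_lt hy)
  have e := norm_AB (P := P) k k x y
  push_cast at e
  have hy' : y ∈ Ici (P.c x) := by rw [← h.supp y h0]; exact hc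
  rw [e, emaj, if_neg (by simp), indicator_of_mem hy', mul_comm K]
  refine mul_le_mul (Real.exp_le_exp.2 ?_) (h.τ_le y) (by positivity) (by positivity)
  have := h.exp' hk hc
  rwa [h.supp y h0] at this

theorem norm_AB0 (h : P.Ok g K) {x y t : ℝ} (ht : P.lw y - P.lw x - t ≤ Real.log K) :
    ‖P.Aw 0 0 x * P.Bw 0 0 y‖ ≤ K ^ 2 * Real.exp t := by
  have e := norm_AB (P := P) 0 0 x y
  push_cast at e
  rw [e]
  have h1 : Real.exp (0 * (P.γ x - P.γ y).re + 0 * (P.lo y - P.lo x) + (P.lw y - P.lw x)) ≤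
      K * Real.exp t := by
    rw [← Real.exp_log h.K0, ← Real.exp_add, Real.exp_le_exp]
    linarith
  have := h.K0
  calc _ ≤ K * Real.exp t * K := mul_le_mul h1 (h.τ_le y) (by positivity) (by positivity)
    _ = _ := by ring

theorem vk_b (h : P.Ok g K) : VK true (P.Aw 0 0) (P.Loᶜ.indicator (P.Bw 0 0))
    (fun x => emaj true (K ^ 2) g (P.c x)) (K ^ 2 / g) := by
  refine vk_of (by positivity) h.g_pos (h.cA _ _) (Aw_ne _ _)
    ((h.mB _ _).indicator h.mLo.compl) fun x y hy => ?_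
  by_cases h1 : y ∈ P.Loᶜ
  swap
  · simpa [indicator_of_notMem h1] using emaj_nonneg (by positivity) _ _ _
  rw [indicator_of_mem h1]
  by_cases h0 : P.τ y = 0
  · simpa [Bw, h0] using emaj_nonneg (by positivity) _ _ _
  have hy' : y ∈ Iic (P.c x) := by rw [← h.supp y h0]; exact h.mono (show y ≤ x from hy)
  rw [emaj, if_pos rfl, indicator_of_mem hy']
  refine h.norm_AB0 ?_
  have := h.zb x y h1 hy (h.supp y h0)
  linarith

theorem vk_f (h : P.Ok g K) : VK false (P.Aw 0 0) (P.Lo.indicator (P.Bw 0 0))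
    (fun x => emaj false (K ^ 2) g (P.c x)) (K ^ 2 / g) := by
  refine vk_of (by positivity) h.g_pos (h.cA _ _) (Aw_ne _ _)
    ((h.mB _ _).indicator h.mLo) fun x y hy => ?_
  by_cases h1 : y ∈ P.Lo
  swap
  · simpa [indicator_of_notMem h1] using emaj_nonneg (by positivity) _ _ _
  rw [indicator_of_mem h1]
  by_cases h0 : P.τ y = 0
  · simpa [Bw, h0] using emaj_nonneg (by positivity) _ _ _
  have hy' : y ∈ Ici (P.c x) := by
    rw [← h.supp y h0]; exact h.mono (show x ≤ y from le_of_lt hy)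
  rw [emaj, if_neg (by simp), indicator_of_mem hy']
  refine h.norm_AB0 ?_
  have := h.zf x y h1 hy (h.supp y h0)
  linarith

theorem em_bd (h : P.Ok g K) (k : ℕ) (x : ℝ) :
    ‖P.Aw (-(k + 2)) k x / P.Aw (-(k + 2)) k P.x0‖ ≤ 1 := by
  have e := norm_AA (P := P) (-(k + 2)) k x P.x0
  push_cast at e
  have hc : P.c P.x0 ≤ P.c x := by rw [h.c0']; exact h.c0 x
  rw [e, Real.exp_le_one_iff]
  refine (h.exm k hc).trans ?_
  have := h.g_pos
  exact mul_nonpos_of_nonneg_of_nonpos (by positivity) (by linarith)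

theorem ep_bd (h : P.Ok g K) {k : ℕ} (hk : P.on k = true) (x : ℝ) :
    ‖P.Aw k k x / P.Aw k k (P.xp k)‖ ≤ K := by
  have e := norm_AA (P := P) k k x (P.xp k)
  push_cast at e
  rw [e]
  by_cases h0 : k = 0
  · subst h0
    rw [← Real.exp_log h.K0, Real.exp_le_exp]
    simpa [xp] using h.zs (by simpa [on] using hk) x
  · obtain ⟨h1, h2⟩ := h.c1 (by simpa [on, h0] using hk)
    have hc : P.c x ≤ P.c P.x1 := by rw [h1]; exact h2 x
    refine le_trans ?_ h.one_le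
    rw [Real.exp_le_one_iff, xp, if_neg h0]
    refine (h.exp' h0 hc).trans ?_
    have := h.g_pos
    exact mul_nonpos_of_nonneg_of_nonpos (by positivity) (by linarith)

theorem norm_gm (h : P.Ok g K) (k : ℕ) : ‖P.gm V k‖ ≤ 2 * K ^ 2 / g / (k + 1) := by
  refine (h.vk_m k).norm_le.trans ?_
  have := h.g_pos; have := h.one_le
  rw [div_div]
  gcongr
  nlinarith

theorem norm_gp (h : P.Ok g K) (k : ℕ) : ‖P.gp V k‖ ≤ 2 * K ^ 2 / g / (k + 1) := by
  have := h.g_pos; have := h.one_le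
  unfold gp
  split_ifs with h0
  · subst h0
    refine (norm_sub_le _ _).trans ((add_le_add h.vk_f.norm_le h.vk_b.norm_le).trans ?_)
    refine le_of_eq ?_
    simp only [Nat.cast_zero]
    ring
  · refine (h.vk_p h0).norm_le.trans ?_
    have hk : (1 : ℝ) ≤ k := by exact_mod_cast Nat.one_le_iff_ne_zero.2 h0
    rw [div_div, div_le_div_iff₀ (by positivity) (by positivity)]
    have : K * (k + 1) ≤ 2 * K ^ 2 * k := by nlinarith [mul_nonneg (sub_nonneg.2 hk) h.K0.le]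
    nlinarith

theorem em_apply (h : P.Ok g K) (k : ℕ) (a : V) (x : ℝ) :
    P.em V k a x = (P.Aw (-(k + 2)) k x / P.Aw (-(k + 2)) k P.x0) • a :=
  mop_apply ((h.cA _ _).div_const _) (h.em_bd k) a x

theorem ep_apply (h : P.Ok g K) {k : ℕ} (hk : P.on k = true) (a : V) (x : ℝ) :
    P.ep V k a x = (P.Aw k k x / P.Aw k k (P.xp k)) • a := by
  rw [ep, if_pos hk]
  exact mop_apply ((h.cA _ _).div_const _) (h.ep_bd hk) a x

theorem norm_em (h : P.Ok g K) (k : ℕ) : ‖P.em V k‖ ≤ 1 :=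
  norm_mop_le ((h.cA _ _).div_const _) (h.em_bd k)

theorem norm_ep (h : P.Ok g K) (k : ℕ) : ‖P.ep V k‖ ≤ K := by
  unfold ep
  split_ifs with hk
  · exact norm_mop_le ((h.cA _ _).div_const _) (h.ep_bd hk)
  · simpa using h.K0.le

/-- the Green part of the layer -/
def grn (h : P.Ok g K) {C : ℝ} (h1 : K ≤ C) (h2 : 2 * K ^ 2 / g ≤ C) :
    Grn (ℝ →ᵇ H) (ℝ →ᵇ H) C where
  gm := P.gm H
  gp := P.gp H
  em := P.em H
  ep := P.ep H
  gm_le := fun k => (h.norm_gm k).trans (by gcongr)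
  gp_le := fun k => (h.norm_gp k).trans (by gcongr)
  em_le := fun k => (h.norm_em k).trans (h.one_le.trans h1)
  ep_le := fun k => (h.norm_ep k).trans h1

end Ok

end Pth

end Crest.Agent.N207.J
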