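import Crest.Agent.N207.J.Dul
import Mathlib.Analysis.Complex.PhragmenLindelof
import Mathlib.Analysis.SpecialFunctions.Complex.LogDeriv
import Mathlib.Analysis.Real.Pi.Bounds
import Mathlib.Topology.MetricSpace.Contracting

/-!
# Row 207, block J (helper77): Phragmen-Lindelof transfer from the real axis

A bounded holomorphic function on the logarithmic domain `Om C` which is `O(e^{-k x})` on the real
axis is `O(e^{-k Re L / 2})` on `Om (Cpl C)`.
-/

set_option autoImplicit false

open Set Filter Complex Asymptotics Bornology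
open scoped Topology

noncomputable section

namespace Crest.Agent.N207.J

theorem isOpen_Om (C : ℝ) : IsOpen (Om C) := by
  refine isOpen_lt (continuous_const.mul (continuous_const.add ?_)) continuous_re
  exact (continuous_const.add continuous_norm).log fun z =>
    (add_pos_of_pos_of_nonneg one_pos (norm_nonneg z)).ne'

theorem log_one_add_nonneg (z : ℂ) : 0 ≤ Real.log (1 + ‖z‖) :=
  Real.log_nonneg (le_add_of_nonneg_right (norm_nonneg z))

theorem Om_mono {C C' : ℝ} (h : C ≤ C') : Om C' ⊆ Om C := fun z hz =>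
  lt_of_le_of_lt (mul_le_mul_of_nonneg_right h (by linarith [log_one_add_nonneg z])) hz

theorem lt_re_of_mem_Om {C : ℝ} (hC : 0 ≤ C) {z : ℂ} (hz : z ∈ Om C) : C < z.re :=
  lt_of_le_of_lt (by nlinarith [log_one_add_nonneg z]) hz

theorem eventually_mem_Om (C : ℝ) : ∀ᶠ x : ℝ in atTop, (x : ℂ) ∈ Om C := by
  have h1 := (Real.isLittleO_log_id_atTop.comp_tendsto
    (tendsto_atTop_add_const_left atTop (1 : ℝ) tendsto_id)).const_mul_left C
  filter_upwards [h1.bound (c := 1 / 4) (by norm_num), eventually_gt_atTop (4 * |C| + 1)]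
    with x hx hx'
  have h0 : 0 < x := lt_of_le_of_lt (by positivity) hx'
  simp only [Function.comp, id, Real.norm_eq_abs, abs_of_pos (by linarith : 0 < 1 + x)] at hx
  change C * (1 + Real.log (1 + ‖(x : ℂ)‖)) < (x : ℂ).re
  rw [norm_real, ofReal_re, Real.norm_eq_abs, abs_of_pos h0]
  nlinarith [le_abs_self (C * Real.log (1 + x)), le_abs_self C, abs_nonneg C]

/-- the shift in the logarithm -/
def Rl (C : ℝ) : ℝ := 3 + 11 * C

/-- the loss -/
def Dl (C : ℝ) : ℝ := C + 1 + 2 * C * (Rl C + 5)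

/-- the constant of the smaller domain -/
def Cpl (C : ℝ) : ℝ := 2 * Dl C

/-- the map of the right half plane into `Om C` -/
def phl (C : ℝ) (w : ℂ) : ℂ := w + 2 * C * log (w + Rl C) + (C + 1)

theorem norm_log_le' {u : ℂ} (hu : 1 ≤ ‖u‖) : ‖log u‖ ≤ Real.log ‖u‖ + 4 := by
  refine (norm_le_abs_re_add_abs_im _).trans ?_
  rw [log_re, log_im, abs_of_nonneg (Real.log_nonneg hu)]
  linarith [abs_arg_le_pi u, Real.pi_lt_four]

theorem le_norm_add_Rl {C : ℝ} {w : ℂ} (hw : 0 ≤ w.re) : Rl C ≤ ‖w + Rl C‖ :=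
  le_trans (by simp [hw]) (re_le_norm _)

theorem phl_mem {C : ℝ} (hC : 0 ≤ C) {w : ℂ} (hw : 0 ≤ w.re) : phl C w ∈ Om C := by
  have hρ := le_norm_add_Rl (C := C) hw
  set ρ := ‖w + Rl C‖ with hρd
  have hR : Rl C = 3 + 11 * C := rfl
  have h1 : ‖w‖ ≤ ρ := by
    refine abs_le_of_sq_le_sq' ?_ (norm_nonneg _) |>.2
    rw [← Complex.normSq_eq_norm_sq, ← Complex.normSq_eq_norm_sq, normSq_apply, normSq_apply]
    simp only [add_re, ofReal_re, add_im, ofReal_im, add_zero]
    nlinarith
  have h2 : ‖log (w + Rl C)‖ ≤ ρ + 4 := by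
    refine (norm_log_le' (by linarith)).trans ?_
    linarith [Real.log_le_sub_one_of_pos (by linarith : 0 < ρ)]
  have h3 : ‖phl C w‖ ≤ ρ + 2 * C * (ρ + 4) + (C + 1) := by
    refine (norm_add_le _ _).trans (add_le_add ((norm_add_le _ _).trans (add_le_add h1 ?_)) ?_)
    · rw [norm_mul, norm_mul, norm_real, Real.norm_of_nonneg hC, Complex.norm_ofNat]
      exact mul_le_mul_of_nonneg_left h2 (by positivity)
    · refine (norm_add_le _ _).trans ?_
      rw [norm_real, Real.norm_of_nonneg hC, norm_one]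
  have h4 : 1 + ‖phl C w‖ ≤ ρ ^ 2 := by nlinarith
  have h5 : Real.log (1 + ‖phl C w‖) ≤ 2 * Real.log ρ := by
    have := Real.log_le_log (by positivity) h4
    rwa [Real.log_pow, Nat.cast_ofNat] at this
  have e1 : (phl C w).re = w.re + 2 * C * Real.log ρ + (C + 1) := by
    simp [phl, log_re, hρd]
  change C * (1 + Real.log (1 + ‖phl C w‖)) < (phl C w).re
  rw [e1]; nlinarith

theorem hasDerivAt_logR {C : ℝ} (hC : 0 ≤ C) {w : ℂ} (hw : 0 ≤ w.re) :
    HasDerivAt (fun u => log (u + Rl C)) (w + Rl C)⁻¹ w := by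
  have : w + Rl C ∈ slitPlane := Or.inl (by simp only [add_re, ofReal_re, Rl]; linarith)
  simpa using ((hasDerivAt_id w).add_const (Rl C : ℂ)).clog this

theorem exists_phl {C : ℝ} (hC : 0 ≤ C) {z : ℂ} (hz : z ∈ Om (Cpl C)) :
    ∃ w : ℂ, phl C w = z ∧ z.re / 2 ≤ w.re := by
  have hR : Rl C = 3 + 11 * C := rfl
  have hl := log_one_add_nonneg z
  set r := Dl C * (1 + Real.log (1 + ‖z‖)) with hr
  have hD : Dl C = C + 1 + 2 * C * (Rl C + 5) := rfl
  have hD0 : 0 < Dl C := by rw [hD, hR]; positivity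
  have hr0 : 0 ≤ r := by positivity
  have hz' : 2 * r < z.re := by
    have : Cpl C * (1 + Real.log (1 + ‖z‖)) < z.re := hz
    rw [hr]; unfold Cpl at this; linarith
  set T : ℂ → ℂ := fun w => z - (C + 1) - 2 * C * log (w + Rl C) with hT
  have hre : ∀ w ∈ Metric.closedBall z r, z.re / 2 ≤ w.re := fun w hw => by
    have h1 : ‖w - z‖ ≤ r := by simpa [dist_eq_norm] using hw
    have h2 := (abs_re_le_norm (w - z)).trans h1
    rw [sub_re, abs_le] at h2
    linarith [h2.1]
  have hre0 : ∀ w ∈ Metric.closedBall z r, 0 ≤ w.re := fun w hw => by linarith [hre w hw]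
  have hm : MapsTo T (Metric.closedBall z r) (Metric.closedBall z r) := fun w hw => by
    have h1 : ‖w - z‖ ≤ r := by simpa [dist_eq_norm] using hw
    have h2 := le_norm_add_Rl (C := C) (hre0 w hw)
    have h3 : ‖w + Rl C‖ ≤ (2 + Rl C) * (1 + ‖z‖) := by
      have e : w + Rl C = (w - z) + z + Rl C := by ring
      have h4 : ‖w + Rl C‖ ≤ r + ‖z‖ + Rl C := by
        rw [e]
        refine (norm_add_le _ _).trans (add_le_add ((norm_add_le _ _).trans
          (add_le_add_left h1 _)) ?_)
        rw [norm_real, Real.norm_of_nonneg (by linarith)]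
      nlinarith [re_le_norm z, norm_nonneg z]
    have h4 : Real.log ‖w + Rl C‖ ≤ Rl C + 1 + Real.log (1 + ‖z‖) := by
      refine (Real.log_le_log (by linarith) h3).trans ?_
      rw [Real.log_mul (by linarith) (by positivity)]
      linarith [Real.log_le_sub_one_of_pos (by linarith : 0 < 2 + Rl C)]
    have h5 := (norm_log_le' (u := w + Rl C) (by linarith)).trans (add_le_add_left h4 4)
    rw [Metric.mem_closedBall, dist_eq_norm,
      show T w - z = -((C + 1) + 2 * C * log (w + Rl C)) by rw [hT]; ring, norm_neg]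
    refine (norm_add_le _ _).trans ?_
    rw [norm_mul, norm_mul, norm_real, Real.norm_of_nonneg hC, Complex.norm_ofNat]
    have h6 : ‖(C : ℂ) + 1‖ ≤ C + 1 := by
      refine (norm_add_le _ _).trans ?_
      rw [norm_real, Real.norm_of_nonneg hC, norm_one]
    have h7 := mul_le_mul_of_nonneg_left h5 (by positivity : 0 ≤ 2 * C)
    have h8 : 2 * C ≤ Dl C := by rw [hD, hR]; nlinarith
    have h9 := mul_le_mul_of_nonneg_right h8 hl
    rw [hr]; nlinarith
  have hlip : LipschitzOnWith (1 / 2) T (Metric.closedBall z r) := by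
    refine Convex.lipschitzOnWith_of_nnnorm_hasDerivWithin_le (𝕜 := ℂ) (convex_closedBall z r)
      (f' := fun w => -(2 * C * (w + Rl C)⁻¹)) (fun w hw => ?_) fun w hw => ?_
    · exact (((hasDerivAt_logR hC (hre0 w hw)).const_mul (2 * C : ℂ)).const_sub _).hasDerivWithinAt
    · have h2 := le_norm_add_Rl (C := C) (hre0 w hw)
      rw [← NNReal.coe_le_coe, coe_nnnorm, norm_neg, norm_mul, norm_mul, norm_real,
        Real.norm_of_nonneg hC, Complex.norm_ofNat, norm_inv, ← div_eq_mul_inv,
        div_le_iff₀ (by linarith)]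
      push_cast; linarith
  have hc : ContractingWith (1 / 2) (hm.restrict T _ _) :=
    ⟨by norm_num, hlip.mapsToRestrict hm⟩
  obtain ⟨w, hw, hfix, -⟩ := hc.exists_fixedPoint' Metric.isClosed_closedBall.isComplete hm
    (Metric.mem_closedBall_self hr0) (edist_ne_top _ _)
  refine ⟨w, ?_, hre w hw⟩
  have : z - (C + 1) - 2 * C * log (w + Rl C) = w := hfix
  unfold phl; linear_combination -this

theorem le_Cpl {C : ℝ} (hC : 0 ≤ C) : C ≤ Cpl C := by
  unfold Cpl Dl Rl; nlinarith

variable {E : Type*} [NormedAddCommGroup E] [NormedSpace ℂ E]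

/-- **PL transfer** -/
theorem plt {C A k : ℝ} (hC : 0 ≤ C) (hk : 0 ≤ k) {g : ℂ → E}
    (hd : DifferentiableOn ℂ g (Om C)) (hb : ∀ z ∈ Om C, ‖g z‖ ≤ A)
    (hr : (fun x : ℝ => g x) =O[atTop] fun x => Real.exp (-k * x)) {z : ℂ} (hz : z ∈ Om (Cpl C)) :
    ‖g z‖ ≤ A * Real.exp (-k * z.re / 2) := by
  obtain ⟨w, hw, hw1⟩ := exists_phl hC hz
  have hw0 : 0 ≤ w.re := by linarith [lt_re_of_mem_Om (hC.trans (le_Cpl hC)) hz, le_Cpl hC]
  obtain ⟨B, hB0, hB⟩ := hr.exists_nonneg
  set f : ℂ → E := fun u => exp (k * u) • g (phl C u) with hf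
  have hn : ∀ u, ‖f u‖ = Real.exp (k * u.re) * ‖g (phl C u)‖ := fun u => by
    simp [hf, norm_smul, norm_exp]
  have hdf : ∀ u : ℂ, 0 ≤ u.re → DifferentiableAt ℂ f u := fun u hu => by
    have h1 : DifferentiableAt ℂ (phl C) u :=
      (differentiableAt_id.add ((hasDerivAt_logR hC hu).differentiableAt.const_mul _)).add_const _
    have h2 := (hd.differentiableAt ((isOpen_Om C).mem_nhds (phl_mem hC hu))).comp u h1
    exact (differentiableAt_id.const_mul (k : ℂ)).cexp.smul h2
  have hdc : DiffContOnCl ℂ f {u | 0 < u.re} := by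
    refine DifferentiableOn.diffContOnCl fun u hu => (hdf u ?_).differentiableWithinAt
    rwa [closure_setOfPred_lt_re] at hu
  have key : ‖f w‖ ≤ A := by
    refine PhragmenLindelof.right_half_plane_of_bounded_on_real hdc ⟨1, by norm_num, k, ?_⟩ ?_ ?_
      hw0
    · refine IsBigO.of_bound A (eventually_inf_principal.2 (Eventually.of_forall fun u hu => ?_))
      have hu0 : 0 ≤ u.re := le_of_lt hu
      rw [hn, Real.rpow_one, Real.norm_eq_abs, abs_of_pos (Real.exp_pos _), mul_comm A]
      exact mul_le_mul (Real.exp_le_exp.2 (mul_le_mul_of_nonneg_left (re_le_norm u) hk))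
        (hb _ (phl_mem hC hu0)) (norm_nonneg _) (Real.exp_pos _).le
    · obtain ⟨x0, hx0⟩ := eventually_atTop.1 hB.bound
      refine ⟨B, eventually_map.2 ?_⟩
      filter_upwards [eventually_ge_atTop x0, eventually_ge_atTop 0] with x hx hx'
      have hR : 1 ≤ x + Rl C := by unfold Rl; linarith
      have e : phl C x = ((x + 2 * C * Real.log (x + Rl C) + (C + 1) : ℝ) : ℂ) := by
        rw [phl]; push_cast; rw [ofReal_log (by linarith)]; push_cast; ring
      have h1 : x ≤ x + 2 * C * Real.log (x + Rl C) + (C + 1) := by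
        have : 0 ≤ 2 * C * Real.log (x + Rl C) := mul_nonneg (by positivity) (Real.log_nonneg hR)
        linarith
      rw [hn, e, ofReal_re]
      have h2 := hx0 _ (hx.trans h1)
      rw [Real.norm_of_nonneg (Real.exp_pos _).le] at h2
      have h3 : Real.exp (k * x) *
          Real.exp (-k * (x + 2 * C * Real.log (x + Rl C) + (C + 1))) ≤ 1 := by
        rw [← Real.exp_add, Real.exp_le_one_iff]; nlinarith
      have h5 := mul_le_mul_of_nonneg_left h2 (Real.exp_pos (k * x)).le
      have h6 := mul_le_mul_of_nonneg_left h3 hB0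
      nlinarith
    · intro x
      rw [hn]
      simpa using hb _ (phl_mem hC (w := x * I) (by simp))
  rw [hn, hw] at key
  have h1 : Real.exp (-k * w.re) ≤ Real.exp (-k * z.re / 2) := Real.exp_le_exp.2 (by nlinarith)
  have h2 : ‖g z‖ = Real.exp (-k * w.re) * (Real.exp (k * w.re) * ‖g z‖) := by
    rw [← mul_assoc, ← Real.exp_add]; simp
  rw [h2, mul_comm A]
  exact mul_le_mul h1 key (by positivity) (Real.exp_pos _).le

end Crest.Agent.N207.J

end
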