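import Crest.Agent.N207.J.Sph5

/-! # N207/J/Re1 (helper72): polar coordinates; Cartesian gradient of `u (log ‖x‖) (x/‖x‖)` -/

set_option autoImplicit false
set_option maxHeartbeats 400000
open MeasureTheory Metric Topology Filter Asymptotics
open Crest.Agent.R246.Zon797
open scoped InnerProductSpace

noncomputable section

namespace Crest.Agent.N207.J

/-- basis vectors -/
abbrev ee (i : Fin 4) : E4 := EuclideanSpace.single i 1

open Classical in
/-- radial projection -/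
def prj (x : E4) : S3 :=
  if h : x = 0 then ⟨ee 0, by simp⟩ else ⟨‖x‖⁻¹ • x, by simp [norm_smul, h]⟩

theorem prj_coe {x : E4} (hx : x ≠ 0) : (prj x : E4) = ‖x‖⁻¹ • x := by simp [prj, hx]

theorem S3_norm (ω : S3) : ‖(ω : E4)‖ = 1 := by simp

theorem S3_ne (ω : S3) : (ω : E4) ≠ 0 := fun h => by simpa [h] using S3_norm ω

theorem norm_smul_S3 {r : ℝ} (hr : 0 < r) (ω : S3) : ‖r • (ω : E4)‖ = r := by
  rw [norm_smul, S3_norm, mul_one, Real.norm_of_nonneg hr.le]

theorem smul_S3_ne {r : ℝ} (hr : 0 < r) (ω : S3) : r • (ω : E4) ≠ 0 :=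
  smul_ne_zero hr.ne' (S3_ne ω)

theorem prj_smul_S3 {r : ℝ} (hr : 0 < r) (ω : S3) : prj (r • (ω : E4)) = ω :=
  Subtype.ext (by rw [prj_coe (smul_S3_ne hr ω), norm_smul_S3 hr, inv_smul_smul₀ hr.ne'])

theorem prj_S3 (ω : S3) : prj (ω : E4) = ω := by simpa using prj_smul_S3 one_pos ω

theorem norm_smul_prj {x : E4} (hx : x ≠ 0) : ‖x‖ • (prj x : E4) = x := by
  rw [prj_coe hx, smul_inv_smul₀ (norm_ne_zero_iff.2 hx)]

theorem exp_log_smul_prj {x : E4} (hx : x ≠ 0) : Real.exp (Real.log ‖x‖) • (prj x : E4) = x := by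
  rw [Real.exp_log (norm_pos_iff.2 hx), norm_smul_prj hx]

theorem prj_smul {r : ℝ} (hr : 0 < r) {x : E4} (hx : x ≠ 0) : prj (r • x) = prj x := by
  conv_lhs => rw [← norm_smul_prj hx, smul_smul]
  exact prj_smul_S3 (mul_pos hr (norm_pos_iff.2 hx)) _

theorem continuousAt_prj {x : E4} (hx : x ≠ 0) : ContinuousAt prj x := by
  rw [Topology.IsInducing.subtypeVal.continuousAt_iff]
  have h : ContinuousAt (fun y : E4 => ‖y‖⁻¹ • y) x :=
    (continuous_norm.continuousAt.inv₀ (norm_ne_zero_iff.2 hx)).smul continuousAt_id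
  refine h.congr ?_
  filter_upwards [isOpen_ne.mem_nhds hx] with y hy
  exact (prj_coe hy).symm

theorem xc_prj {x : E4} (hx : x ≠ 0) (i : Fin 4) : xc i (prj x) = ((‖x‖⁻¹ * x i : ℝ) : ℂ) := by
  rw [xc_apply, prj_coe hx]; rfl

/-- coordinate covector -/
def dx (i : Fin 4) : E4 →L[ℝ] ℂ := Complex.ofRealCLM ∘L EuclideanSpace.proj i

@[simp] theorem dx_apply (i : Fin 4) (h : E4) : dx i h = ((h i : ℝ) : ℂ) := rfl

/-- covector with given components -/
def cov (c : Fin 4 → ℂ) : E4 →L[ℝ] ℂ := ∑ i, c i • dx i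

theorem cov_apply (c : Fin 4 → ℂ) (h : E4) : cov c h = ∑ i, c i * ((h i : ℝ) : ℂ) := by
  simp [cov]

theorem cov_ee (c : Fin 4 → ℂ) (j : Fin 4) : cov c (ee j) = c j := by
  rw [cov_apply, Finset.sum_eq_single j (fun b _ hb => by simp [hb]) (by simp)]
  simp

theorem eq_cov (L : E4 →L[ℝ] ℂ) : L = cov fun i => L (ee i) := by
  ext h
  have e : h = ∑ j, h j • ee j := by ext l; simp [Pi.single_apply]
  rw [cov_apply]
  conv_lhs => rw [e]
  simp only [map_sum, map_smul, Complex.real_smul]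
  exact Finset.sum_congr rfl fun i _ => mul_comm _ _

theorem clm_ext {L L' : E4 →L[ℝ] ℂ} (h : ∀ i, L (ee i) = L' (ee i)) : L = L' := by
  rw [eq_cov L, eq_cov L']; congr 1; exact funext h

theorem norm_dx_le (i : Fin 4) : ‖dx i‖ ≤ 1 :=
  ContinuousLinearMap.opNorm_le_bound _ zero_le_one fun h => by
    simpa using PiLp.norm_apply_le h i

theorem norm_cov_le (c : Fin 4 → ℂ) : ‖cov c‖ ≤ ∑ i, ‖c i‖ :=
  norm_sum_le_of_le _ fun i _ => by
    rw [norm_smul]; exact mul_le_of_le_one_right (norm_nonneg _) (norm_dx_le i)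

theorem cov_sub (c d : Fin 4 → ℂ) : cov c - cov d = cov fun i => c i - d i :=
  clm_ext fun i => by simp [cov_ee]

theorem hasFDerivAt_logn {x : E4} (hx : x ≠ 0) :
    HasFDerivAt (fun y : E4 => Real.log ‖y‖) ((‖x‖ ^ 2)⁻¹ • innerSL ℝ x) x := by
  have h := ((hasStrictFDerivAt_norm_sq x).hasFDerivAt.log
    (pow_ne_zero 2 (norm_ne_zero_iff.2 hx))).const_mul (1 / 2 : ℝ)
  have e : (fun y : E4 => 1 / 2 * Real.log (‖y‖ ^ 2)) = fun y => Real.log ‖y‖ := by
    funext y; rw [Real.log_pow]; push_cast; ring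
  rw [e] at h
  refine h.congr_fderiv ?_
  ext v; simp; ring

theorem hasFDerivAt_invn {x : E4} (hx : x ≠ 0) :
    HasFDerivAt (fun y : E4 => ‖y‖⁻¹) (-(‖x‖ ^ 3)⁻¹ • innerSL ℝ x) x := by
  have h := (hasFDerivAt_logn hx).neg.exp
  have hn := norm_pos_iff.2 hx
  refine (h.congr_of_eventuallyEq ?_).congr_fderiv ?_
  · filter_upwards [isOpen_ne.mem_nhds hx] with y hy
    simp [Real.exp_neg, Real.exp_log (norm_pos_iff.2 hy)]
  · ext v
    simp [Real.exp_neg, Real.exp_log hn]
    field_simp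

@[simp] theorem inner_ee (x : E4) (i : Fin 4) : inner ℝ x (ee i) = x i := by
  rw [EuclideanSpace.inner_single_right]; simp

/-- `g` is the tangential gradient of `u` -/
def HG (u : CS) (g : Fin 4 → CS) : Prop :=
  ∀ x : E4, x ≠ 0 →
    HasFDerivAt (fun y => u (prj y)) (cov fun i => ((‖x‖⁻¹ : ℝ) : ℂ) * g i (prj x)) x

theorem HG.const (c : ℂ) : HG (c • 1) 0 := fun x _ => by
  have : (cov fun i => ((‖x‖⁻¹ : ℝ) : ℂ) * (0 : Fin 4 → CS) i (prj x)) = 0 :=
    clm_ext fun i => by simp [cov_ee]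
  rw [this]
  exact hasFDerivAt_const (c • (1 : ℂ)) x

theorem HG.add {u v : CS} {g h : Fin 4 → CS} (hu : HG u g) (hv : HG v h) :
    HG (u + v) (fun i => g i + h i) := fun x hx =>
  ((hu x hx).add (hv x hx)).congr_fderiv (clm_ext fun i => by simp [cov_ee, mul_add])

theorem HG.smul {u : CS} {g : Fin 4 → CS} (c : ℂ) (hu : HG u g) :
    HG (c • u) (fun i => c • g i) := fun x hx =>
  ((hu x hx).const_mul c).congr_fderiv (clm_ext fun i => by simp [cov_ee]; ring)

theorem HG.mul {u v : CS} {g h : Fin 4 → CS} (hu : HG u g) (hv : HG v h) :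
    HG (u * v) (fun i => g i * v + u * h i) := fun x hx =>
  ((hu x hx).mul (hv x hx)).congr_fderiv (clm_ext fun i => by simp [cov_ee]; ring)

theorem HG.xc (l : Fin 4) : HG (xc l) (fun i => (if i = l then 1 else 0) - xc i * xc l) := by
  intro x hx
  have h := ((hasFDerivAt_invn hx).mul (EuclideanSpace.proj (𝕜 := ℝ) l).hasFDerivAt)
  have h2 := Complex.ofRealCLM.hasFDerivAt.comp x h
  have hn : ((‖x‖ : ℝ) : ℂ) ≠ 0 := by exact_mod_cast norm_ne_zero_iff.2 hx
  refine (h2.congr_of_eventuallyEq ?_).congr_fderiv (clm_ext fun i => ?_)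
  · filter_upwards [isOpen_ne.mem_nhds hx] with y hy
    rw [xc_prj hy]; rfl
  · rw [cov_ee]
    simp only [ContinuousMap.sub_apply, ContinuousMap.mul_apply, xc_prj hx]
    by_cases hi : i = l
    · subst hi; simp; field_simp; ring
    · simp [hi, Ne.symm hi]; field_simp

theorem HG.tendsto {ι : Type*} {l : Filter ι} [NeBot l] {u : ι → CS} {g : ι → Fin 4 → CS}
    {v : CS} {h : Fin 4 → CS} (hu : Tendsto u l (𝓝 v))
    (hg : ∀ i, Tendsto (fun n => g n i) l (𝓝 (h i))) (H : ∀ n, HG (u n) (g n)) : HG v h := by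
  intro x hx
  have hn := norm_pos_iff.2 hx
  have hs : IsOpen {y : E4 | ‖x‖ / 2 < ‖y‖} := isOpen_lt continuous_const continuous_norm
  have hne : ∀ y : E4, ‖x‖ / 2 < ‖y‖ → y ≠ 0 := fun y hy =>
    norm_pos_iff.1 (lt_trans (by positivity) hy)
  refine hasFDerivAt_of_tendstoUniformlyOn (l := l) hs
    (f := fun n y => u n (prj y)) (g := fun y => v (prj y))
    (f' := fun n y => cov fun i => ((‖y‖⁻¹ : ℝ) : ℂ) * g n i (prj y))
    (g' := fun y => cov fun i => ((‖y‖⁻¹ : ℝ) : ℂ) * h i (prj y)) ?_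
    (fun n y hy => H n y (hne y hy))
    (fun y _ => (ContinuousMap.tendsto_iff_tendstoUniformly.1 hu).tendsto_at _)
    (show ‖x‖ / 2 < ‖x‖ by linarith)
  have h0 : Tendsto (fun n => ∑ i, (‖x‖ / 2)⁻¹ * ‖h i - g n i‖) l (𝓝 0) := by
    have := tendsto_finsetSum Finset.univ fun i _ =>
      (((tendsto_const_nhds (x := h i)).sub (hg i)).norm).const_mul (‖x‖ / 2)⁻¹
    simpa using this
  rw [Metric.tendstoUniformlyOn_iff]
  intro ε hε
  filter_upwards [h0.eventually (gt_mem_nhds hε)] with n hn' y hy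
  rw [dist_eq_norm, cov_sub]
  refine lt_of_le_of_lt ((norm_cov_le _).trans (Finset.sum_le_sum fun i _ => ?_)) hn'
  rw [← mul_sub, norm_mul, Complex.norm_real, Real.norm_of_nonneg (by positivity)]
  exact mul_le_mul (inv_anti₀ (by positivity) (le_of_lt hy)) ((h i - g n i).norm_coe_le_norm _)
    (norm_nonneg _) (by positivity)

/-- tangential gradient from the rotation derivatives -/
def gr (u : CS) (i : Fin 4) : CS := ∑ a, rx a i * R a u

theorem HG_of_mem_V {k : ℕ} {u : CS} (hu : u ∈ V k) : HG u (gr u) := by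
  refine V_ind (p := fun _ u => HG u (gr u)) ?_ ?_ ?_ ?_ ?_ ?_ k u hu
  · have := HG.const 1
    convert this using 1
    · ext x; simp
    · funext i; simp [gr, R_one]
  · intro _
    have := HG.const 0
    convert this using 1
    · ext x; simp
    · funext i; simp [gr, R_zero]
  · intro j u w hu hw h1 h2
    convert h1.add h2 using 1
    funext i
    simp only [gr, R_add _ hu hw, mul_add, Finset.sum_add_distrib]
  · intro j c u hu h
    convert h.smul c using 1
    funext i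
    simp only [gr, R_smul _ c hu, mul_smul_comm, Finset.smul_sum]
  · intro j u _ h; exact h
  · intro j l u hu h
    convert (HG.xc l).mul h using 1
    funext i
    rw [← gam_xc, gr, gr, Finset.sum_mul, Finset.mul_sum, ← Finset.sum_add_distrib]
    refine Finset.sum_congr rfl fun a _ => ?_
    rw [R_mul a (xc_mem l) hu, R_xc]; ring

theorem Sb.HG {n : ℕ} {u : CS} (hu : Sb (n + 3) u) : HG u (gr u) := by
  refine HG.tendsto (hu.hasSum (n := n + 1))
    (g := fun s i => ∑ a, rx a i * ∑ k ∈ s, J.R a (Pc k (toH u))) (fun i => ?_) fun s => ?_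
  · exact tendsto_finsetSum _ fun a _ => Tendsto.const_mul _ (hu.HR_aux a).2
  · obtain ⟨N, hN⟩ := s.exists_nat_subset_range
    have hV : ∑ k ∈ s, Pc k (toH u) ∈ V N := Submodule.sum_mem _ fun k hk =>
      V_mono (Finset.mem_range.1 (hN hk)).le (Pc_memV k _)
    convert HG_of_mem_V hV using 1
    funext i
    refine Finset.sum_congr rfl fun a _ => ?_
    rw [(HR.sum fun k _ => HR_R a (Pc_memV k (toH u))).R_eq]

/-- the rotation vector field -/
def Xv (a : Pr 4) : E4 →L[ℝ] E4 :=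
  (EuclideanSpace.proj a.1.1 : E4 →L[ℝ] ℝ).smulRight (ee a.1.2) -
    (EuclideanSpace.proj a.1.2 : E4 →L[ℝ] ℝ).smulRight (ee a.1.1)

theorem Xv_coord (a : Pr 4) (ω : S3) (i : Fin 4) : ((Xv a (ω : E4) i : ℝ) : ℂ) = rx a i ω := by
  have := a.ne
  unfold Xv rx
  split_ifs with h1 h2
  · subst h1; simp [this]
  · subst h2; simp [h1]
  · simp [h1, h2]

theorem hasDerivAt_rot (a : Pr 4) (x : E4) :
    HasDerivAt (fun θ : ℝ => rotV a.1.1 a.1.2 θ x) (Xv a x) 0 := by
  have e : (fun θ : ℝ => rotV a.1.1 a.1.2 θ x) = fun θ => x + (Real.cos θ - 1) •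
      (x a.1.1 • ee a.1.1 + x a.1.2 • ee a.1.2) + Real.sin θ • Xv a x := by
    funext θ
    have := a.ne
    ext k
    by_cases h1 : k = a.1.1
    · subst h1; simp [rotV_i, Xv, this]; ring
    · by_cases h2 : k = a.1.2
      · subst h2; simp [rotV_j this, Xv, h1]; ring
      · simp [rotV_ne h1 h2, Xv, h1, h2]
  rw [e]
  have h := (((Real.hasDerivAt_cos 0).sub_const 1).smul_const
    (x a.1.1 • ee a.1.1 + x a.1.2 • ee a.1.2)).const_add x |>.add
    ((Real.hasDerivAt_sin 0).smul_const (Xv a x))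
  exact h.congr_deriv (by simp)

/-- chain rule along a rotation -/
theorem hasDerivAt_comp_rot {F : Type*} [NormedAddCommGroup F] [NormedSpace ℝ F] {U : E4 → F}
    {L : E4 →L[ℝ] F} (a : Pr 4) {x : E4} (h : HasFDerivAt U L x) :
    HasDerivAt (fun θ : ℝ => U (rotV a.1.1 a.1.2 θ x)) (L (Xv a x)) 0 := by
  have h' : HasFDerivAt U L (rotV a.1.1 a.1.2 0 x) := by rwa [rotV_zero]
  exact h'.comp_hasDerivAt 0 (hasDerivAt_rot a x)

theorem HG.HR {u : CS} {g : Fin 4 → CS} (h : HG u g) (a : Pr 4) :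
    HR a u (∑ i, rx a i * g i) := by
  intro ω
  have h1 := hasDerivAt_comp_rot a (h ω (S3_ne ω))
  have e : (fun θ : ℝ => u (prj (rotV a.1.1 a.1.2 θ (ω : E4)))) = fun θ => u (rotS a θ ω) := by
    funext θ
    rw [← prj_S3 (rotS a θ ω), rotS_coe]
  rw [e] at h1
  refine h1.congr_deriv ?_
  rw [cov_apply]
  simp [Xv_coord, prj_S3, mul_comm]

theorem sum_xc_rx (a : Pr 4) : ∑ i, xc i * rx a i = 0 := by
  have h := (HR.sum (s := Finset.univ) fun i _ => (HR.xc a i).mul (HR.xc a i))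
  rw [sum_xc_sq] at h
  have h2 := h.unique (HR.one a)
  ext x
  have := congrArg (fun u : CS => u x) h2
  simp only [ContinuousMap.coe_sum, Finset.sum_apply, ContinuousMap.add_apply,
    ContinuousMap.mul_apply, ContinuousMap.zero_apply, mul_comm (rx a _ x), ← two_mul,
    ← Finset.mul_sum] at this ⊢
  exact (mul_eq_zero.1 this).resolve_left two_ne_zero

theorem sum_xc_gr (u : CS) : ∑ i, xc i * gr u i = 0 := by
  simp only [gr, Finset.mul_sum, ← mul_assoc]
  rw [Finset.sum_comm]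
  simp only [← Finset.sum_mul, sum_xc_rx, zero_mul, Finset.sum_const_zero]

/-! ### functions on annuli -/

/-- the function `x ↦ u (log ‖x‖) (x/‖x‖)` -/
def ann (u : ℝ → CS) (x : E4) : ℂ := u (Real.log ‖x‖) (prj x)

theorem ann_polar (u : ℝ → CS) (t : ℝ) (ω : S3) : ann u (Real.exp t • (ω : E4)) = u t ω := by
  rw [ann, norm_smul_S3 (Real.exp_pos t), Real.log_exp, prj_smul_S3 (Real.exp_pos t)]

theorem hasFDerivAt_ann {u : ℝ → CS} {u' : CS} {g : Fin 4 → CS} {x : E4} (hx : x ≠ 0)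
    (hu : HasDerivAt u u' (Real.log ‖x‖)) (hg : HG (u (Real.log ‖x‖)) g) :
    HasFDerivAt (ann u) (cov fun i => ((‖x‖⁻¹ : ℝ) : ℂ) * (xc i * u' + g i) (prj x)) x := by
  set t := Real.log ‖x‖ with ht
  have hl := hasFDerivAt_logn hx
  have h1 := hg x hx
  -- the frozen linear term
  have h2 : HasFDerivAt (fun y : E4 => (Real.log ‖y‖ - t) • u' (prj x))
      (((‖x‖ ^ 2)⁻¹ • innerSL ℝ x).smulRight (u' (prj x))) x :=
    (hl.sub_const t).smul_const _
  have hO : (fun y : E4 => Real.log ‖y‖ - t) =O[𝓝 x] fun y => y - x := hl.isBigO_sub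
  have h3 : (fun y : E4 => (Real.log ‖y‖ - t) • (u' (prj y) - u' (prj x))) =o[𝓝 x]
      fun y => y - x := by
    have c : Tendsto (fun y => u' (prj y) - u' (prj x)) (𝓝 x) (𝓝 0) := by
      have := (u'.continuous.continuousAt.comp (continuousAt_prj hx)).tendsto.sub_const
        (u' (prj x))
      simpa using this
    have := hO.norm_right.smul_isLittleO ((isLittleO_one_iff ℝ).2 c)
    simpa using this
  have h4 : (fun y : E4 => (u (Real.log ‖y‖) - u t - (Real.log ‖y‖ - t) • u') (prj y)) =o[𝓝 x]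
      fun y => y - x := by
    have a1 := (hasDerivAt_iff_isLittleO.1 hu).comp_tendsto hl.continuousAt.tendsto
    refine IsBigO.trans_isLittleO (IsBigO.of_bound 1 (Eventually.of_forall fun y => ?_))
      (a1.trans_isBigO hO)
    rw [one_mul]
    exact ContinuousMap.norm_coe_le_norm _ _
  have h5 : HasFDerivAt (fun y : E4 => (Real.log ‖y‖ - t) • (u' (prj y) - u' (prj x)) +
      (u (Real.log ‖y‖) - u t - (Real.log ‖y‖ - t) • u') (prj y)) (0 : E4 →L[ℝ] ℂ) x := by
    rw [hasFDerivAt_iff_isLittleO]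
    simpa [← ht] using h3.add h4
  have hn : ((‖x‖ : ℝ) : ℂ) ≠ 0 := by exact_mod_cast norm_ne_zero_iff.2 hx
  refine (((h1.add h2).add h5).congr_of_eventuallyEq
    (Eventually.of_forall fun y => ?_)).congr_fderiv (clm_ext fun i => ?_)
  · simp [ann]; ring
  · simp [cov_ee, prj_coe hx]; field_simp; ring

end Crest.Agent.N207.J
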