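import Crest.Agent.N207.J.Re1

/-! # N207/J/Re2 (helper72): families with uniformly summable modes -/

set_option autoImplicit false
set_option maxHeartbeats 400000
open MeasureTheory Metric Topology Filter
open Crest.Agent.R246.Zon797
open scoped InnerProductSpace

noncomputable section

namespace Crest.Agent.N207.J

theorem norm_P_mul_le {u v : CS} (hu : Sb 2 u) (hv : v ∈ V 1) (j : ℕ) :
    ‖P j (toH (v * u))‖ ≤
      ‖v‖ * (‖P (j - 1) (toH u)‖ + ‖P j (toH u)‖ + ‖P (j + 1) (toH u)‖) := by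
  have h := ((hu.hasSum (n := 0)).mul_left v).mapL (P j ∘L toH)
  have hz : ∀ k, k ∉ ({j - 1, j, j + 1} : Finset ℕ) → (P j ∘L toH) (v * Pc k (toH u)) = 0 := by
    intro k hk
    simp only [Finset.mem_insert, Finset.mem_singleton, not_or] at hk
    rcases lt_or_gt_of_ne hk.2.1 with h1 | h1
    · exact P_mul_zero_hi hv (Pc_memV k _) (by omega)
    · exact P_mul_zero_lo hv (Pc_mem k _) (by omega)
  have e := h.unique (hasSum_sum_of_ne_finset_zero hz)
  have b : ∀ k, ‖(P j ∘L toH) (v * Pc k (toH u))‖ ≤ ‖v‖ * ‖P k (toH u)‖ := fun k => by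
    have := (norm_P_le j _).trans (norm_toH_mul v (Pc k (toH u)))
    rwa [toH_Pc] at this
  rw [show P j (toH (v * u)) = _ from e]
  refine (norm_sum_le_of_le _ fun k _ => b k).trans ?_
  rw [← Finset.mul_sum]
  refine mul_le_mul_of_nonneg_left ?_ (norm_nonneg _)
  cases j with
  | zero => simp
  | succ j =>
    rw [Finset.sum_insert (by simp; omega), Finset.sum_insert (by simp), Finset.sum_singleton]
    linarith

variable {T : Type*}

/-- the modes of `u t`, `t ∈ I`, are dominated by a summable sequence of sum `≤ M` -/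
def Ub (I : Set T) (n : ℕ) (M : ℝ) (u : T → CS) : Prop :=
  ∃ c : ℕ → ℝ, Summable c ∧ ∑' k, c k ≤ M ∧ (∀ k, 0 ≤ c k) ∧
    ∀ k : ℕ, ∀ t ∈ I, ((k : ℝ) + 1) ^ n * ‖P k (toH (u t))‖ ≤ c k

variable {I : Set T} {n : ℕ} {M : ℝ} {u v : T → CS}

theorem Ub.nonneg (h : Ub I n M u) : 0 ≤ M := by
  obtain ⟨c, -, h2, h3, -⟩ := h
  exact (tsum_nonneg h3).trans h2

theorem Ub.sb (h : Ub I n M u) {t : T} (ht : t ∈ I) : Sb n (u t) := by
  obtain ⟨c, h1, -, -, h4⟩ := h
  exact Summable.of_nonneg_of_le (fun _ => by positivity) (fun k => h4 k t ht) h1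

theorem Ub.mono (h : Ub I n M u) {m : ℕ} {M' : ℝ} {I' : Set T} (hm : m ≤ n) (hM : M ≤ M')
    (hI : I' ⊆ I) : Ub I' m M' u := by
  obtain ⟨c, h1, h2, h3, h4⟩ := h
  refine ⟨c, h1, h2.trans hM, h3, fun k t ht => le_trans ?_ (h4 k t (hI ht))⟩
  exact mul_le_mul_of_nonneg_right
    (pow_le_pow_right₀ (by linarith [(Nat.cast_nonneg k : (0 : ℝ) ≤ k)]) hm) (norm_nonneg _)

theorem Ub.le (h : Ub I n M u) {m : ℕ} (hm : m ≤ n) : Ub I m M u := h.mono hm le_rfl subset_rfl

theorem Ub.congr (h : Ub I n M u) (e : ∀ t ∈ I, v t = u t) : Ub I n M v := by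
  obtain ⟨c, h1, h2, h3, h4⟩ := h
  exact ⟨c, h1, h2, h3, fun k t ht => by rw [e t ht]; exact h4 k t ht⟩

theorem Ub.add {M' : ℝ} (h : Ub I n M u) (h' : Ub I n M' v) :
    Ub I n (M + M') fun t => u t + v t := by
  obtain ⟨c, h1, h2, h3, h4⟩ := h
  obtain ⟨d, k1, k2, k3, k4⟩ := h'
  refine ⟨fun k => c k + d k, h1.add k1, by rw [h1.tsum_add k1]; linarith,
    fun k => add_nonneg (h3 k) (k3 k), fun k t ht => ?_⟩
  rw [map_add, map_add]
  refine (mul_le_mul_of_nonneg_left (norm_add_le _ _) (by positivity)).trans ?_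
  rw [mul_add]
  exact add_le_add (h4 k t ht) (k4 k t ht)

theorem Ub.smul (h : Ub I n M u) (a : ℂ) : Ub I n (‖a‖ * M) fun t => a • u t := by
  obtain ⟨c, h1, h2, h3, h4⟩ := h
  refine ⟨fun k => ‖a‖ * c k, h1.mul_left _, ?_, fun k => mul_nonneg (norm_nonneg _) (h3 k),
    fun k t ht => ?_⟩
  · rw [tsum_mul_left]; exact mul_le_mul_of_nonneg_left h2 (norm_nonneg _)
  · rw [map_smul, map_smul, norm_smul, mul_left_comm]
    exact mul_le_mul_of_nonneg_left (h4 k t ht) (norm_nonneg _)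

theorem Ub.zero (I : Set T) (n : ℕ) : Ub I n 0 fun _ => 0 :=
  ⟨fun _ => 0, summable_zero, by simp, fun _ => le_rfl, fun k t _ => by simp⟩

theorem Ub.sum {ι : Type*} (s : Finset ι) {u : ι → T → CS} (h : ∀ i ∈ s, Ub I n M (u i)) :
    Ub I n (s.card * M) fun t => ∑ i ∈ s, u i t := by
  classical
  induction s using Finset.induction_on with
  | empty => simpa using Ub.zero I n
  | insert i s hi ih =>
    have := (h i (Finset.mem_insert_self _ _)).add
      (ih fun j hj => h j (Finset.mem_insert_of_mem hj))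
    simp only [Finset.sum_insert hi, Finset.card_insert_of_notMem hi]
    exact this.mono le_rfl (le_of_eq (by push_cast; ring)) subset_rfl

theorem Ub.norm_le (h : Ub I (n + 2) M u) {t : T} (ht : t ∈ I) : ‖u t‖ ≤ M := by
  have hs := (h.sb ht).hasSum
  obtain ⟨c, h1, h2, -, h4⟩ := h.le (m := 2) (by omega)
  exact (hs.norm_le_of_bounded h1.hasSum fun k => (norm_Pc_le k _).trans (h4 k t ht)).trans h2

theorem Ub.R (h : Ub I (n + 3) M u) (a : Pr 4) : Ub I (n + 2) M fun t => R a (u t) := by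
  have hs := fun t ht => ((h.sb (t := t) ht).HR a).norm_P_le
  obtain ⟨c, h1, h2, h3, h4⟩ := h
  refine ⟨c, h1, h2, h3, fun k t ht => le_trans ?_ (h4 k t ht)⟩
  rw [pow_succ _ (n + 2), mul_assoc]
  exact mul_le_mul_of_nonneg_left (hs t ht k) (by positivity)

theorem Ub.mul (h : Ub I (n + 2) M u) {w : CS} (hw : w ∈ V 1) (hw1 : ‖w‖ ≤ 1) :
    Ub I (n + 2) (2 ^ (n + 4) * M) fun t => w * u t := by
  have hs := fun t ht => norm_P_mul_le ((h.sb (t := t) ht).mono (m := 2) (by omega)) hw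
  obtain ⟨c, h1, h2, h3, h4⟩ := h
  have s1 : Summable fun k => c (k - 1) := (summable_nat_add_iff 1).1 (by simpa using h1)
  have s2 : Summable fun k => c (k + 1) := (summable_nat_add_iff 1).2 h1
  have e1 : ∑' k, c (k - 1) = c 0 + ∑' k, c k := by rw [s1.tsum_eq_zero_add]; simp
  have e2 : ∑' k, c k = c 0 + ∑' k, c (k + 1) := h1.tsum_eq_zero_add
  refine ⟨fun k => 2 ^ (n + 2) * (c (k - 1) + c k + c (k + 1)), ((s1.add h1).add s2).mul_left _,
    ?_, fun k => by have := h3 (k - 1); have := h3 k; have := h3 (k + 1); positivity,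
    fun k t ht => ?_⟩
  · rw [tsum_mul_left, (s1.add h1).tsum_add s2, s1.tsum_add h1, pow_add 2 n 4,
      pow_add 2 n 2, mul_assoc, mul_assoc]
    refine mul_le_mul_of_nonneg_left ?_ (by positivity)
    have := h3 0
    have : 0 ≤ ∑' k, c k := tsum_nonneg h3
    linarith
  · have key : ∀ l : ℕ, k ≤ l + 1 →
        ((k : ℝ) + 1) ^ (n + 2) * ‖P l (toH (u t))‖ ≤ 2 ^ (n + 2) * c l := by
      intro l hl
      refine le_trans ?_ (mul_le_mul_of_nonneg_left (h4 l t ht) (by positivity))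
      rw [← mul_assoc, ← mul_pow]
      refine mul_le_mul_of_nonneg_right (pow_le_pow_left₀ (by positivity) ?_ _) (norm_nonneg _)
      have : (k : ℝ) ≤ l + 1 := by exact_mod_cast hl
      linarith [(Nat.cast_nonneg l : (0 : ℝ) ≤ l)]
    have := (hs t ht k).trans (mul_le_of_le_one_left (by positivity) hw1)
    refine (mul_le_mul_of_nonneg_left this (by positivity)).trans ?_
    simp only [mul_add]
    exact add_le_add (add_le_add (key _ (by omega)) (key _ (by omega))) (key _ (by omega))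

theorem Ub.gr (h : Ub I (n + 3) M u) (i : Fin 4) :
    Ub I (n + 2) (6 * (2 ^ (n + 4) * M)) fun t => gr (u t) i := by
  have := Ub.sum (Finset.univ : Finset (Pr 4)) fun a _ =>
    (h.R a).mul (rx_mem a i) (norm_rx_le a i)
  have e : (Finset.univ : Finset (Pr 4)).card = 6 := by decide
  rw [e] at this
  exact_mod_cast this

theorem Ub.unif (h : Ub I (n + 2) M u) :
    TendstoUniformlyOn (fun (s : Finset ℕ) t => ∑ k ∈ s, Pc k (toH (u t))) u atTop I := by
  have hs := fun t ht => (h.sb (t := t) ht).hasSum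
  obtain ⟨c, h1, -, -, h4⟩ := h.le (m := 2) (by omega)
  exact (tendstoUniformlyOn_tsum h1 fun k t ht =>
    (norm_Pc_le k _).trans (h4 k t ht)).congr_right fun t ht => (hs t ht).tsum_eq

theorem Ub.continuousOn [TopologicalSpace T] (h : Ub I (n + 2) M u)
    (hc : ∀ k, ContinuousOn (fun t => P k (toH (u t))) I) : ContinuousOn u I := by
  refine h.unif.continuousOn (Frequently.of_forall fun s => continuousOn_finsetSum _ fun k _ => ?_)
  have := (Pc k).continuous.comp_continuousOn (hc k)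
  exact this.congr fun t _ => (Pc_P k _).symm

theorem Ub.continuousOn_R [TopologicalSpace T] (h : Ub I (n + 3) M u) (hc : ContinuousOn u I)
    (a : Pr 4) : ContinuousOn (fun t => J.R a (u t)) I := by
  refine (h.R a).continuousOn fun k => ?_
  refine ((Rk a k ∘L toH).continuous.comp_continuousOn hc).congr fun t ht => ?_
  rw [← toH_Pc, ((h.sb ht).HR a).Pc]; rfl

/-- synthesis of a family of harmonics -/
theorem Ub.of_modes {f : ℕ → T → CS} (hf : ∀ k, ∀ t ∈ I, f k t ∈ E k) {c : ℕ → ℝ}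
    (h1 : Summable c) (h2 : ∑' k, c k ≤ M) (h3 : ∀ k, 0 ≤ c k)
    (h4 : ∀ k : ℕ, ∀ t ∈ I, ((k : ℝ) + 1) ^ n * ‖toH (f k t)‖ ≤ c k)
    (hu : ∀ t ∈ I, HasSum (fun k => f k t) (u t)) : Ub I n M u :=
  ⟨c, h1, h2, h3, fun k t ht => by
    rw [← toH_Pc, Pc_of_hasSum (fun k => hf k t ht) (hu t ht)]; exact h4 k t ht⟩

/-- from an `ℓ²` bound with one more power -/
theorem Ub.of_sq {c : ℕ → ℝ} (h3 : ∀ k, 0 ≤ c k) (hM : 0 ≤ M)
    (h1 : ∀ s : Finset ℕ, ∑ k ∈ s, c k ^ 2 ≤ M ^ 2)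
    (h4 : ∀ k : ℕ, ∀ t ∈ I, ((k : ℝ) + 1) ^ (n + 1) * ‖P k (toH (u t))‖ ≤ c k) : Ub I n (2 * M) u := by
  obtain ⟨s1, s2⟩ := summable_of_sq (a := fun k => c k / ((k : ℝ) + 1))
    (fun k => div_nonneg (h3 k) (by positivity)) hM fun s => by
      refine le_trans (le_of_eq (Finset.sum_congr rfl fun k _ => ?_)) (h1 s)
      field_simp
  refine ⟨_, s1, s2, fun k => div_nonneg (h3 k) (by positivity), fun k t ht => ?_⟩
  rw [le_div_iff₀ (by positivity)]
  refine le_trans (le_of_eq ?_) (h4 k t ht)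
  ring

section deriv
variable {𝕜 : Type*} [RCLike 𝕜] [NormedAlgebra 𝕜 ℂ] {I : Set 𝕜} {u u' : 𝕜 → CS} {M' : ℝ} {n' : ℕ}

theorem Ub.hasDerivAt (hI : IsOpen I) (h : Ub I (n + 2) M u) (h' : Ub I (n' + 2) M' u')
    (hd : ∀ k, ∀ t ∈ I, HasDerivAt (fun t => Pc k (toH (u t))) (Pc k (toH (u' t))) t)
    {t : 𝕜} (ht : t ∈ I) : HasDerivAt u (u' t) t :=
  hasDerivAt_of_tendstoUniformlyOn hI h'.unif
    (Eventually.of_forall fun _ t ht => HasDerivAt.fun_sum fun k _ => hd k t ht)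
    (fun _ ht => (h.sb ht).hasSum) ht

end deriv

section real
variable {I : Set ℝ} {u u' : ℝ → CS} {M' : ℝ} {n' : ℕ}

theorem Ub.hasDerivAt' (hI : IsOpen I) (h : Ub I (n + 2) M u) (h' : Ub I (n' + 2) M' u')
    (hd : ∀ k, ∀ t ∈ I, HasDerivAt (fun t => P k (toH (u t))) (P k (toH (u' t))) t)
    {t : ℝ} (ht : t ∈ I) : HasDerivAt u (u' t) t :=
  h.hasDerivAt hI h' (fun k t ht => by
    have := ((Pc k).restrictScalars ℝ).hasFDerivAt.comp_hasDerivAt t (hd k t ht)
    simpa only [Function.comp_def, ContinuousLinearMap.coe_restrictScalars', Pc_P] using this) ht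

theorem Ub.hasDerivAt_R (hI : IsOpen I) (h : Ub I (n + 3) M u) (h' : Ub I (n' + 3) M' u')
    (hd : ∀ t ∈ I, HasDerivAt u (u' t) t) (a : Pr 4) {t : ℝ} (ht : t ∈ I) :
    HasDerivAt (fun t => J.R a (u t)) (J.R a (u' t)) t := by
  refine (h.R a).hasDerivAt' hI (h'.R a) (fun k t ht => ?_) ht
  have := ((Rk a k ∘L toH).restrictScalars ℝ).hasFDerivAt.comp_hasDerivAt t (hd t ht)
  rw [← toH_Pc, ((h'.sb ht).HR a).Pc]
  refine this.congr_of_eventuallyEq ?_
  filter_upwards [hI.mem_nhds ht] with τ hτ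
  rw [← toH_Pc, ((h.sb hτ).HR a).Pc]; rfl

end real

end Crest.Agent.N207.J
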