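import Crest.Agent.N207.J.Re2

/-! # N207/J/Re3 (helper72): from mode bounds to `C^N` functions on annuli -/

set_option autoImplicit false
set_option maxHeartbeats 400000
open MeasureTheory Metric Topology Filter
open Crest.Agent.R246.Zon797
open scoped InnerProductSpace

noncomputable section

namespace Crest.Agent.N207.J

/-- the annulus over a set of `log`-radii -/
def An (I : Set ℝ) : Set E4 := {x | x ≠ 0 ∧ Real.log ‖x‖ ∈ I}

theorem An_mem_nhds {I : Set ℝ} (hI : IsOpen I) {x : E4} (hx : x ∈ An I) : An I ∈ 𝓝 x := by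
  filter_upwards [isOpen_ne.mem_nhds hx.1,
    (hasFDerivAt_logn hx.1).continuousAt.preimage_mem_nhds (hI.mem_nhds hx.2)] with y h1 h2
  exact ⟨h1, h2⟩

theorem isOpen_An {I : Set ℝ} (hI : IsOpen I) : IsOpen (An I) :=
  isOpen_iff_mem_nhds.2 fun _ hx => An_mem_nhds hI hx

theorem polar_mem_An {I : Set ℝ} {t : ℝ} (ht : t ∈ I) (ω : S3) :
    Real.exp t • (ω : E4) ∈ An I :=
  ⟨smul_S3_ne (Real.exp_pos t) ω, by rwa [norm_smul_S3 (Real.exp_pos t), Real.log_exp]⟩

theorem continuousOn_ann {I : Set ℝ} {u : ℝ → CS} (hu : ContinuousOn u I) :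
    ContinuousOn (ann u) (An I) := by
  intro x hx
  have h1 : ContinuousWithinAt (fun y : E4 => u (Real.log ‖y‖)) (An I) x :=
    ContinuousWithinAt.comp (f := fun y : E4 => Real.log ‖y‖) (hu _ hx.2)
      (hasFDerivAt_logn hx.1).continuousAt.continuousWithinAt fun _ hy => hy.2
  exact h1.eval (continuousAt_prj hx.1).continuousWithinAt

/-- `u j` is the `j`-th `t`-derivative, with `N - j` angular derivatives -/
structure Ch (I : Set ℝ) (N : ℕ) (M : ℝ) (u : ℕ → ℝ → CS) : Prop where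
  ub : ∀ j ≤ N, Ub I (N - j + 2) M (u j)
  cont : ∀ j ≤ N, ContinuousOn (u j) I
  der : ∀ j < N, ∀ t ∈ I, HasDerivAt (u j) (u (j + 1) t) t

variable {I : Set ℝ} {N : ℕ} {M : ℝ} {u : ℕ → ℝ → CS}

theorem Ch.of_modes (hI : IsOpen I) (ub : ∀ j ≤ N, Ub I (N - j + 2) M (u j))
    (cont : ∀ k, ContinuousOn (fun t => P k (toH (u N t))) I)
    (der : ∀ j < N, ∀ k, ∀ t ∈ I,
      HasDerivAt (fun t => P k (toH (u j t))) (P k (toH (u (j + 1) t))) t) : Ch I N M u := by
  have d : ∀ j < N, ∀ t ∈ I, HasDerivAt (u j) (u (j + 1) t) t := fun j hj t ht =>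
    (ub j hj.le).hasDerivAt' hI (ub (j + 1) hj) (der j hj) ht
  refine ⟨ub, fun j hj => ?_, d⟩
  rcases hj.lt_or_eq with hj | rfl
  · exact fun t ht => (d j hj t ht).continuousAt.continuousWithinAt
  · exact (ub j le_rfl).continuousOn cont

theorem Ch.mono (h : Ch I N M u) {N' : ℕ} {M' : ℝ} {I' : Set ℝ} (hN : N' ≤ N) (hM : M ≤ M')
    (hI : I' ⊆ I) : Ch I' N' M' u :=
  ⟨fun j hj => (h.ub j (hj.trans hN)).mono (by omega) hM hI,
    fun j hj => (h.cont j (hj.trans hN)).mono hI,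
    fun j hj t ht => h.der j (hj.trans_le hN) t (hI ht)⟩

theorem Ch.ub' (h : Ch I (N + 1) M u) {j : ℕ} (hj : j ≤ N) : Ub I (N - j + 3) M (u j) := by
  have := h.ub j (by omega)
  rwa [show N + 1 - j + 2 = N - j + 3 by omega] at this

theorem Ch.shift (h : Ch I (N + 1) M u) : Ch I N M fun j => u (j + 1) :=
  ⟨fun j hj => by simpa using h.ub (j + 1) (by omega), fun j hj => h.cont _ (by omega),
    fun j hj => h.der _ (by omega)⟩

theorem Ch.rot (hI : IsOpen I) (h : Ch I (N + 1) M u) (a : Pr 4) :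
    Ch I N M fun j t => R a (u j t) :=
  ⟨fun _ hj => (h.ub' hj).R a, fun j hj => (h.ub' hj).continuousOn_R (h.cont j (by omega)) a,
    fun j hj _ ht => (h.ub' hj.le).hasDerivAt_R hI (h.ub' hj) (h.der j (by omega)) a ht⟩

/-- the family of `r ∂_i` applied to `r^{-m} u` -/
def Dn (m : ℕ) (i : Fin 4) (u : ℕ → ℝ → CS) (j : ℕ) (t : ℝ) : CS :=
  xc i * (u (j + 1) t - (m : ℂ) • u j t) + gr (u j t) i

theorem Ch.dn (hI : IsOpen I) (h : Ch I (N + 1) M u) (m : ℕ) (i : Fin 4) :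
    Ch I N (2 ^ (N + 4) * (m + 7) * M) (Dn m i u) := by
  have hM := (h.ub 0 (by omega)).nonneg
  refine ⟨fun j hj => ?_, fun j hj => ?_, fun j hj t ht => ?_⟩
  · have h1 := (((h.shift.ub j hj).add (((h.ub' hj).le (m := N - j + 2) (by omega)).smul
      (-(m : ℂ)))).mul (xc_mem i) (norm_xc_le i)).add ((h.ub' hj).gr i)
    refine (h1.congr fun t _ => ?_).mono le_rfl ?_ subset_rfl
    · ext x; simp [Dn, sub_eq_add_neg]
    · have : (2 : ℝ) ^ (N - j + 4) ≤ 2 ^ (N + 4) := pow_le_pow_right₀ one_le_two (by omega)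
      simp only [norm_neg, Complex.norm_natCast]
      have h2 : 0 ≤ ((m : ℝ) + 7) * M := by positivity
      nlinarith [mul_le_mul_of_nonneg_right this h2]
  · refine (continuousOn_const.mul ((h.cont (j + 1) (by omega)).sub
      ((h.cont j (by omega)).const_smul (m : ℂ)))).add ?_
    exact continuousOn_finsetSum _ fun a _ => continuousOn_const.mul ((h.rot hI a).cont j hj)
  · refine (((h.der (j + 1) (by omega) t ht).sub
      ((h.der j (by omega) t ht).const_smul (m : ℂ))).const_mul (xc i)).add ?_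
    exact HasDerivAt.fun_sum fun a _ => ((h.rot hI a).der j hj t ht).const_mul (rx a i)

/-- `r^{-m} u` on the annulus -/
def annw (m : ℕ) (u : ℝ → CS) (x : E4) : ℂ := ((‖x‖⁻¹ ^ m : ℝ) : ℂ) * ann u x

theorem annw_zero (u : ℝ → CS) : annw 0 u = ann u := by funext x; simp [annw]

theorem Ch.hasFDerivAt_w (h : Ch I (N + 1) M u) (m : ℕ) {x : E4} (hx : x ∈ An I) :
    HasFDerivAt (annw m (u 0)) (cov fun i => annw (m + 1) (Dn m i u 0) x) x := by
  have h1 := hasFDerivAt_ann hx.1 (h.der 0 (by omega) _ hx.2) ((h.ub' (Nat.zero_le N)).sb hx.2).HG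
  have h2 := Complex.ofRealCLM.hasFDerivAt.comp x ((hasFDerivAt_invn hx.1).pow m)
  have hn : ((‖x‖ : ℝ) : ℂ) ≠ 0 := by exact_mod_cast norm_ne_zero_iff.2 hx.1
  refine (h2.mul h1).congr_fderiv (clm_ext fun i => ?_)
  cases m with
  | zero => simp [cov_ee, annw, ann, Dn]
  | succ m =>
    simp [cov_ee, annw, ann, Dn, prj_coe hx.1]
    field_simp
    ring

/-- `c ↦ c • dx i` -/
def sdx (i : Fin 4) : ℂ →L[ℝ] (E4 →L[ℝ] ℂ) :=
  (ContinuousLinearMap.compL ℝ E4 ℂ ℂ).flip (dx i) ∘L ContinuousLinearMap.mul ℝ ℂ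

theorem sdx_apply (i : Fin 4) (c : ℂ) : sdx i c = c • dx i := by ext h; simp [sdx]

theorem norm_sdx_le (i : Fin 4) : ‖sdx i‖ ≤ 1 :=
  ContinuousLinearMap.opNorm_le_bound _ zero_le_one fun c => by
    rw [sdx_apply, norm_smul, one_mul]
    exact mul_le_of_le_one_right (norm_nonneg _) (norm_dx_le i)

theorem cov_eq_sdx (c : Fin 4 → ℂ) : cov c = ∑ i, sdx i (c i) := by simp only [cov, sdx_apply]

theorem contDiffAt_cov {n : ℕ} {g : Fin 4 → E4 → ℂ} {x : E4} (hg : ∀ i, ContDiffAt ℝ n (g i) x) :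
    ContDiffAt ℝ n (fun y => cov fun i => g i y) x := by
  simp only [cov_eq_sdx]
  exact ContDiffAt.sum fun i _ => (sdx i).contDiff.contDiffAt.comp x (hg i)

theorem norm_iteratedFDeriv_cov_le {n : ℕ} {g : Fin 4 → E4 → ℂ} {x : E4}
    (hg : ∀ i, ContDiffAt ℝ n (g i) x) :
    ‖iteratedFDeriv ℝ n (fun y => cov fun i => g i y) x‖ ≤ ∑ i, ‖iteratedFDeriv ℝ n (g i) x‖ := by
  simp only [cov_eq_sdx]
  rw [iteratedFDeriv_fun_sum_apply (f := fun i y => sdx i (g i y))
    fun i _ => (sdx i).contDiff.contDiffAt.comp x (hg i)]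
  refine norm_sum_le_of_le _ fun i _ => ((sdx i).norm_iteratedFDeriv_comp_left (hg i) le_rfl).trans ?_
  exact mul_le_of_le_one_left (norm_nonneg _) (norm_sdx_le i)

theorem Ch.contDiffAt_w (hI : IsOpen I) (h : Ch I N M u) (m : ℕ) {x : E4} (hx : x ∈ An I) :
    ContDiffAt ℝ N (annw m (u 0)) x := by
  induction N generalizing m M u with
  | zero =>
    refine (contDiffOn_zero.2 ?_).contDiffAt (An_mem_nhds hI hx)
    refine ContinuousOn.mul (fun y hy => ?_) (continuousOn_ann (h.cont 0 le_rfl))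
    exact (Complex.continuous_ofReal.continuousAt.comp
      ((hasFDerivAt_invn hy.1).continuousAt.pow m)).continuousWithinAt
  | succ N ih =>
    rw [Nat.cast_succ, contDiffAt_succ_iff_hasFDerivAt]
    exact ⟨_, ⟨_, An_mem_nhds hI hx, fun y hy => h.hasFDerivAt_w m hy⟩,
      contDiffAt_cov fun i => ih (h.dn hI m i) (m + 1)⟩

/-- constants of the `C^N` bound -/
def cB : ℕ → ℕ → ℝ
  | 0, _ => 1
  | N + 1, m => 4 * cB N (m + 1) * (2 ^ (N + 4) * (m + 7))

theorem cB_pos (N m : ℕ) : 0 < cB N m := by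
  induction N generalizing m with
  | zero => exact one_pos
  | succ N ih => have := ih (m + 1); unfold cB; positivity

theorem Ch.bound_w (hI : IsOpen I) (h : Ch I N M u) (m : ℕ) {x : E4} (hx : x ∈ An I) :
    ‖x‖ ^ (m + N) * ‖iteratedFDeriv ℝ N (annw m (u 0)) x‖ ≤ cB N m * M := by
  have hn := norm_pos_iff.2 hx.1
  induction N generalizing m M u with
  | zero =>
    rw [norm_iteratedFDeriv_zero, annw, norm_mul, Complex.norm_real,
      Real.norm_of_nonneg (by positivity), add_zero, ← mul_assoc, ← mul_pow,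
      mul_inv_cancel₀ hn.ne', one_pow, cB]
    exact mul_le_mul_of_nonneg_left (((u 0 _).norm_coe_le_norm _).trans
      ((h.ub 0 le_rfl).norm_le hx.2)) zero_le_one
  | succ N ih =>
    have e : fderiv ℝ (annw m (u 0)) =ᶠ[𝓝 x] fun y => cov fun i => annw (m + 1) (Dn m i u 0) y := by
      filter_upwards [An_mem_nhds hI hx] with y hy using (h.hasFDerivAt_w m hy).fderiv
    rw [← norm_iteratedFDeriv_fderiv, (e.iteratedFDeriv ℝ N).eq_of_nhds]
    refine (mul_le_mul_of_nonneg_left (norm_iteratedFDeriv_cov_le fun i =>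
      (h.dn hI m i).contDiffAt_w hI (m + 1) hx) (by positivity)).trans ?_
    rw [Finset.mul_sum, show m + (N + 1) = m + 1 + N by ring]
    refine (Finset.sum_le_sum fun i _ => ih (h.dn hI m i) (m + 1)).trans (le_of_eq ?_)
    simp [cB]; ring

/-- **bridge**: smoothness -/
theorem Ch.contDiffOn (hI : IsOpen I) (h : Ch I N M u) : ContDiffOn ℝ N (ann (u 0)) (An I) :=
  fun _ hx => (annw_zero (u 0) ▸ h.contDiffAt_w hI 0 hx).contDiffWithinAt

/-- **bridge**: scale invariant bounds -/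
theorem Ch.bound (hI : IsOpen I) (h : Ch I N M u) {j : ℕ} (hj : j ≤ N) {x : E4} (hx : x ∈ An I) :
    ‖x‖ ^ j * ‖iteratedFDeriv ℝ j (ann (u 0)) x‖ ≤ cB j 0 * M := by
  have := (h.mono hj le_rfl subset_rfl).bound_w hI 0 hx
  rwa [zero_add, annw_zero] at this

/-! ### first and second jets -/

/-- `r ∂_i U` -/
def J1 (i : Fin 4) (u u' : CS) : CS := xc i * u' + gr u i

/-- `r² ∂_l ∂_i U` -/
def J2 (l i : Fin 4) (u u' u'' : CS) : CS :=
  xc l * (J1 i u' u'' - J1 i u u') + gr (J1 i u u') l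

theorem Dn_zero (i : Fin 4) (j : ℕ) (t : ℝ) : Dn 0 i u j t = J1 i (u j t) (u (j + 1) t) := by
  ext x; simp [Dn, J1]

theorem Ch.jet1 (h : Ch I (N + 1) M u) {x : E4} (hx : x ∈ An I) (i : Fin 4) :
    ((‖x‖ : ℝ) : ℂ) * fderiv ℝ (ann (u 0)) x (ee i)
      = J1 i (u 0 (Real.log ‖x‖)) (u 1 (Real.log ‖x‖)) (prj x) := by
  have hn : ((‖x‖ : ℝ) : ℂ) ≠ 0 := by exact_mod_cast norm_ne_zero_iff.2 hx.1
  rw [← annw_zero, (h.hasFDerivAt_w 0 hx).fderiv, cov_ee, annw, ann, Dn_zero]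
  push_cast
  field_simp

theorem Ch.jet2 (hI : IsOpen I) (h : Ch I (N + 2) M u) {x : E4} (hx : x ∈ An I) (l i : Fin 4) :
    ((‖x‖ : ℝ) : ℂ) ^ 2 * fderiv ℝ (fun y => fderiv ℝ (ann (u 0)) y (ee i)) x (ee l)
      = J2 l i (u 0 (Real.log ‖x‖)) (u 1 (Real.log ‖x‖)) (u 2 (Real.log ‖x‖)) (prj x) := by
  have hn : ((‖x‖ : ℝ) : ℂ) ≠ 0 := by exact_mod_cast norm_ne_zero_iff.2 hx.1
  have e : (fun y => fderiv ℝ (ann (u 0)) y (ee i)) =ᶠ[𝓝 x] annw 1 (Dn 0 i u 0) := by
    filter_upwards [An_mem_nhds hI hx] with y hy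
    rw [← annw_zero, (h.hasFDerivAt_w 0 hy).fderiv, cov_ee]
  rw [e.fderiv_eq, ((h.dn hI 0 i).hasFDerivAt_w 1 hx).fderiv, cov_ee, annw, ann]
  have : ∀ t, Dn 1 l (Dn 0 i u) 0 t = J2 l i (u 0 t) (u 1 t) (u 2 t) := fun t => by
    ext y; simp [J2, Dn_zero, show Dn 1 l (Dn 0 i u) 0 t = xc l * (Dn 0 i u 1 t -
      ((1 : ℕ) : ℂ) • Dn 0 i u 0 t) + gr (Dn 0 i u 0 t) l from rfl]
  rw [this]
  push_cast
  field_simp

/-- trace of the second jet -/
theorem sum_J2 {n n' : ℕ} {u u' : CS} (u'' : CS) (hu : Sb (n + 4) u) (hu' : Sb (n' + 3) u') :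
    ∑ i, J2 i i u u' u'' = u'' + 2 * u' + Lap u := by
  have hR : ∀ a b, HR a (R b u) (R a (R b u)) := fun a b => (Sb.R (n := n + 1) hu b).HR a
  have hu3 : Sb (n + 1 + 3) u := hu
  -- rotation derivatives of the gradient
  have hg : ∀ a i, HR a (gr u i) (R a (gr u i)) := fun a i => by
    have := HR.sum (s := Finset.univ) fun b _ => (HR_R a (rx_mem b i)).mul (hR a b)
    exact this.R_eq ▸ this
  have e1 : ∀ a i, R a (J1 i u u') = rx a i * u' + xc i * R a u' + R a (gr u i) := fun a i =>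
    (((HR.xc a i).mul (hu'.HR a)).add (hg a i)).R_eq
  have e2 : ∀ a, R a u = ∑ i, rx a i * gr u i := fun a => (hu3.HG.HR a).R_eq
  have e3 : ∀ a, R a (R a u) = ∑ i, (R a (rx a i) * gr u i + rx a i * R a (gr u i)) := fun a => by
    rw [e2 a]
    exact (HR.sum fun i _ => (HR_R a (rx_mem a i)).mul (hg a i)).R_eq
  have e4 : Lap u = ∑ i, ∑ a, rx a i * R a (gr u i) := by
    unfold Lap
    simp only [e3, Finset.sum_add_distrib]
    rw [Finset.sum_comm, Finset.sum_comm (s := Finset.univ) (t := Finset.univ)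
      (f := fun a i => rx a i * R a (gr u i))]
    simp only [← Finset.sum_mul, lap_xc, mul_assoc, ← Finset.mul_sum, sum_xc_gr]
    simp
  have e5 : ∀ i, gr (J1 i u u') i = (1 - xc i * xc i) * u' + xc i * gr u' i +
      ∑ a, rx a i * R a (gr u i) := fun i => by
    have := gam_xc i i
    rw [if_pos rfl] at this
    rw [← this, gr, gr, Finset.sum_mul, Finset.mul_sum, ← Finset.sum_add_distrib,
      ← Finset.sum_add_distrib]
    exact Finset.sum_congr rfl fun a _ => by rw [e1]; ring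
  have s1 := sum_xc_gr u
  have s2 := sum_xc_gr u'
  have s3 := sum_xc_sq
  simp only [J2, e5, e4]
  simp only [J1, Fin.sum_univ_four] at s1 s2 s3 ⊢
  linear_combination (u'' - 2 * u') * s3 + 2 * s2 - s1

end Crest.Agent.N207.J
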