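import Crest.Agent.N207.J.Re3

/-! # N207/J/Re4 (helper72): restriction to spheres; polar Laplacian; mode equation -/

set_option autoImplicit false
set_option maxHeartbeats 400000
open MeasureTheory Metric Topology Filter Asymptotics
open Crest.Agent.R246.Zon797
open scoped InnerProductSpace

noncomputable section

namespace Crest.Agent.N207.J

/-- restriction of `U` to the sphere of radius `e^t` -/
def rst (U : E4 → ℂ) (t : ℝ) : CS := ContinuousMap.mkD (fun ω : S3 => U (Real.exp t • (ω : E4))) 0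

variable {U : E4 → ℂ} {I : Set ℝ}

theorem rst_apply' {t : ℝ} (h : ∀ ω : S3, ContinuousAt U (Real.exp t • (ω : E4))) (ω : S3) :
    rst U t ω = U (Real.exp t • (ω : E4)) :=
  ContinuousMap.mkD_apply_of_continuous (continuous_iff_continuousAt.2 fun ω =>
    ContinuousAt.comp (f := fun ω : S3 => Real.exp t • (ω : E4)) (h ω) (by fun_prop))

theorem rst_apply (h : ContinuousOn U (An I)) {t : ℝ} (ht : t ∈ I) (ω : S3) :
    rst U t ω = U (Real.exp t • (ω : E4)) :=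
  ContinuousMap.mkD_apply_of_continuous
    (h.comp_continuous (by fun_prop) fun ω => polar_mem_An ht ω)

theorem continuousOn_rst (h : ContinuousOn U (An I)) : ContinuousOn (rst U) I :=
  ContinuousMap.continuousOn_mkD_of_uncurry _ _
    (h.comp (f := fun p : ℝ × S3 => Real.exp p.1 • (p.2 : E4)) (by fun_prop)
      fun p hp => polar_mem_An hp.1 p.2)

theorem ann_rst (h : ContinuousOn U (An I)) {x : E4} (hx : x ∈ An I) : ann (rst U) x = U x := by
  rw [ann, rst_apply h hx.2, exp_log_smul_prj hx.1]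

theorem rst_ann (u : ℝ → CS) (t : ℝ) : rst (ann u) t = u t := by
  unfold rst
  simp only [ann_polar]
  exact ContinuousMap.mkD_eq_self

theorem rst_congr {U' : E4 → ℂ} {t : ℝ}
    (h : ∀ ω : S3, U (Real.exp t • (ω : E4)) = U' (Real.exp t • (ω : E4))) :
    rst U t = rst U' t := by
  unfold rst; simp only [h]

theorem norm_rst_le {t M : ℝ} (hM : 0 ≤ M) (h : ∀ ω : S3, ‖U (Real.exp t • (ω : E4))‖ ≤ M) :
    ‖rst U t‖ ≤ M := by
  refine (ContinuousMap.norm_le _ hM).2 fun ω => ?_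
  by_cases hc : Continuous fun ω : S3 => U (Real.exp t • (ω : E4))
  · rw [rst, ContinuousMap.mkD_apply_of_continuous hc]; exact h ω
  · rw [rst, ContinuousMap.mkD_of_not_continuous hc]; simpa using hM

/-- pointwise derivatives with a continuous derivative are derivatives in `C(S³)` -/
theorem hasDerivAt_CS (hI : IsOpen I) {u u' : ℝ → CS}
    (h : ∀ τ ∈ I, ∀ ω, HasDerivAt (fun τ => u τ ω) (u' τ ω) τ) {t : ℝ} (ht : t ∈ I)
    (hc : ContinuousAt u' t) : HasDerivAt u (u' t) t := by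
  rw [hasDerivAt_iff_isLittleO, isLittleO_iff]
  intro ε hε
  obtain ⟨δ, hδ, hb⟩ := Metric.mem_nhds_iff.1 (Filter.inter_mem (hI.mem_nhds ht)
    (hc.eventually (closedBall_mem_nhds (u' t) hε)))
  filter_upwards [ball_mem_nhds t hδ] with τ hτ
  refine (ContinuousMap.norm_le _ (by positivity)).2 fun ω => ?_
  have := (convex_ball t δ).norm_image_sub_le_of_norm_hasDerivWithin_le
    (f := fun σ => u σ ω - σ • u' t ω) (f' := fun σ => u' σ ω - u' t ω) (C := ε)
    (fun σ hσ => ((h σ (hb hσ).1 ω).sub (by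
      simpa using (hasDerivAt_id σ).smul_const (u' t ω))).hasDerivWithinAt)
    (fun σ hσ => ((u' σ - u' t).norm_coe_le_norm ω).trans (mem_closedBall_iff_norm.1 (hb hσ).2))
    (mem_ball_self hδ) hτ
  refine le_trans (le_of_eq ?_) this
  congr 1
  simp [sub_smul]; ring

/-- derivative along a linear vector field -/
def Du (A : E4 →L[ℝ] E4) (U : E4 → ℂ) (x : E4) : ℂ := fderiv ℝ U x (A x)

/-- the Euler operator `r ∂_r` -/
abbrev Eu (U : E4 → ℂ) : E4 → ℂ := Du (ContinuousLinearMap.id ℝ E4) U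

theorem contDiffAt_Du {n : ℕ} (A : E4 →L[ℝ] E4) {x : E4} (h : ContDiffAt ℝ (n + 1 : ℕ) U x) :
    ContDiffAt ℝ n (Du A U) x :=
  (h.fderiv_right (by norm_cast)).clm_apply A.contDiff.contDiffAt

theorem contDiffOn_Du (hI : IsOpen I) {n : ℕ} (A : E4 →L[ℝ] E4)
    (h : ContDiffOn ℝ (n + 1 : ℕ) U (An I)) : ContDiffOn ℝ n (Du A U) (An I) := fun _ hx =>
  (contDiffAt_Du A (h.contDiffAt (An_mem_nhds hI hx))).contDiffWithinAt

theorem hasDerivAt_rst (hI : IsOpen I) {n : ℕ} (h : ContDiffOn ℝ (n + 1 : ℕ) U (An I)) {t : ℝ}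
    (ht : t ∈ I) : HasDerivAt (rst U) (rst (Eu U) t) t := by
  have hc := (contDiffOn_Du hI (ContinuousLinearMap.id ℝ E4) h).continuousOn
  refine hasDerivAt_CS hI (fun τ hτ ω => ?_) ht
    ((continuousOn_rst hc).continuousAt (hI.mem_nhds ht))
  have h1 := ((h.contDiffAt (An_mem_nhds hI (polar_mem_An hτ ω))).differentiableAt
    (by simp)).hasFDerivAt.comp_hasDerivAt τ ((Real.hasDerivAt_exp τ).smul_const (ω : E4))
  rw [rst_apply hc hτ]
  refine h1.congr_of_eventuallyEq ?_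
  filter_upwards [hI.mem_nhds hτ] with σ hσ
  exact rst_apply h.continuousOn hσ ω

theorem rotV_smul (a : Pr 4) (θ r : ℝ) (x : E4) :
    rotV a.1.1 a.1.2 θ (r • x) = r • rotV a.1.1 a.1.2 θ x := (rotE a θ).map_smul r x

theorem HR_rst {n : ℕ} {t : ℝ}
    (h : ∀ ω : S3, ContDiffAt ℝ (n + 1 : ℕ) U (Real.exp t • (ω : E4))) (a : Pr 4) :
    HR a (rst U t) (rst (Du (Xv a) U) t) := by
  intro ω
  rw [rst_apply' fun ω => (contDiffAt_Du _ (h ω)).continuousAt]
  have := hasDerivAt_comp_rot a ((h ω).differentiableAt (by simp)).hasFDerivAt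
  refine this.congr_of_eventuallyEq (Eventually.of_forall fun θ => ?_)
  show rst U t _ = U (rotV _ _ _ _)
  rw [rst_apply' fun ω => (h ω).continuousAt, rotS_coe, rotV_smul]

/-- `r² Δ U` -/
def Lp2 (U : E4 → ℂ) (x : E4) : ℂ :=
  ((‖x‖ : ℝ) : ℂ) ^ 2 * ∑ i, fderiv ℝ (fun y => fderiv ℝ U y (ee i)) x (ee i)

theorem fderiv_fderiv_apply {x : E4} (h : ContDiffAt ℝ (2 : ℕ) U x) (v w : E4) :
    fderiv ℝ (fun y => fderiv ℝ U y v) x w = fderiv ℝ (fderiv ℝ U) x w v := by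
  have h1 := ((h.fderiv_right (m := 1) (by norm_cast)).differentiableAt (by simp)).hasFDerivAt
  rw [(h1.clm_apply (hasFDerivAt_const v x)).fderiv]
  simp

theorem Du_Du {x : E4} (h : ContDiffAt ℝ (2 : ℕ) U x) (A B : E4 →L[ℝ] E4) :
    Du A (Du B U) x = fderiv ℝ (fderiv ℝ U) x (A x) (B x) + fderiv ℝ U x (B (A x)) := by
  have h1 := ((h.fderiv_right (m := 1) (by norm_cast)).differentiableAt (by simp)).hasFDerivAt
  show fderiv ℝ (fun y => fderiv ℝ U y (B y)) x (A x) = _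
  rw [(h1.clm_apply B.hasFDerivAt).fderiv]
  simp [add_comm]

theorem sum_Xv_Xv (x : E4) : ∑ a, Xv a (Xv a x) = (-3 : ℝ) • x := by
  rw [sum_Pr4]
  ext i
  fin_cases i <;> simp [Xv] <;> ring

theorem bil_frame (B : E4 →L[ℝ] E4 →L[ℝ] ℂ) (x : E4) :
    B x x + ∑ a, B (Xv a x) (Xv a x) = ((‖x‖ : ℝ) : ℂ) ^ 2 * ∑ i, B (ee i) (ee i) := by
  have e : ∀ v w : E4, B v w = ∑ i, ∑ j, ((v i : ℝ) : ℂ) * ((w j : ℝ) : ℂ) * B (ee i) (ee j) := by
    intro v w
    have h1 : B v w = B.flip w v := rfl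
    rw [h1, eq_cov (B.flip w), cov_apply]
    refine Finset.sum_congr rfl fun i _ => ?_
    rw [ContinuousLinearMap.flip_apply, eq_cov (B (ee i)), cov_apply, Finset.sum_mul]
    refine Finset.sum_congr rfl fun j _ => ?_
    rw [cov_ee]; ring
  have hn : ((‖x‖ : ℝ) : ℂ) ^ 2 = ∑ i, ((x i : ℝ) : ℂ) ^ 2 := by
    have := EuclideanSpace.real_norm_sq_eq x
    exact_mod_cast this
  rw [hn, e x x, sum_Pr4]
  simp only [e (Xv _ x) (Xv _ x), Fin.sum_univ_four]
  simp [Xv]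
  ring

/-- the Laplacian in polar coordinates -/
theorem polar_lap {x : E4} (h : ContDiffAt ℝ (2 : ℕ) U x) :
    Eu (Eu U) x + 2 * Eu U x + ∑ a, Du (Xv a) (Du (Xv a) U) x = Lp2 U x := by
  simp only [Du_Du h, Lp2, fderiv_fderiv_apply h, Finset.sum_add_distrib, ← map_sum, sum_Xv_Xv,
    ← bil_frame, ContinuousLinearMap.id_apply, map_smul, Complex.real_smul]
  simp only [Du, ContinuousLinearMap.id_apply]
  push_cast
  ring

theorem continuousAt_Lp2 {x : E4} (h : ContDiffAt ℝ (2 : ℕ) U x) : ContinuousAt (Lp2 U) x := by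
  refine ContinuousAt.mul (by fun_prop) (tendsto_finsetSum _ fun i _ => ?_)
  have h1 : ContDiffAt ℝ (1 : ℕ) (fun y => fderiv ℝ U y (ee i)) x :=
    (h.fderiv_right (by norm_cast)).clm_apply contDiffAt_const
  exact ((h1.fderiv_right (m := 0) (by norm_cast)).clm_apply contDiffAt_const).continuousAt

theorem P_sum_HR {u : CS} {v vv : Pr 4 → CS} (h : ∀ a, HR a u (v a)) (h' : ∀ a, HR a (v a) (vv a))
    (k : ℕ) : P k (toH (∑ a, vv a)) = -(((k * (k + 2) : ℕ) : ℂ) • P k (toH u)) := by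
  rw [← toH_Pc, ← toH_Pc, ← map_smul, ← map_neg, ← lap_Pc, map_sum, map_sum]
  congr 1
  exact Finset.sum_congr rfl fun a _ => by rw [(h' a).Pc, (h a).Pc]

/-- **mode equation** `u'' + 2 u' - k(k+2) u = P_k (r² Δ U)` -/
theorem mode_eq {t : ℝ} (h : ∀ ω : S3, ContDiffAt ℝ (2 : ℕ) U (Real.exp t • (ω : E4))) (k : ℕ) :
    P k (toH (rst (Eu (Eu U)) t)) + (2 : ℂ) • P k (toH (rst (Eu U) t))
      - ((k * (k + 2) : ℕ) : ℂ) • P k (toH (rst U t)) = P k (toH (rst (Lp2 U) t)) := by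
  have h1 : ∀ A (ω : S3), ContDiffAt ℝ (0 + 1 : ℕ) (Du A U) (Real.exp t • (ω : E4)) := fun A ω =>
    contDiffAt_Du A (h ω)
  have c1 := fun A ω => (h1 A ω).continuousAt
  have c2 := fun A B ω => (contDiffAt_Du B (h1 A ω)).continuousAt
  have e : rst (Lp2 U) t = rst (Eu (Eu U)) t + (2 : ℂ) • rst (Eu U) t +
      ∑ a, rst (Du (Xv a) (Du (Xv a) U)) t := by
    ext ω
    simp only [ContinuousMap.add_apply, ContinuousMap.smul_apply, ContinuousMap.coe_sum,
      Finset.sum_apply, rst_apply' (c1 _), rst_apply' (c2 _ _),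
      rst_apply' fun ω => continuousAt_Lp2 (h ω), smul_eq_mul]
    exact (polar_lap (h ω)).symm
  rw [e, map_add, map_add, map_add, map_add, map_smul, map_smul,
    P_sum_HR (fun a => HR_rst (n := 1) h a) (fun a => HR_rst (h1 _) a), sub_eq_add_neg]

/-! ### mode bounds from `C^N` bounds -/

/-- scale invariant `C^N` bound at a point -/
def PB (N : ℕ) (U : E4 → ℂ) (x : E4) (M : ℝ) : Prop :=
  ContDiffAt ℝ N U x ∧ ∀ j ≤ N, ‖x‖ ^ j * ‖iteratedFDeriv ℝ j U x‖ ≤ M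

theorem PB.mono {N N' : ℕ} {x : E4} {M M' : ℝ} (h : PB N U x M) (hN : N' ≤ N) (hM : M ≤ M') :
    PB N' U x M' :=
  ⟨h.1.of_le (by exact_mod_cast hN), fun j hj => (h.2 j (hj.trans hN)).trans hM⟩

theorem PB.norm_le {N : ℕ} {x : E4} {M : ℝ} (h : PB N U x M) : ‖U x‖ ≤ M := by
  simpa using h.2 0 (Nat.zero_le N)

theorem PB.nonneg {N : ℕ} {x : E4} {M : ℝ} (h : PB N U x M) : 0 ≤ M :=
  (norm_nonneg _).trans h.norm_le

theorem lin_iter_le (A : E4 →L[ℝ] E4) (hA : ‖A‖ ≤ 1) (m : ℕ) (x : E4) :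
    ‖x‖ ^ m * ‖iteratedFDeriv ℝ m A x‖ ≤ ‖x‖ := by
  match m with
  | 0 => simpa using (A.le_opNorm x).trans (mul_le_of_le_one_left (norm_nonneg _) hA)
  | 1 =>
    rw [← norm_iteratedFDeriv_fderiv, norm_iteratedFDeriv_zero, A.fderiv, pow_one]
    exact mul_le_of_le_one_right (norm_nonneg _) hA
  | m + 2 =>
    rw [← norm_iteratedFDeriv_fderiv]
    have : fderiv ℝ A = fun _ => A := funext fun _ => A.fderiv
    rw [this, iteratedFDeriv_succ_const]
    simp

theorem PB.du {N : ℕ} {x : E4} {M : ℝ} (h : PB (N + 1) U x M) (A : E4 →L[ℝ] E4) (hA : ‖A‖ ≤ 1) :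
    PB N (Du A U) x (2 ^ N * M) := by
  refine ⟨contDiffAt_Du A h.1, fun j hj => ?_⟩
  have h1 : ContDiffAt ℝ N (fderiv ℝ U) x := h.1.fderiv_right (by norm_cast)
  obtain ⟨s, hs, h2⟩ := h1.contDiffOn le_rfl (by simp)
  obtain ⟨s', hs', ho, hx⟩ := _root_.mem_nhds_iff.1 hs
  have h3 := norm_iteratedFDerivWithin_clm_apply (h2.mono hs') (A.contDiff.contDiffOn (s := s'))
    ho.uniqueDiffOn hx (n := j) (by exact_mod_cast hj)
  simp only [iteratedFDerivWithin_of_isOpen _ ho hx, norm_iteratedFDeriv_fderiv] at h3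
  refine (mul_le_mul_of_nonneg_left h3 (by positivity)).trans ?_
  rw [Finset.mul_sum]
  have h4 : ∀ i ∈ Finset.range (j + 1), ‖x‖ ^ j * ((j.choose i : ℝ) *
      ‖iteratedFDeriv ℝ (i + 1) U x‖ * ‖iteratedFDeriv ℝ (j - i) A x‖) ≤ j.choose i * M := by
    intro i hi
    have hi' : i ≤ j := Nat.lt_succ_iff.1 (Finset.mem_range.1 hi)
    have e : ‖x‖ ^ j = ‖x‖ ^ i * ‖x‖ ^ (j - i) := by rw [← pow_add, Nat.add_sub_cancel' hi']
    have k1 := lin_iter_le A hA (j - i) x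
    have k2 := h.2 (i + 1) (by omega)
    calc _ = j.choose i * (‖x‖ ^ i * ‖iteratedFDeriv ℝ (i + 1) U x‖ *
          (‖x‖ ^ (j - i) * ‖iteratedFDeriv ℝ (j - i) A x‖)) := by rw [e]; ring
      _ ≤ j.choose i * (‖x‖ ^ i * ‖iteratedFDeriv ℝ (i + 1) U x‖ * ‖x‖) := by gcongr
      _ ≤ _ := by
        refine mul_le_mul_of_nonneg_left (le_trans (le_of_eq ?_) k2) (by positivity)
        ring
  refine (Finset.sum_le_sum h4).trans ?_
  rw [← Finset.sum_mul, ← Nat.cast_sum, Nat.sum_range_choose]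
  push_cast
  exact mul_le_mul_of_nonneg_right (pow_le_pow_right₀ one_le_two hj) h.nonneg

theorem norm_Xv_le (a : Pr 4) : ‖Xv a‖ ≤ 1 := by
  refine ContinuousLinearMap.opNorm_le_bound _ zero_le_one fun x => ?_
  rw [one_mul]
  refine (sq_le_sq₀ (norm_nonneg _) (norm_nonneg _)).1 ?_
  rw [EuclideanSpace.real_norm_sq_eq, EuclideanSpace.real_norm_sq_eq]
  obtain ⟨⟨i, j⟩, h⟩ := a
  fin_cases i <;> fin_cases j <;> simp at h <;> simp [Xv, Fin.sum_univ_four] <;>
    nlinarith [sq_nonneg (x 0), sq_nonneg (x 1), sq_nonneg (x 2), sq_nonneg (x 3)]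

/-- constants of the mode bound -/
def cM : ℕ → ℝ
  | 0 => 5
  | N + 1 => 3 * 2 ^ N * cM N

theorem cM_pos (N : ℕ) : 0 < cM N := by
  induction N with
  | zero => norm_num [cM]
  | succ N ih => unfold cM; positivity

theorem cM_mono : Monotone cM := monotone_nat_of_le_succ fun N => by
  have := cM_pos N
  have h : (1 : ℝ) ≤ 2 ^ N := one_le_pow₀ one_le_two
  show cM N ≤ 3 * 2 ^ N * cM N
  nlinarith

/-- **mode bound** -/
theorem mode_le {N : ℕ} {t M : ℝ} (h : ∀ ω : S3, PB N U (Real.exp t • (ω : E4)) M) (k : ℕ) :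
    ((k : ℝ) + 1) ^ N * ‖P k (toH (rst U t))‖ ≤ cM N * M := by
  have hM := (h (prj 0)).nonneg
  induction N generalizing U M with
  | zero =>
    rw [pow_zero, one_mul]
    exact (norm_P_le k _).trans ((norm_toH_le _).trans
      (mul_le_mul_of_nonneg_left (norm_rst_le hM fun ω => (h ω).norm_le) (by norm_num)))
  | succ N ih =>
    have h1 := ih (fun ω => (h ω).mono (Nat.le_succ N) le_rfl) hM
    have h2 := fun a => ih (fun ω => (h ω).du (Xv a) (norm_Xv_le a)) (by positivity)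
    have h3 := sum_norm_P_HR (fun a => HR_rst (fun ω => (h ω).1) a) k
    have hc := cM_pos N
    have h4 : cM N * M ≤ cM N * (2 ^ N * M) :=
      mul_le_mul_of_nonneg_left (le_mul_of_one_le_left hM (one_le_pow₀ one_le_two)) hc.le
    refine (sq_le_sq₀ (by positivity) (by have := cM_pos (N + 1); positivity)).1 ?_
    have h5 : ∑ a, (((k : ℝ) + 1) ^ N * ‖P k (toH (rst (Du (Xv a) U) t))‖) ^ 2
        ≤ ∑ _a : Pr 4, (cM N * (2 ^ N * M)) ^ 2 :=
      Finset.sum_le_sum fun a _ => pow_le_pow_left₀ (by positivity) (h2 a) 2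
    have e : Fintype.card (Pr 4) = 6 := by decide
    simp only [mul_pow _ ‖_‖, ← Finset.mul_sum, h3, Finset.sum_const, Finset.card_univ, e,
      nsmul_eq_mul] at h5
    have h6 := pow_le_pow_left₀ (by positivity) (h1.trans h4) 2
    have e2 : (((k : ℝ) + 1) ^ (N + 1) * ‖P k (toH (rst U t))‖) ^ 2 =
        (((k : ℝ) + 1) ^ N) ^ 2 * ((k * (k + 2) : ℝ) * ‖P k (toH (rst U t))‖ ^ 2) +
        (((k : ℝ) + 1) ^ N * ‖P k (toH (rst U t))‖) ^ 2 := by ring
    have e3 : (cM (N + 1) * M) ^ 2 = 9 * (cM N * (2 ^ N * M)) ^ 2 := by simp only [cM]; ring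
    rw [e2, e3]
    push_cast at h5
    nlinarith [sq_nonneg (cM N * (2 ^ N * M))]

end Crest.Agent.N207.J
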