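import Mathlib
import Crest.Agent.R246.Zon0_797

/-! # N207/J/Sph1 (helper72): polynomial functions on `S³`, rotation derivatives, Laplacian -/

set_option autoImplicit false
set_option maxHeartbeats 400000
open MeasureTheory Metric Topology Filter
open Crest.Agent.R246.Zon797

noncomputable section

namespace Crest.Agent.N207.J

abbrev E4 := EuclideanSpace ℝ (Fin 4)
abbrev S3 := SS 4
abbrev sg : Measure S3 := sig 4
abbrev CS := C(S3, ℂ)

/-- coordinate functions -/
def xc (i : Fin 4) : CS := ⟨fun x => (((x : E4) i : ℝ) : ℂ), by fun_prop⟩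

@[simp] theorem xc_apply (i : Fin 4) (x : S3) : xc i x = (((x : E4) i : ℝ) : ℂ) := rfl

theorem sum_xc_sq : ∑ i, xc i * xc i = 1 := by
  ext x
  have h : ‖(x : E4)‖ = 1 := by simp
  have h2 := EuclideanSpace.norm_sq_eq (x : E4)
  rw [h] at h2
  simp only [ContinuousMap.coe_sum, Finset.sum_apply, ContinuousMap.mul_apply, xc_apply,
    ContinuousMap.one_apply]
  have : ∑ i, (x : E4) i * (x : E4) i = 1 := by
    rw [show (1 : ℝ) = 1 ^ 2 by norm_num, h2]
    refine Finset.sum_congr rfl fun i _ => ?_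
    rw [Real.norm_eq_abs, sq_abs, sq]
  exact_mod_cast this

theorem star_xc (i : Fin 4) : star (xc i) = xc i := by
  ext x; simp

/-- polynomial functions of degree `≤ k` -/
def V : ℕ → Submodule ℂ CS
  | 0 => Submodule.span ℂ {1}
  | k + 1 => V k ⊔ ⨆ i : Fin 4, (V k).map (LinearMap.mulLeft ℂ (xc i))

/-- `W 0 = ⊥`, `W (k+1) = V k` -/
def W : ℕ → Submodule ℂ CS
  | 0 => ⊥
  | k + 1 => V k

theorem V_le_succ (k : ℕ) : V k ≤ V (k + 1) := le_sup_left

theorem V_mono : Monotone V := monotone_nat_of_le_succ V_le_succ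

theorem W_le_V (k : ℕ) : W k ≤ V k := by
  cases k with
  | zero => exact bot_le
  | succ k => exact V_le_succ k

theorem W_mono : Monotone W := monotone_nat_of_le_succ W_le_V

theorem one_mem_V (k : ℕ) : (1 : CS) ∈ V k :=
  V_mono (Nat.zero_le k) (Submodule.subset_span rfl)

theorem xc_mul_mem {k : ℕ} (i : Fin 4) {u : CS} (hu : u ∈ V k) : xc i * u ∈ V (k + 1) :=
  Submodule.mem_sup_right (Submodule.mem_iSup_of_mem i ⟨u, hu, rfl⟩)

theorem xc_mul_memW {k : ℕ} (i : Fin 4) {u : CS} (hu : u ∈ W k) : xc i * u ∈ W (k + 1) := by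
  cases k with
  | zero => rw [(Submodule.mem_bot ℂ).1 hu, mul_zero]; exact Submodule.zero_mem _
  | succ k => exact xc_mul_mem i hu

theorem xc_mem (i : Fin 4) : xc i ∈ V 1 := by
  simpa using xc_mul_mem i (one_mem_V 0)

/-- induction principle -/
theorem V_ind {p : ℕ → CS → Prop} (h1 : p 0 1) (h0 : ∀ k, p k 0)
    (hadd : ∀ k u v, u ∈ V k → v ∈ V k → p k u → p k v → p k (u + v))
    (hsm : ∀ k (c : ℂ) u, u ∈ V k → p k u → p k (c • u))
    (hup : ∀ k u, u ∈ V k → p k u → p (k + 1) u)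
    (hx : ∀ k i u, u ∈ V k → p k u → p (k + 1) (xc i * u)) :
    ∀ k u, u ∈ V k → p k u := by
  intro k
  induction k with
  | zero =>
    intro u hu
    obtain ⟨c, rfl⟩ := Submodule.mem_span_singleton.1 hu
    exact hsm 0 c 1 (one_mem_V 0) h1
  | succ k ih =>
    intro u hu
    obtain ⟨v, hv, w, hw, rfl⟩ := Submodule.mem_sup.1 hu
    have key : w ∈ V (k + 1) ∧ p (k + 1) w := by
      refine Submodule.iSup_induction (motive := fun w => w ∈ V (k + 1) ∧ p (k + 1) w) _ hw ?_
        ⟨Submodule.zero_mem _, h0 _⟩ ?_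
      · rintro i _ ⟨y, hy, rfl⟩
        exact ⟨xc_mul_mem i hy, hx k i y hy (ih y hy)⟩
      · intro x y hx hy
        exact ⟨Submodule.add_mem _ hx.1 hy.1, hadd _ _ _ hx.1 hy.1 hx.2 hy.2⟩
    exact hadd _ _ _ (V_le_succ k hv) key.1 (hup k v hv (ih v hv)) key.2

theorem mul_mem_V {j k : ℕ} {u v : CS} (hu : u ∈ V j) (hv : v ∈ V k) : u * v ∈ V (j + k) := by
  refine V_ind (p := fun j u => u * v ∈ V (j + k)) ?_ ?_ ?_ ?_ ?_ ?_ j u hu
  · simpa using hv
  · intro k; simp
  · intro j u w _ _ h1 h2; rw [add_mul]; exact Submodule.add_mem _ h1 h2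
  · intro j c u _ h; rw [smul_mul_assoc]; exact Submodule.smul_mem _ _ h
  · intro j u _ h; exact V_mono (by omega) h
  · intro j i u _ h
    rw [mul_assoc, show j + 1 + k = j + k + 1 by omega]; exact xc_mul_mem i h

theorem star_mem_V {k : ℕ} {u : CS} (hu : u ∈ V k) : star u ∈ V k := by
  refine V_ind (p := fun j u => star u ∈ V j) ?_ ?_ ?_ ?_ ?_ ?_ k u hu
  · simpa using one_mem_V 0
  · intro k; simp
  · intro j u w _ _ h1 h2; rw [star_add]; exact Submodule.add_mem _ h1 h2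
  · intro j c u _ h; rw [star_smul]; exact Submodule.smul_mem _ _ h
  · intro j u _ h; exact V_le_succ j h
  · intro j i u _ h; rw [star_mul', star_xc]; exact xc_mul_mem i h

/-- composition with an isometry -/
def cmp (g : E4 ≃ₗᵢ[ℝ] E4) (u : CS) : CS := u.comp ⟨isoS g, continuous_isoS g⟩

@[simp] theorem cmp_apply (g : E4 ≃ₗᵢ[ℝ] E4) (u : CS) (x : S3) : cmp g u x = u (isoS g x) := rfl

theorem cmp_xc (g : E4 ≃ₗᵢ[ℝ] E4) (i : Fin 4) :
    cmp g (xc i) = ∑ j, ((g (EuclideanSpace.single j 1) i : ℝ) : ℂ) • xc j := by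
  ext x
  have h : (x : E4) = ∑ j, (x : E4) j • EuclideanSpace.single j (1 : ℝ) := by
    ext l; simp [Pi.single_apply]
  simp only [cmp_apply, xc_apply, isoS_coe, ContinuousMap.coe_sum, Finset.sum_apply,
    ContinuousMap.smul_apply, smul_eq_mul]
  conv_lhs => rw [h]
  simp only [map_sum, map_smul, WithLp.ofLp_sum, Finset.sum_apply, WithLp.ofLp_smul,
    Pi.smul_apply, smul_eq_mul]
  push_cast
  exact Finset.sum_congr rfl fun j _ => mul_comm _ _

theorem cmp_mem_V (g : E4 ≃ₗᵢ[ℝ] E4) {k : ℕ} {u : CS} (hu : u ∈ V k) : cmp g u ∈ V k := by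
  refine V_ind (p := fun j u => cmp g u ∈ V j) ?_ ?_ ?_ ?_ ?_ ?_ k u hu
  · exact one_mem_V 0
  · intro k; exact Submodule.zero_mem _
  · intro j u w _ _ h1 h2; exact Submodule.add_mem _ h1 h2
  · intro j c u _ h; exact Submodule.smul_mem _ c h
  · intro j u _ h; exact V_le_succ j h
  · intro j i u _ h
    have : cmp g (xc i * u) = cmp g (xc i) * cmp g u := rfl
    rw [this, cmp_xc, Finset.sum_mul]
    refine Submodule.sum_mem _ fun l _ => ?_
    rw [smul_mul_assoc]
    exact Submodule.smul_mem _ _ (xc_mul_mem l h)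

/-! ### rotation derivatives -/

/-- `v` is the derivative of `u` along the rotation `a` -/
def HR (a : Pr 4) (u v : CS) : Prop :=
  ∀ x : S3, HasDerivAt (fun θ : ℝ => u (rotS a θ x)) (v x) 0

theorem HR.at {a : Pr 4} {u v : CS} (h : HR a u v) (x : S3) (θ : ℝ) :
    HasDerivAt (fun τ : ℝ => u (rotS a τ x)) (v (rotS a θ x)) θ := by
  have h1 := h (rotS a θ x)
  have h3 : HasDerivAt (fun σ : ℝ => u (rotS a σ (rotS a θ x))) (v (rotS a θ x)) (θ - θ) := by
    rw [sub_self]; exact h1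
  have h4 := h3.comp_sub_const θ θ
  refine h4.congr_of_eventuallyEq (Eventually.of_forall fun τ => ?_)
  show u (rotS a τ x) = u (rotS a (τ - θ) (rotS a θ x))
  rw [← rotS_add, sub_add_cancel]

theorem HR.unique {a : Pr 4} {u v w : CS} (h : HR a u v) (h' : HR a u w) : v = w := by
  ext x; exact (h x).unique (h' x)

theorem HR.one (a : Pr 4) : HR a 1 0 := fun x => by
  simpa using hasDerivAt_const (0 : ℝ) (1 : ℂ)

theorem HR.zero (a : Pr 4) : HR a 0 0 := fun x => by
  simpa using hasDerivAt_const (0 : ℝ) (0 : ℂ)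

theorem HR.add {a : Pr 4} {u v u' v' : CS} (h : HR a u u') (h' : HR a v v') :
    HR a (u + v) (u' + v') := fun x => (h x).add (h' x)

theorem HR.sub {a : Pr 4} {u v u' v' : CS} (h : HR a u u') (h' : HR a v v') :
    HR a (u - v) (u' - v') := fun x => (h x).sub (h' x)

theorem HR.smul {a : Pr 4} {u u' : CS} (c : ℂ) (h : HR a u u') :
    HR a (c • u) (c • u') := fun x => (h x).const_mul c

theorem HR.mul {a : Pr 4} {u v u' v' : CS} (h : HR a u u') (h' : HR a v v') :
    HR a (u * v) (u' * v + u * v') := fun x => by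
  have := (h x).mul (h' x)
  simp only [rotS_zero] at this
  exact this

theorem HR.star {a : Pr 4} {u u' : CS} (h : HR a u u') : HR a (star u) (star u') := fun x =>
  (h x).star

theorem HR.sum {ι : Type*} {a : Pr 4} {s : Finset ι} {u u' : ι → CS}
    (h : ∀ i ∈ s, HR a (u i) (u' i)) : HR a (∑ i ∈ s, u i) (∑ i ∈ s, u' i) := by
  classical
  induction s using Finset.induction_on with
  | empty => simpa using HR.zero a
  | insert i s hi ih =>
    rw [Finset.sum_insert hi, Finset.sum_insert hi]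
    exact (h i (Finset.mem_insert_self _ _)).add
      (ih fun j hj => h j (Finset.mem_insert_of_mem hj))

theorem HR.tendsto {a : Pr 4} {ι : Type*} {l : Filter ι} [NeBot l] {u u' : ι → CS}
    {v v' : CS} (hu : Tendsto u l (𝓝 v)) (hu' : Tendsto u' l (𝓝 v'))
    (h : ∀ i, HR a (u i) (u' i)) : HR a v v' := by
  intro x
  have h1 : TendstoUniformly (fun i (θ : ℝ) => u' i (rotS a θ x)) (fun θ => v' (rotS a θ x)) l := by
    have := ContinuousMap.tendsto_iff_tendstoUniformly.1 hu'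
    exact this.comp (fun θ : ℝ => rotS a θ x)
  have h2 := hasDerivAt_of_tendstoUniformly h1 (f := fun i (θ : ℝ) => u i (rotS a θ x))
    (g := fun θ => v (rotS a θ x)) (Eventually.of_forall fun i θ => (h i).at x θ) (fun θ => by
      have := (ContinuousMap.tendsto_iff_tendstoUniformly.1 hu).tendsto_at (rotS a θ x)
      exact this) 0
  simpa [rotS_zero] using h2

theorem integrable_CS (u : CS) : Integrable (fun x => u x) sg :=
  u.continuous.integrable_of_hasCompactSupport (HasCompactSupport.of_compactSpace _)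

theorem integral_cmp (g : E4 ≃ₗᵢ[ℝ] E4) (f : S3 → ℂ) :
    ∫ y, f (isoS g y) ∂sg = ∫ y, f y ∂sg := by
  have hemb : MeasurableEmbedding (isoS g) := by
    refine (Topology.IsClosedEmbedding.of_continuous_injective_isClosedMap (continuous_isoS g) ?_
      (continuous_isoS g).isClosedMap).measurableEmbedding
    intro x y hxy
    rw [← isoS_symm_isoS g x, hxy, isoS_symm_isoS]
  exact (mp_isoS g).integral_comp hemb f

theorem HR.integral_eq_zero {a : Pr 4} {u v : CS} (h : HR a u v) : ∫ x, v x ∂sg = 0 := by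
  have c1 : ∀ (w : CS) (θ : ℝ), Continuous (fun x => w (rotS a θ x)) := fun w θ =>
    w.continuous.comp (continuous_isoS (rotE a θ))
  have i1 : Integrable (fun x => u (rotS a 0 x)) sg := by
    simp only [rotS_zero]; exact integrable_CS u
  have m1 : ∀ᶠ θ in 𝓝 (0 : ℝ), AEStronglyMeasurable (fun x => u (rotS a θ x)) sg :=
    Eventually.of_forall fun θ => (c1 u θ).aestronglyMeasurable
  have m2 : AEStronglyMeasurable (fun x => v (rotS a 0 x)) sg := (c1 v 0).aestronglyMeasurable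
  have b1 : ∀ᵐ x ∂sg, ∀ θ ∈ (Set.univ : Set ℝ), ‖v (rotS a θ x)‖ ≤ ‖v‖ :=
    Eventually.of_forall fun x θ _ => v.norm_coe_le_norm _
  have b2 : Integrable (fun _ : S3 => ‖v‖) sg := integrable_const _
  have b3 : ∀ᵐ x ∂sg, ∀ θ ∈ (Set.univ : Set ℝ),
      HasDerivAt (fun τ => u (rotS a τ x)) (v (rotS a θ x)) θ :=
    Eventually.of_forall fun x θ _ => h.at x θ
  have key := hasDerivAt_integral_of_dominated_loc_of_deriv_le (μ := sg) (𝕜 := ℝ)
    (F := fun θ x => u (rotS a θ x)) (F' := fun θ x => v (rotS a θ x)) (x₀ := (0 : ℝ))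
    (s := Set.univ) (bound := fun _ => ‖v‖) univ_mem m1 i1 m2 b1 b2 b3
  have h2 := key.2
  have h3 : (fun θ : ℝ => ∫ x, u (rotS a θ x) ∂sg) = fun _ => ∫ x, u x ∂sg := by
    funext θ; exact integral_cmp (rotE a θ) _
  rw [h3] at h2
  have h4 := h2.unique (hasDerivAt_const (0 : ℝ) _)
  simpa [rotS_zero] using h4

theorem HR.ibp {a : Pr 4} {u v u' v' : CS} (h : HR a u u') (h' : HR a v v') :
    ∫ x, u' x * v x ∂sg = - ∫ x, u x * v' x ∂sg := by
  have h1 := (h.mul h').integral_eq_zero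
  have h2 : ∫ x, (u' * v + u * v') x ∂sg = ∫ x, u' x * v x ∂sg + ∫ x, u x * v' x ∂sg := by
    exact integral_add (integrable_CS (u' * v)) (integrable_CS (u * v'))
  rw [h2] at h1
  exact eq_neg_of_add_eq_zero_left h1

/-- derivative of a coordinate -/
def rx (a : Pr 4) (i : Fin 4) : CS :=
  if i = a.1.1 then -xc a.1.2 else if i = a.1.2 then xc a.1.1 else 0

theorem HR.xc (a : Pr 4) (i : Fin 4) : HR a (xc i) (rx a i) := by
  intro x
  unfold rx
  have hc : HasDerivAt (fun θ : ℝ => ((Real.cos θ : ℝ) : ℂ)) 0 0 := by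
    simpa using (Real.hasDerivAt_cos 0).ofReal_comp
  have hs : HasDerivAt (fun θ : ℝ => ((Real.sin θ : ℝ) : ℂ)) 1 0 := by
    simpa using (Real.hasDerivAt_sin 0).ofReal_comp
  by_cases h1 : i = a.1.1
  · subst h1
    simp only [xc_apply, rotS_coe, rotV_i, if_true, ContinuousMap.neg_apply, Complex.ofReal_sub,
      Complex.ofReal_mul]
    have := (hc.mul_const (((x : E4) a.1.1 : ℝ) : ℂ)).sub (hs.mul_const (((x : E4) a.1.2 : ℝ) : ℂ))
    exact this.congr_deriv (by ring)
  · by_cases h2 : i = a.1.2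
    · subst h2
      simp only [xc_apply, rotS_coe, rotV_j a.ne, if_true, h1, if_false, Complex.ofReal_add,
        Complex.ofReal_mul]
      have := (hs.mul_const (((x : E4) a.1.1 : ℝ) : ℂ)).add
        (hc.mul_const (((x : E4) a.1.2 : ℝ) : ℂ))
      exact this.congr_deriv (by ring)
    · simp only [xc_apply, rotS_coe, rotV_ne h1 h2, h1, h2, if_false, ContinuousMap.zero_apply]
      exact hasDerivAt_const _ _

theorem rx_mem (a : Pr 4) (i : Fin 4) : rx a i ∈ V 1 := by
  unfold rx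
  split_ifs
  · exact Submodule.neg_mem _ (xc_mem _)
  · exact xc_mem _
  · exact Submodule.zero_mem _

open Classical in
/-- the rotation derivative (junk `0` when it does not exist) -/
def R (a : Pr 4) (u : CS) : CS := if h : ∃ v, HR a u v then h.choose else 0

theorem HR.R_eq {a : Pr 4} {u v : CS} (h : HR a u v) : R a u = v := by
  have h' : ∃ v, HR a u v := ⟨v, h⟩
  unfold R
  rw [dif_pos h']
  exact h'.choose_spec.unique h

theorem exists_HR (a : Pr 4) {k : ℕ} {u : CS} (hu : u ∈ V k) : ∃ v ∈ V k, HR a u v := by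
  refine V_ind (p := fun j u => ∃ v ∈ V j, HR a u v) ?_ ?_ ?_ ?_ ?_ ?_ k u hu
  · exact ⟨0, Submodule.zero_mem _, HR.one a⟩
  · intro k; exact ⟨0, Submodule.zero_mem _, HR.zero a⟩
  · rintro j u w _ _ ⟨u', h1, h2⟩ ⟨w', h3, h4⟩; exact ⟨_, Submodule.add_mem _ h1 h3, h2.add h4⟩
  · rintro j c u _ ⟨u', h1, h2⟩; exact ⟨_, Submodule.smul_mem _ c h1, h2.smul c⟩
  · rintro j u _ ⟨u', h1, h2⟩; exact ⟨_, V_le_succ j h1, h2⟩
  · rintro j i u hu ⟨u', h1, h2⟩
    refine ⟨_, Submodule.add_mem _ ?_ (xc_mul_mem i h1), (HR.xc a i).mul h2⟩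
    simpa [add_comm] using mul_mem_V (rx_mem a i) hu

theorem HR_R (a : Pr 4) {k : ℕ} {u : CS} (hu : u ∈ V k) : HR a u (R a u) := by
  obtain ⟨v, -, h⟩ := exists_HR a hu
  rw [h.R_eq]; exact h

theorem R_mem (a : Pr 4) {k : ℕ} {u : CS} (hu : u ∈ V k) : R a u ∈ V k := by
  obtain ⟨v, hv, h⟩ := exists_HR a hu
  rw [h.R_eq]; exact hv

theorem R_memW (a : Pr 4) {k : ℕ} {u : CS} (hu : u ∈ W k) : R a u ∈ W k := by
  cases k with
  | zero => rw [(Submodule.mem_bot ℂ).1 hu, (HR.zero a).R_eq]; exact Submodule.zero_mem _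
  | succ k => exact R_mem a hu

theorem R_zero (a : Pr 4) : R a 0 = 0 := (HR.zero a).R_eq
theorem R_one (a : Pr 4) : R a 1 = 0 := (HR.one a).R_eq
theorem R_xc (a : Pr 4) (i : Fin 4) : R a (xc i) = rx a i := (HR.xc a i).R_eq

theorem R_add (a : Pr 4) {j k : ℕ} {u v : CS} (hu : u ∈ V j) (hv : v ∈ V k) :
    R a (u + v) = R a u + R a v := ((HR_R a hu).add (HR_R a hv)).R_eq

theorem R_smul (a : Pr 4) {j : ℕ} (c : ℂ) {u : CS} (hu : u ∈ V j) :
    R a (c • u) = c • R a u := ((HR_R a hu).smul c).R_eq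

theorem R_mul (a : Pr 4) {j k : ℕ} {u v : CS} (hu : u ∈ V j) (hv : v ∈ V k) :
    R a (u * v) = R a u * v + u * R a v := ((HR_R a hu).mul (HR_R a hv)).R_eq

theorem R_star (a : Pr 4) {j : ℕ} {u : CS} (hu : u ∈ V j) :
    R a (star u) = star (R a u) := (HR_R a hu).star.R_eq

end Crest.Agent.N207.J
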