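import Crest.Agent.N207.J.Sph1

/-! # N207/J/Sph2 (helper72): the spherical Laplacian modulo lower degree; `L²` structure -/

set_option autoImplicit false
set_option maxHeartbeats 400000
open MeasureTheory Metric Topology Filter
open Crest.Agent.R246.Zon797
open scoped InnerProductSpace

noncomputable section

namespace Crest.Agent.N207.J

theorem sum_Pr4 {M : Type*} [AddCommMonoid M] (f : Pr 4 → M) :
    ∑ a, f a = f ⟨(0, 1), by decide⟩ + f ⟨(0, 2), by decide⟩ + f ⟨(0, 3), by decide⟩
      + f ⟨(1, 2), by decide⟩ + f ⟨(1, 3), by decide⟩ + f ⟨(2, 3), by decide⟩ := by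
  have h : (Finset.univ : Finset (Pr 4)) = {⟨(0, 1), by decide⟩, ⟨(0, 2), by decide⟩,
      ⟨(0, 3), by decide⟩, ⟨(1, 2), by decide⟩, ⟨(1, 3), by decide⟩, ⟨(2, 3), by decide⟩} := by
    decide
  rw [h]
  repeat rw [Finset.sum_insert (by decide)]
  rw [Finset.sum_singleton]
  simp only [add_assoc]

theorem sum_xc_sq' : xc 0 * xc 0 + xc 1 * xc 1 + xc 2 * xc 2 + xc 3 * xc 3 = 1 := by
  rw [← sum_xc_sq, Fin.sum_univ_four]

theorem gam_xc (i j : Fin 4) :
    ∑ a, rx a i * rx a j = (if i = j then 1 else 0) - xc i * xc j := by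
  rw [sum_Pr4]
  have h := sum_xc_sq'
  fin_cases i <;> fin_cases j <;> simp [rx] <;> first | ring1 | linear_combination h

theorem R_neg_xc (a : Pr 4) (i : Fin 4) : R a (-xc i) = -rx a i := by
  have := R_smul a (-1) (xc_mem i)
  have e : ∀ u : CS, (-1 : ℂ) • u = -u := fun u => by ext x; simp
  rwa [e, e, R_xc] at this

theorem lap_xc (i : Fin 4) : ∑ a, R a (rx a i) = -(3 : CS) * xc i := by
  rw [sum_Pr4]
  fin_cases i <;> simp [rx, R_neg_xc, R_xc, R_zero] <;> ring1

/-- the spherical Laplacian -/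
def Lap (u : CS) : CS := ∑ a, R a (R a u)

theorem natCS (k : ℕ) (u : CS) : (k : ℂ) • u = (k : CS) * u := by
  ext x; simp

theorem gam_mem {k : ℕ} {u : CS} (hu : u ∈ V k) (i : Fin 4) :
    ∑ a, rx a i * R a u + (k : CS) * (xc i * u) ∈ V k := by
  refine V_ind (p := fun k u => ∑ a, rx a i * R a u + (k : CS) * (xc i * u) ∈ V k)
    ?_ ?_ ?_ ?_ ?_ ?_ k u hu
  · simp [R_one]
  · intro k; simp [R_zero]
  · intro j u w hu hw h1 h2
    have := Submodule.add_mem _ h1 h2
    convert this using 1
    simp only [R_add _ hu hw, mul_add, Finset.sum_add_distrib]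
    ring
  · intro j c u hu h
    have := Submodule.smul_mem _ c h
    convert this using 1
    simp only [R_smul _ c hu, smul_add, Finset.smul_sum, mul_smul_comm]
  · intro j u hu h
    have := Submodule.add_mem _ (V_le_succ j h) (xc_mul_mem i hu)
    convert this using 1
    push_cast; ring
  · intro j l u hu h
    have h2 : (if i = l then (1 : CS) else 0) * u ∈ V (j + 1) := by
      split_ifs
      · rw [one_mul]; exact V_le_succ j hu
      · rw [zero_mul]; exact Submodule.zero_mem _
    have := Submodule.add_mem _ (xc_mul_mem l h) h2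
    convert this using 1
    have e : ∑ a, rx a i * R a (xc l * u)
        = (∑ a, rx a i * rx a l) * u + xc l * ∑ a, rx a i * R a u := by
      rw [Finset.sum_mul, Finset.mul_sum, ← Finset.sum_add_distrib]
      refine Finset.sum_congr rfl fun a _ => ?_
      rw [R_mul a (xc_mem l) hu, R_xc]; ring
    rw [e, gam_xc]
    push_cast; ring

theorem Lap_mem {k : ℕ} {u : CS} (hu : u ∈ V k) : Lap u ∈ V k :=
  Submodule.sum_mem _ fun a _ => R_mem a (R_mem a hu)

theorem Lap_add {j k : ℕ} {u v : CS} (hu : u ∈ V j) (hv : v ∈ V k) :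
    Lap (u + v) = Lap u + Lap v := by
  unfold Lap
  rw [← Finset.sum_add_distrib]
  exact Finset.sum_congr rfl fun a _ => by rw [R_add a hu hv, R_add a (R_mem a hu) (R_mem a hv)]

theorem Lap_smul {j : ℕ} (c : ℂ) {u : CS} (hu : u ∈ V j) : Lap (c • u) = c • Lap u := by
  unfold Lap
  rw [Finset.smul_sum]
  exact Finset.sum_congr rfl fun a _ => by rw [R_smul a c hu, R_smul a c (R_mem a hu)]

theorem Lap_xc_mul {k : ℕ} {u : CS} (hu : u ∈ V k) (i : Fin 4) :
    Lap (xc i * u) = xc i * Lap u + 2 * ∑ a, rx a i * R a u - 3 * (xc i * u) := by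
  unfold Lap
  have e : ∀ a, R a (R a (xc i * u))
      = R a (rx a i) * u + (xc i * R a (R a u) + 2 * (rx a i * R a u)) := by
    intro a
    rw [R_mul a (xc_mem i) hu, R_xc, R_add a (mul_mem_V (rx_mem a i) hu)
      (mul_mem_V (xc_mem i) (R_mem a hu)), R_mul a (rx_mem a i) hu,
      R_mul a (xc_mem i) (R_mem a hu), R_xc]
    ring
  simp only [e, Finset.sum_add_distrib, ← Finset.sum_mul, ← Finset.mul_sum, lap_xc]
  ring

theorem lap_memW {k : ℕ} {u : CS} (hu : u ∈ V k) :
    Lap u + ((k * (k + 2) : ℕ) : ℂ) • u ∈ W k := by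
  refine V_ind (p := fun k u => Lap u + ((k * (k + 2) : ℕ) : ℂ) • u ∈ W k)
    ?_ ?_ ?_ ?_ ?_ ?_ k u hu
  · rw [natCS]; simp [Lap, R_one, R_zero]
  · intro k; rw [natCS]; simp [Lap, R_zero]
  · intro j u w hu hw h1 h2
    have := Submodule.add_mem _ h1 h2
    convert this using 1
    rw [Lap_add hu hw, natCS, natCS, natCS]; ring
  · intro j c u hu h
    have := Submodule.smul_mem _ c h
    convert this using 1
    rw [Lap_smul c hu]; ext x
    simp only [ContinuousMap.add_apply, ContinuousMap.smul_apply, smul_eq_mul]; ring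
  · intro j u hu h
    exact Submodule.add_mem _ (Lap_mem hu) (Submodule.smul_mem _ _ hu)
  · intro j l u hu h
    have h1 : xc l * (Lap u + ((j * (j + 2) : ℕ) : ℂ) • u) ∈ V j := xc_mul_memW l h
    have h2 := gam_mem hu l
    have := Submodule.add_mem _ h1 (Submodule.add_mem _ h2 h2)
    show _ ∈ V j
    convert this using 1
    rw [Lap_xc_mul hu, natCS, natCS]
    push_cast; ring

/-! ### finite dimension -/

def mono (α : Fin 4 → ℕ) : CS := ∏ i, xc i ^ α i

theorem V_le_span (k : ℕ) :
    V k ≤ Submodule.span ℂ (mono '' (Fintype.piFinset fun _ : Fin 4 => Finset.range (k + 1))) := by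
  intro u hu
  refine V_ind (p := fun k u => u ∈ Submodule.span ℂ
    (mono '' (Fintype.piFinset fun _ : Fin 4 => Finset.range (k + 1)))) ?_ ?_ ?_ ?_ ?_ ?_ k u hu
  · exact Submodule.subset_span ⟨fun _ => 0, by simp, by simp [mono]⟩
  · intro k; exact Submodule.zero_mem _
  · intro j u w _ _ h1 h2; exact Submodule.add_mem _ h1 h2
  · intro j c u _ h; exact Submodule.smul_mem _ c h
  · intro j u _ h
    refine Submodule.span_mono (Set.image_mono ?_) h
    intro α hα
    simp only [Finset.mem_coe, Fintype.mem_piFinset, Finset.mem_range] at hα ⊢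
    exact fun i => (hα i).trans (by omega)
  · intro j l u _ h
    have := Submodule.mem_map_of_mem (f := LinearMap.mulLeft ℂ (xc l)) h
    rw [Submodule.map_span] at this
    refine Submodule.span_mono ?_ this
    rintro _ ⟨_, ⟨α, hα, rfl⟩, rfl⟩
    refine ⟨α + Pi.single l 1, ?_, ?_⟩
    · simp only [Finset.mem_coe, Fintype.mem_piFinset, Finset.mem_range] at hα ⊢
      intro i
      have := hα i
      by_cases h : i = l
      · subst h; simp; omega
      · simp [h]; omega
    · simp only [mono, Pi.add_apply, pow_add, Finset.prod_mul_distrib, LinearMap.mulLeft_apply]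
      rw [mul_comm]
      congr 1
      rw [Finset.prod_eq_single l (fun b _ hb => by simp [hb]) (by simp)]
      simp

instance finV (k : ℕ) : FiniteDimensional ℂ (V k) := by
  have := FiniteDimensional.span_of_finite ℂ
    ((Fintype.piFinset fun _ : Fin 4 => Finset.range (k + 1)).finite_toSet.image mono)
  exact Submodule.finiteDimensional_of_le (V_le_span k)

instance finW (k : ℕ) : FiniteDimensional ℂ (W k) :=
  Submodule.finiteDimensional_of_le (W_le_V k)

theorem finrank_V (k : ℕ) : Module.finrank ℂ (V k) ≤ (k + 1) ^ 4 := by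
  classical
  have := FiniteDimensional.span_of_finite ℂ
    ((Fintype.piFinset fun _ : Fin 4 => Finset.range (k + 1)).finite_toSet.image mono)
  refine (Submodule.finrank_mono (V_le_span k)).trans ?_
  rw [← Finset.coe_image]
  refine (finrank_span_finset_le_card _).trans (Finset.card_image_le.trans ?_)
  simp

/-! ### `L²` -/

abbrev H := Lp ℂ 2 sg

def toH : CS →L[ℂ] H := ContinuousMap.toLp 2 sg ℂ

theorem toH_inj : Function.Injective toH := ContinuousMap.toLp_injective sg

theorem toH_dense : DenseRange toH := ContinuousMap.toLp_denseRange ℂ sg ℂ (by simp)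

theorem coe_toH (u : CS) : (toH u : S3 → ℂ) =ᵐ[sg] u := ContinuousMap.coeFn_toLp sg u

theorem inner_toH (u v : CS) : ⟪toH u, toH v⟫_ℂ = ∫ x, star u x * v x ∂sg := by
  rw [L2.inner_def]
  refine integral_congr_ae ?_
  filter_upwards [coe_toH u, coe_toH v] with x h1 h2
  rw [h1, h2]
  simp [mul_comm]

theorem norm_toH_sq (u : CS) : ‖toH u‖ ^ 2 = ∫ x, ‖u x‖ ^ 2 ∂sg := by
  have h1 := inner_toH u u
  rw [inner_self_eq_norm_sq_to_K] at h1
  have h2 : ∫ x, star u x * u x ∂sg = ((∫ x, ‖u x‖ ^ 2 ∂sg : ℝ) : ℂ) := by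
    rw [← integral_complex_ofReal]
    refine integral_congr_ae (Eventually.of_forall fun x => ?_)
    simp [Complex.conj_mul']
  rw [h2] at h1
  apply Complex.ofReal_injective
  rw [← h1]; simp

theorem integrable_CSR (f : S3 → ℝ) (hf : Continuous f) : Integrable f sg :=
  hf.integrable_of_hasCompactSupport (HasCompactSupport.of_compactSpace _)

theorem inner_mul (u v w : CS) : ⟪toH u, toH (v * w)⟫_ℂ = ⟪toH (star v * u), toH w⟫_ℂ := by
  rw [inner_toH, inner_toH]
  refine integral_congr_ae (Eventually.of_forall fun x => ?_)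
  simp only [ContinuousMap.star_apply, ContinuousMap.mul_apply, star_mul', star_star]
  ring

theorem norm_toH_mul (u v : CS) : ‖toH (u * v)‖ ≤ ‖u‖ * ‖toH v‖ := by
  refine (sq_le_sq₀ (by positivity) (by positivity)).1 ?_
  rw [mul_pow, norm_toH_sq, norm_toH_sq, ← integral_const_mul]
  refine integral_mono (integrable_CSR _ (by fun_prop)) (integrable_CSR _ (by fun_prop)) fun x => ?_
  simp only [ContinuousMap.mul_apply, norm_mul, mul_pow]
  exact mul_le_mul_of_nonneg_right
    (pow_le_pow_left₀ (norm_nonneg _) (u.norm_coe_le_norm x) 2) (by positivity)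

theorem inner_cmp (g : E4 ≃ₗᵢ[ℝ] E4) (u v : CS) :
    ⟪toH (cmp g u), toH (cmp g v)⟫_ℂ = ⟪toH u, toH v⟫_ℂ := by
  rw [inner_toH, inner_toH]
  exact integral_cmp g (fun x => star u x * v x)

theorem norm_cmp (g : E4 ≃ₗᵢ[ℝ] E4) (u : CS) : ‖toH (cmp g u)‖ = ‖toH u‖ := by
  rw [norm_eq_sqrt_re_inner (𝕜 := ℂ), inner_cmp, ← norm_eq_sqrt_re_inner (𝕜 := ℂ)]

/-- rotation derivatives are skew -/
theorem HR.inner {a : Pr 4} {u v u' v' : CS} (h : HR a u u') (h' : HR a v v') :
    ⟪toH u', toH v⟫_ℂ = -⟪toH u, toH v'⟫_ℂ := by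
  rw [inner_toH, inner_toH]
  exact h.star.ibp h'

end Crest.Agent.N207.J
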