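import Crest.Agent.N207.J.Sph2

/-! # N207/J/Sph3 (helper72): the projections `P k` on spherical harmonics of degree `k` -/

set_option autoImplicit false
set_option maxHeartbeats 400000
open MeasureTheory Metric Topology Filter
open Crest.Agent.R246.Zon797
open scoped InnerProductSpace

noncomputable section

namespace Crest.Agent.N207.J

/-- image in `L²` of the polynomials of degree `< k` -/
def WH (k : ℕ) : Submodule ℂ H := (W k).map (toH : CS →ₗ[ℂ] H)

instance finWH (k : ℕ) : FiniteDimensional ℂ (WH k) := by unfold WH; infer_instance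

instance complWH (k : ℕ) : CompleteSpace (WH k) := FiniteDimensional.complete ℂ _

theorem WH_mono : Monotone WH := fun _ _ h => Submodule.map_mono (W_mono h)

theorem toH_memWH {k : ℕ} {u : CS} (hu : u ∈ W k) : toH u ∈ WH k := ⟨u, hu, rfl⟩

/-- projection on degree `< k` -/
def Q (k : ℕ) : H →L[ℂ] H := (WH k).starProjection

/-- projection on the spherical harmonics of degree `k` -/
def P (k : ℕ) : H →L[ℂ] H := Q (k + 1) - Q k

theorem Q_mem (k : ℕ) (u : H) : Q k u ∈ WH k := (WH k).starProjection_apply_mem u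

theorem Q_eq_self {k : ℕ} {u : H} (hu : u ∈ WH k) : Q k u = u :=
  Submodule.starProjection_eq_self_iff.2 hu

theorem inner_Q (k : ℕ) (u v : H) : ⟪Q k u, v⟫_ℂ = ⟪u, Q k v⟫_ℂ :=
  (WH k).inner_starProjection_left_eq_right u v

theorem Q_Q_of_le {j k : ℕ} (h : j ≤ k) (u : H) : Q k (Q j u) = Q j u :=
  Q_eq_self (WH_mono h (Q_mem j u))

theorem Q_Q_of_ge {j k : ℕ} (h : j ≤ k) (u : H) : Q j (Q k u) = Q j u := by
  refine ext_inner_left ℂ fun v => ?_
  rw [← inner_Q, ← inner_Q, Q_Q_of_le h, inner_Q]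

theorem Q_zero (u : H) : Q 0 u = 0 := by
  obtain ⟨w, hw, h⟩ := Q_mem 0 u
  rw [← h, (Submodule.mem_bot ℂ).1 hw, map_zero]

theorem P_apply (k : ℕ) (u : H) : P k u = Q (k + 1) u - Q k u := rfl

theorem inner_P (k : ℕ) (u v : H) : ⟪P k u, v⟫_ℂ = ⟪u, P k v⟫_ℂ := by
  rw [P_apply, P_apply, inner_sub_left, inner_sub_right, inner_Q, inner_Q]

theorem P_mem (k : ℕ) (u : H) : P k u ∈ WH (k + 1) :=
  Submodule.sub_mem _ (Q_mem _ u) (WH_mono (Nat.le_succ k) (Q_mem k u))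

theorem P_P (k : ℕ) (u : H) : P k (P k u) = P k u := by
  simp only [P_apply, map_sub]
  rw [Q_Q_of_le le_rfl, Q_Q_of_le (Nat.le_succ k), Q_Q_of_ge (Nat.le_succ k), Q_Q_of_le le_rfl]
  abel

theorem P_of_memWH {k l : ℕ} (h : k ≤ l) {u : H} (hu : u ∈ WH k) : P l u = 0 := by
  rw [P_apply, Q_eq_self (WH_mono (by omega) hu), Q_eq_self (WH_mono h hu), sub_self]

theorem P_P_ne {j k : ℕ} (h : j ≠ k) (u : H) : P j (P k u) = 0 := by
  rcases lt_or_gt_of_ne h with h | h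
  · refine ext_inner_left ℂ fun v => ?_
    rw [← inner_P, ← inner_P, P_of_memWH h (P_mem j v), inner_zero_left, inner_zero_right]
  · exact P_of_memWH h (P_mem k u)

theorem inner_P_P_ne {j k : ℕ} (h : j ≠ k) (u v : H) : ⟪P j u, P k v⟫_ℂ = 0 := by
  rw [inner_P, P_P_ne h, inner_zero_right]

theorem sum_P (n : ℕ) (u : H) : ∑ k ∈ Finset.range n, P k u = Q n u := by
  induction n with
  | zero => simp [Q_zero]
  | succ n ih => rw [Finset.sum_range_succ, ih, P_apply]; abel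

/-! ### density -/

/-- the algebra of polynomial functions -/
def polyA : StarSubalgebra ℂ CS where
  carrier := {u | ∃ k, u ∈ V k}
  mul_mem' := by rintro a b ⟨j, ha⟩ ⟨k, hb⟩; exact ⟨_, mul_mem_V ha hb⟩
  add_mem' := by
    rintro a b ⟨j, ha⟩ ⟨k, hb⟩
    exact ⟨j + k, Submodule.add_mem _ (V_mono (by omega) ha) (V_mono (by omega) hb)⟩
  algebraMap_mem' := fun c => ⟨0, by
    have := Submodule.smul_mem _ c (one_mem_V 0)
    convert this using 1
    ext x; simp⟩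
  star_mem' := by rintro a ⟨j, ha⟩; exact ⟨j, star_mem_V ha⟩

theorem polyA_dense : Dense {u : CS | ∃ k, u ∈ V k} := by
  have h := ContinuousMap.starSubalgebra_topologicalClosure_eq_top_of_separatesPoints polyA (by
    intro x y hxy
    have : ∃ i, (x : E4) i ≠ (y : E4) i := by
      by_contra hc
      push Not at hc
      exact hxy (Subtype.ext (by ext i; exact hc i))
    obtain ⟨i, hi⟩ := this
    exact ⟨xc i, ⟨xc i, ⟨1, xc_mem i⟩, rfl⟩, by simpa using hi⟩)
  intro u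
  have : u ∈ polyA.topologicalClosure := by rw [h]; trivial
  exact this

theorem Q_tendsto (u : H) : Tendsto (fun n => Q n u) atTop (𝓝 u) := by
  refine Submodule.starProjection_tendsto_self WH WH_mono u ?_
  intro v _
  have h := toH_dense.dense_image toH.continuous polyA_dense
  refine closure_mono ?_ (h v)
  rintro _ ⟨w, ⟨k, hw⟩, rfl⟩
  exact Submodule.mem_iSup_of_mem (k + 1) (toH_memWH hw)

theorem norm_sum_orth {f : ℕ → H} (hf : ∀ k, P k (f k) = f k) (s : Finset ℕ) :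
    ‖∑ k ∈ s, f k‖ ^ 2 = ∑ k ∈ s, ‖f k‖ ^ 2 := by
  classical
  induction s using Finset.induction_on with
  | empty => simp
  | insert i s hi ih =>
    rw [Finset.sum_insert hi, Finset.sum_insert hi, ← ih, sq, sq, sq]
    refine norm_add_sq_eq_norm_sq_add_norm_sq_of_inner_eq_zero (𝕜 := ℂ) _ _ ?_
    rw [inner_sum]
    refine Finset.sum_eq_zero fun j hj => ?_
    rw [← hf i, ← hf j]
    exact inner_P_P_ne (fun h : i = j => hi (h ▸ hj)) _ _

theorem summable_orth {f : ℕ → H} (hf : ∀ k, P k (f k) = f k)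
    (hs : Summable fun k => ‖f k‖ ^ 2) : Summable f := by
  rw [summable_iff_vanishing_norm] at hs ⊢
  intro ε hε
  obtain ⟨s, h⟩ := hs (ε ^ 2) (by positivity)
  refine ⟨s, fun t ht => ?_⟩
  have h1 := h t ht
  rw [Real.norm_of_nonneg (Finset.sum_nonneg fun _ _ => by positivity), ← norm_sum_orth hf] at h1
  exact (sq_lt_sq₀ (norm_nonneg _) hε.le).1 h1

theorem hasSum_sq_orth {f : ℕ → H} (hf : ∀ k, P k (f k) = f k) {u : H} (hu : HasSum f u) :
    HasSum (fun k => ‖f k‖ ^ 2) (‖u‖ ^ 2) := by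
  have h : Tendsto (fun s : Finset ℕ => ‖∑ k ∈ s, f k‖ ^ 2) atTop (𝓝 (‖u‖ ^ 2)) :=
    (Tendsto.norm hu).pow 2
  simp only [norm_sum_orth hf] at h
  exact h

theorem P_of_hasSum {f : ℕ → H} (hf : ∀ k, P k (f k) = f k) {u : H} (hu : HasSum f u) (k : ℕ) :
    P k u = f k := by
  have h1 := hu.mapL (P k)
  have h2 : HasSum (fun j => P k (f j)) (P k (f k)) :=
    hasSum_single k fun j hj => by rw [← hf j, P_P_ne (Ne.symm hj)]
  rw [h1.unique h2, hf]

theorem norm_Q_le (n : ℕ) (u : H) : ‖Q n u‖ ≤ ‖u‖ := (WH n).norm_starProjection_apply_le u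

theorem summable_P_sq (u : H) : Summable fun k => ‖P k u‖ ^ 2 := by
  refine summable_of_sum_range_le (c := ‖u‖ ^ 2) (fun _ => by positivity) fun n => ?_
  rw [← norm_sum_orth (fun k => P_P k u), sum_P]
  exact pow_le_pow_left₀ (norm_nonneg _) (norm_Q_le n u) 2

/-- completeness -/
theorem hasSum_P (u : H) : HasSum (fun k => P k u) u := by
  have h := (summable_orth (fun k => P_P k u) (summable_P_sq u)).hasSum
  have h1 := h.tendsto_sum_nat
  simp only [sum_P] at h1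
  rwa [tendsto_nhds_unique h1 (Q_tendsto u)] at h

/-- Parseval -/
theorem parseval (u : H) : HasSum (fun k => ‖P k u‖ ^ 2) (‖u‖ ^ 2) :=
  hasSum_sq_orth (fun k => P_P k u) (hasSum_P u)

theorem norm_P_le (k : ℕ) (u : H) : ‖P k u‖ ≤ ‖u‖ :=
  (sq_le_sq₀ (norm_nonneg _) (norm_nonneg _)).1
    (le_hasSum (parseval u) k fun _ _ => by positivity)

theorem ext_P {u v : H} (h : ∀ k, P k u = P k v) : u = v :=
  (hasSum_P u).unique (by simpa only [h] using hasSum_P v)

/-! ### continuous representatives -/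

def invV (k : ℕ) : WH (k + 1) →L[ℂ] CS :=
  LinearMap.toContinuousLinearMap ((V k).subtype ∘ₗ
    (Submodule.equivMapOfInjective (toH : CS →ₗ[ℂ] H) toH_inj (V k)).symm.toLinearMap)

theorem invV_spec (k : ℕ) (w : WH (k + 1)) : invV k w ∈ V k ∧ toH (invV k w) = w := by
  set e := Submodule.equivMapOfInjective (toH : CS →ₗ[ℂ] H) toH_inj (V k)
  refine ⟨(e.symm w).2, ?_⟩
  have := Submodule.coe_equivMapOfInjective_apply (toH : CS →ₗ[ℂ] H) toH_inj (V k) (e.symm w)
  exact this.symm.trans (congrArg Subtype.val (e.apply_symm_apply w))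

/-- the continuous representative of `P k u` -/
def Pc (k : ℕ) : H →L[ℂ] CS := (invV k).comp ((P k).codRestrict (WH (k + 1)) (P_mem k))

theorem Pc_memV (k : ℕ) (u : H) : Pc k u ∈ V k := (invV_spec k _).1

@[simp] theorem toH_Pc (k : ℕ) (u : H) : toH (Pc k u) = P k u := (invV_spec k _).2

/-- spherical harmonics of degree `k` -/
def E (k : ℕ) : Submodule ℂ CS := LinearMap.ker ((P k ∘L toH - toH : CS →L[ℂ] H) : CS →ₗ[ℂ] H)

theorem mem_E {k : ℕ} {v : CS} : v ∈ E k ↔ P k (toH v) = toH v := by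
  unfold E
  rw [LinearMap.mem_ker]
  exact sub_eq_zero

theorem Pc_mem (k : ℕ) (u : H) : Pc k u ∈ E k := by rw [mem_E, toH_Pc, P_P]

theorem Pc_of_mem {k : ℕ} {v : CS} (hv : v ∈ E k) : Pc k (toH v) = v :=
  toH_inj (by rw [toH_Pc, mem_E.1 hv])

theorem Pc_of_mem_ne {j k : ℕ} (h : j ≠ k) {v : CS} (hv : v ∈ E k) : Pc j (toH v) = 0 :=
  toH_inj (by rw [toH_Pc, ← mem_E.1 hv, P_P_ne h, map_zero])

theorem Pc_P (k : ℕ) (u : H) : Pc k (P k u) = Pc k u := toH_inj (by simp [P_P])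

theorem E_le_V (k : ℕ) : E k ≤ V k := fun _ hv => Pc_of_mem hv ▸ Pc_memV k _

theorem E_orth {k : ℕ} {v w : CS} (hv : v ∈ E k) (hw : w ∈ W k) : ⟪toH w, toH v⟫_ℂ = 0 := by
  rw [← mem_E.1 hv, ← inner_P, P_of_memWH le_rfl (toH_memWH hw), inner_zero_left]

theorem mem_E_of {k : ℕ} {v : CS} (hv : v ∈ V k) (h : ∀ w ∈ W k, ⟪toH w, toH v⟫_ℂ = 0) :
    v ∈ E k := by
  rw [mem_E, P_apply, Q_eq_self (toH_memWH (k := k + 1) hv), sub_eq_self]
  refine ext_inner_left ℂ fun z => ?_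
  obtain ⟨w, hw, hz⟩ := Q_mem k z
  rw [← inner_Q, ← hz, inner_zero_right]
  exact h w hw

theorem R_mem_E (a : Pr 4) {k : ℕ} {v : CS} (hv : v ∈ E k) : R a v ∈ E k := by
  refine mem_E_of (R_mem a (E_le_V k hv)) fun w hw => ?_
  have := (HR_R a (W_le_V k hw)).inner (HR_R a (E_le_V k hv))
  rw [E_orth hv (R_memW a hw)] at this
  exact neg_eq_zero.1 this.symm

theorem cmp_memW (g : E4 ≃ₗᵢ[ℝ] E4) {k : ℕ} {u : CS} (hu : u ∈ W k) : cmp g u ∈ W k := by
  cases k with
  | zero => rw [(Submodule.mem_bot ℂ).1 hu]; exact Submodule.zero_mem _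
  | succ k => exact cmp_mem_V g hu

theorem cmp_symm_cmp (g : E4 ≃ₗᵢ[ℝ] E4) (u : CS) : cmp g (cmp g.symm u) = u := by
  ext x; simp [isoS_symm_isoS]

theorem cmp_mem_E (g : E4 ≃ₗᵢ[ℝ] E4) {k : ℕ} {v : CS} (hv : v ∈ E k) : cmp g v ∈ E k := by
  refine mem_E_of (cmp_mem_V g (E_le_V k hv)) fun w hw => ?_
  rw [← cmp_symm_cmp g w, inner_cmp]
  exact E_orth hv (cmp_memW _ hw)

theorem star_memW {k : ℕ} {u : CS} (hu : u ∈ W k) : star u ∈ W k := by
  cases k with
  | zero => rw [(Submodule.mem_bot ℂ).1 hu, star_zero]; exact Submodule.zero_mem _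
  | succ k => exact star_mem_V hu

theorem inner_star (u v : CS) : ⟪toH (star u), toH (star v)⟫_ℂ = ⟪toH v, toH u⟫_ℂ := by
  rw [inner_toH, inner_toH]
  refine integral_congr_ae (Eventually.of_forall fun x => ?_)
  simp [mul_comm]

theorem star_mem_E {k : ℕ} {v : CS} (hv : v ∈ E k) : star v ∈ E k := by
  refine mem_E_of (star_mem_V (E_le_V k hv)) fun w hw => ?_
  rw [← star_star w, inner_star, ← inner_conj_symm, E_orth hv (star_memW hw), map_zero]

theorem Lap_memW {k : ℕ} {u : CS} (hu : u ∈ W k) : Lap u ∈ W k :=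
  Submodule.sum_mem _ fun a _ => R_memW a (R_memW a hu)

theorem inner_Lap {j k : ℕ} {u v : CS} (hu : u ∈ V j) (hv : v ∈ V k) :
    ⟪toH u, toH (Lap v)⟫_ℂ = -∑ a, ⟪toH (R a u), toH (R a v)⟫_ℂ := by
  unfold Lap
  rw [map_sum, inner_sum, ← Finset.sum_neg_distrib]
  refine Finset.sum_congr rfl fun a _ => ?_
  rw [(HR_R a hu).inner (HR_R a (R_mem a hv)), neg_neg]

theorem inner_Lap' {j k : ℕ} {u v : CS} (hu : u ∈ V j) (hv : v ∈ V k) :
    ⟪toH (Lap u), toH v⟫_ℂ = -∑ a, ⟪toH (R a u), toH (R a v)⟫_ℂ := by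
  unfold Lap
  rw [map_sum, sum_inner, ← Finset.sum_neg_distrib]
  exact Finset.sum_congr rfl fun a _ => (HR_R a (R_mem a hu)).inner (HR_R a hv)

/-- eigenvalue equation -/
theorem Lap_E {k : ℕ} {v : CS} (hv : v ∈ E k) : Lap v = -(((k * (k + 2) : ℕ) : ℂ) • v) := by
  have hV := E_le_V k hv
  have h1 := lap_memW hV
  have h2 : ∀ w ∈ W k, ⟪toH w, toH (Lap v + ((k * (k + 2) : ℕ) : ℂ) • v)⟫_ℂ = 0 := by
    intro w h1
    rw [map_add, map_smul, inner_add_right, inner_smul_right, E_orth hv h1,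
      inner_Lap (W_le_V k h1) hV, ← inner_Lap' (W_le_V k h1) hV, E_orth hv (Lap_memW h1)]
    simp
  exact eq_neg_of_add_eq_zero_left (toH_inj (by rw [inner_self_eq_zero.1 (h2 _ h1), map_zero]))

theorem lap_Pc (k : ℕ) (u : H) : Lap (Pc k u) = -(((k * (k + 2) : ℕ) : ℂ) • Pc k u) :=
  Lap_E (Pc_mem k u)

theorem sum_norm_R {k : ℕ} {v : CS} (hv : v ∈ E k) :
    ∑ a, ‖toH (R a v)‖ ^ 2 = (k * (k + 2) : ℝ) * ‖toH v‖ ^ 2 := by
  have h := inner_Lap (E_le_V k hv) (E_le_V k hv)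
  rw [Lap_E hv, map_neg, map_smul, inner_neg_right, inner_smul_right, neg_inj] at h
  simp only [inner_self_eq_norm_sq_to_K] at h
  apply Complex.ofReal_injective
  push_cast at h ⊢
  exact h.symm

theorem norm_R_le (a : Pr 4) {k : ℕ} {v : CS} (hv : v ∈ E k) :
    ‖toH (R a v)‖ ≤ (k + 1) * ‖toH v‖ := by
  refine (sq_le_sq₀ (norm_nonneg _) (by positivity)).1 ?_
  have h := Finset.single_le_sum (f := fun a => ‖toH (R a v)‖ ^ 2) (fun _ _ => by positivity)
    (Finset.mem_univ a)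
  rw [sum_norm_R hv] at h
  refine h.trans ?_
  rw [mul_pow]
  exact mul_le_mul_of_nonneg_right (by nlinarith) (by positivity)

/-! ### products -/

theorem P_mul_zero_hi {j k l : ℕ} {u v : CS} (hu : u ∈ V j) (hv : v ∈ V k) (h : j + k < l) :
    P l (toH (u * v)) = 0 :=
  P_of_memWH h (toH_memWH (k := j + k + 1) (mul_mem_V hu hv))

theorem P_mul_zero_lo {j k l : ℕ} {u v : CS} (hu : u ∈ V j) (hv : v ∈ E k) (h : j + l < k) :
    P l (toH (u * v)) = 0 := by
  refine ext_inner_left ℂ fun z => ?_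
  rw [← inner_P, ← toH_Pc, inner_mul, inner_zero_right]
  exact E_orth hv (W_mono h (mul_mem_V (star_mem_V hu) (Pc_memV l z)))

theorem P_mul_zero {j k l : ℕ} {u v : CS} (hu : u ∈ E j) (hv : v ∈ E k)
    (h : j + k < l ∨ j + l < k ∨ k + l < j) : P l (toH (u * v)) = 0 := by
  rcases h with h | h | h
  · exact P_mul_zero_hi (E_le_V j hu) (E_le_V k hv) h
  · exact P_mul_zero_lo (E_le_V j hu) hv h
  · rw [mul_comm]; exact P_mul_zero_lo (E_le_V k hv) hu h

end Crest.Agent.N207.J
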