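import Crest.Agent.N207.J.Sph3

/-! # N207/J/Sph4 (helper72): sup bound on `V k`; commutation with `P k`; series in `C(S³)` -/

set_option autoImplicit false
set_option maxHeartbeats 400000
open MeasureTheory Metric Topology Filter
open Crest.Agent.R246.Zon797
open scoped InnerProductSpace

noncomputable section

namespace Crest.Agent.N207.J

theorem sg_univ : sg.real Set.univ = 2 * Real.pi ^ 2 := by
  rw [Measure.toSphere_real_apply_univ, Measure.real,
    InnerProductSpace.volume_ball_of_dim_even (k := 2) (by simp)]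
  rw [ENNReal.toReal_mul, ENNReal.toReal_ofReal (by positivity)]
  simp
  ring

theorem one_le_sg : 1 ≤ sg.real Set.univ := by
  rw [sg_univ]; nlinarith [Real.pi_gt_three]

theorem exists_iso (x y : S3) : ∃ g : E4 ≃ₗᵢ[ℝ] E4, isoS g x = y :=
  ⟨Submodule.reflection (ℝ ∙ ((x : E4) - y))ᗮ, Subtype.ext (Submodule.reflection_sub (by simp))⟩

theorem invV_toH {k : ℕ} {v : CS} (hv : v ∈ V k) :
    invV k ⟨toH v, toH_memWH (k := k + 1) hv⟩ = v := toH_inj (invV_spec k _).2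

/-- sup bound for polynomials of degree `≤ k` -/
theorem sup_le {k : ℕ} {v : CS} (hv : v ∈ V k) : ‖v‖ ≤ ((k : ℝ) + 1) ^ 2 * ‖toH v‖ := by
  let ev : S3 → (WH (k + 1) →L[ℂ] ℂ) := fun x => (ContinuousMap.evalCLM ℂ x).comp (invV k)
  have ev_apply : ∀ x w, ev x w = invV k w x := fun _ _ => rfl
  have h1 : ∀ x, ∀ u ∈ V k, ‖u x‖ ≤ ‖ev x‖ * ‖toH u‖ := by
    intro x u hu
    have := (ev x).le_opNorm ⟨toH u, toH_memWH (k := k + 1) hu⟩
    rwa [ev_apply, invV_toH hu] at this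
  have h2 : ∀ x y, ‖ev x‖ ≤ ‖ev y‖ := by
    intro x y
    refine ContinuousLinearMap.opNorm_le_bound _ (ev y).opNorm_nonneg fun w => ?_
    obtain ⟨g, hg⟩ := exists_iso y x
    have := h1 y _ (cmp_mem_V g (invV_spec k w).1)
    rwa [cmp_apply, hg, norm_cmp, (invV_spec k w).2] at this
  let b := stdOrthonormalBasis ℂ (WH (k + 1))
  have h3 : ∀ y, ‖ev y‖ ^ 2 = ∑ i, ‖invV k (b i) y‖ ^ 2 := by
    intro y
    rw [← (InnerProductSpace.toDual ℂ (WH (k + 1))).symm.norm_map (ev y),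
      ← b.sum_sq_norm_inner_left]
    refine Finset.sum_congr rfl fun i _ => ?_
    rw [InnerProductSpace.toDual_symm_apply, ev_apply]
  have h4 : ∀ x, ‖ev x‖ ^ 2 ≤ ((k : ℝ) + 1) ^ 4 := by
    intro x
    have i1 : ∫ _y : S3, ‖ev x‖ ^ 2 ∂sg ≤ ∫ y, ∑ i, ‖invV k (b i) y‖ ^ 2 ∂sg := by
      refine integral_mono (integrable_const _) (integrable_CSR _ (by fun_prop)) fun y => ?_
      show ‖ev x‖ ^ 2 ≤ ∑ i, ‖invV k (b i) y‖ ^ 2
      rw [← h3]
      exact pow_le_pow_left₀ (ev x).opNorm_nonneg (h2 x y) 2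
    rw [integral_finsetSum _ fun i _ => integrable_CSR _ (by fun_prop), integral_const,
      smul_eq_mul] at i1
    have i2 : ∀ i, ∫ y, ‖invV k (b i) y‖ ^ 2 ∂sg = 1 := by
      intro i
      rw [← norm_toH_sq, (invV_spec k _).2]
      have : ‖(b i : H)‖ = 1 := b.orthonormal.1 i
      rw [this, one_pow]
    simp only [i2, Finset.sum_const, Finset.card_univ, Fintype.card_fin, nsmul_eq_mul,
      mul_one] at i1
    have i3 : Module.finrank ℂ (WH (k + 1)) ≤ (k + 1) ^ 4 :=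
      (Submodule.finrank_map_le _ _).trans (finrank_V k)
    have i4 : (Module.finrank ℂ (WH (k + 1)) : ℝ) ≤ ((k : ℝ) + 1) ^ 4 := by exact_mod_cast i3
    nlinarith [one_le_sg, sq_nonneg ‖ev x‖]
  refine (ContinuousMap.norm_le _ (by positivity)).2 fun x => (h1 x v hv).trans ?_
  refine mul_le_mul_of_nonneg_right ?_ (norm_nonneg _)
  refine (sq_le_sq₀ (ev x).opNorm_nonneg (by positivity)).1 ((h4 x).trans (le_of_eq ?_))
  ring

theorem norm_Pc_le (k : ℕ) (u : H) : ‖Pc k u‖ ≤ ((k : ℝ) + 1) ^ 2 * ‖P k u‖ := by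
  simpa using sup_le (Pc_memV k u)

theorem norm_toH_le (u : CS) : ‖toH u‖ ≤ 5 * ‖u‖ := by
  refine (sq_le_sq₀ (norm_nonneg _) (by positivity)).1 ?_
  rw [norm_toH_sq]
  have i1 : ∫ x, ‖u x‖ ^ 2 ∂sg ≤ ∫ _x : S3, ‖u‖ ^ 2 ∂sg :=
    integral_mono (integrable_CSR _ (by fun_prop)) (integrable_const _) fun x =>
      pow_le_pow_left₀ (norm_nonneg _) (u.norm_coe_le_norm x) 2
  rw [integral_const, smul_eq_mul, sg_univ] at i1
  have : Real.pi ^ 2 ≤ 3.15 ^ 2 := pow_le_pow_left₀ Real.pi_pos.le Real.pi_lt_d2.le 2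
  nlinarith [sq_nonneg ‖u‖]

/-- product of two polynomials in `L²` -/
theorem norm_toH_mul_le {j k : ℕ} {u v : CS} (hu : u ∈ V j) (hv : v ∈ V k) :
    ‖toH (u * v)‖ ≤ ((min j k : ℕ) + 1 : ℝ) ^ 2 * ‖toH u‖ * ‖toH v‖ := by
  rcases le_total j k with h | h
  · rw [min_eq_left h]
    exact (norm_toH_mul u v).trans (mul_le_mul_of_nonneg_right (sup_le hu) (norm_nonneg _))
  · rw [min_eq_right h, mul_comm u, mul_right_comm]
    exact (norm_toH_mul v u).trans (mul_le_mul_of_nonneg_right (sup_le hv) (norm_nonneg _))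

/-! ### commutation -/

theorem HR.Pc {a : Pr 4} {v v' : CS} (h : HR a v v') (k : ℕ) :
    Pc k (toH v') = R a (Pc k (toH v)) := by
  apply toH_inj
  refine ext_inner_left ℂ fun z => ?_
  have he := Pc_mem k z
  have hv := Pc_mem k (toH v)
  have e1 := (HR_R a (E_le_V k he)).inner h
  have e2 := (HR_R a (E_le_V k he)).inner (HR_R a (E_le_V k hv))
  rw [toH_Pc k (toH v), ← inner_P, mem_E.1 (R_mem_E a he), e1, neg_inj, toH_Pc, inner_P,
    inner_P, mem_E.1 (R_mem_E a hv)] at e2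
  rw [toH_Pc, e2]

theorem Pc_cmp (g : E4 ≃ₗᵢ[ℝ] E4) (k : ℕ) (v : CS) :
    Pc k (toH (cmp g v)) = cmp g (Pc k (toH v)) := by
  apply toH_inj
  refine ext_inner_left ℂ fun z => ?_
  have he := Pc_mem k z
  rw [toH_Pc, ← mem_E.1 (cmp_mem_E g (Pc_mem k (toH v))), ← inner_P, ← inner_P, ← toH_Pc,
    ← cmp_symm_cmp g (Pc k z), inner_cmp, inner_cmp, toH_Pc, ← inner_P,
    mem_E.1 (cmp_mem_E _ he)]

theorem Pc_star (k : ℕ) (v : CS) : Pc k (toH (star v)) = star (Pc k (toH v)) := by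
  apply toH_inj
  refine ext_inner_left ℂ fun z => ?_
  have he := Pc_mem k z
  rw [toH_Pc, ← mem_E.1 (star_mem_E (Pc_mem k (toH v))), ← inner_P, ← inner_P, ← toH_Pc,
    ← star_star (Pc k z), inner_star, inner_star, toH_Pc, inner_P, mem_E.1 (star_mem_E he)]

theorem HR.norm_P_le {a : Pr 4} {v v' : CS} (h : HR a v v') (k : ℕ) :
    ‖P k (toH v')‖ ≤ (k + 1) * ‖P k (toH v)‖ := by
  rw [← toH_Pc, h.Pc, ← toH_Pc]
  exact norm_R_le a (Pc_mem k _)

/-- `k(k+2)|P_k v|² = ∑_a |P_k R_a v|²` for differentiable `v` -/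
theorem sum_norm_P_HR {v : CS} {v' : Pr 4 → CS} (h : ∀ a, HR a v (v' a)) (k : ℕ) :
    ∑ a, ‖P k (toH (v' a))‖ ^ 2 = (k * (k + 2) : ℝ) * ‖P k (toH v)‖ ^ 2 := by
  rw [← toH_Pc, ← sum_norm_R (Pc_mem k _)]
  exact Finset.sum_congr rfl fun a _ => by rw [← toH_Pc, (h a).Pc]

/-! ### series of harmonics in `C(S³)` -/

theorem summable_E {v : ℕ → CS} (hv : ∀ k, v k ∈ V k)
    (hs : Summable fun k : ℕ => ((k : ℝ) + 1) ^ 2 * ‖toH (v k)‖) : Summable v :=
  Summable.of_norm_bounded hs fun k => sup_le (hv k)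

theorem Pc_of_hasSum {v : ℕ → CS} (hv : ∀ k, v k ∈ E k) {u : CS} (hu : HasSum v u) (k : ℕ) :
    Pc k (toH u) = v k :=
  toH_inj (by rw [toH_Pc, P_of_hasSum (fun j => mem_E.1 (hv j)) (hu.mapL toH)])

theorem hasSum_Pc {u : CS} (hs : Summable fun k : ℕ => ((k : ℝ) + 1) ^ 2 * ‖P k (toH u)‖) :
    HasSum (fun k => Pc k (toH u)) u := by
  have h := (summable_E (fun k => Pc_memV k (toH u)) (by simpa using hs)).hasSum
  have h1 := h.mapL toH
  simp only [toH_Pc] at h1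
  rwa [toH_inj (h1.unique (hasSum_P (toH u)))] at h

theorem ext_Pc {u v : CS} (h : ∀ k, Pc k (toH u) = Pc k (toH v)) : u = v :=
  toH_inj (ext_P fun k => by rw [← toH_Pc, h, toH_Pc])

/-- termwise rotation derivative of a series -/
theorem HR.hasSum {a : Pr 4} {u u' : ℕ → CS} {v v' : CS} (hu : HasSum u v) (hu' : HasSum u' v')
    (h : ∀ i, HR a (u i) (u' i)) : HR a v v' :=
  HR.tendsto hu hu' fun _ => HR.sum fun i _ => h i

end Crest.Agent.N207.J
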